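import Vale.Agent.P074.Basic

namespace Vale.Agent.P074

open MeasureTheory
open scoped ENNReal

/-- `T` is a quadratic optimal transport map from the uniform law on `K` to `μ`: a Borel map
pushing the uniform law to `μ` with the least quadratic cost among such maps. -/
def IsOptimalMap {d : ℕ} (K : Set (EuclideanSpace ℝ (Fin d)))
    (μ : Measure (EuclideanSpace ℝ (Fin d)))
    (T : EuclideanSpace ℝ (Fin d) → EuclideanSpace ℝ (Fin d)) : Prop :=
  Measurable T ∧ (unif K).map T = μ ∧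
    ∀ S : EuclideanSpace ℝ (Fin d) → EuclideanSpace ℝ (Fin d), Measurable S →
      (unif K).map S = μ →
      ∫⁻ x, ENNReal.ofReal (‖x - T x‖ ^ 2) ∂(unif K)
        ≤ ∫⁻ x, ENNReal.ofReal (‖x - S x‖ ^ 2) ∂(unif K)

/-- The quadratic transport distance: the square root of the least cost of a coupling. -/
noncomputable def W2 {d : ℕ} (μ ν : Measure (EuclideanSpace ℝ (Fin d))) : ℝ :=
  Real.sqrt (⨅ (π : Measure (EuclideanSpace ℝ (Fin d) × EuclideanSpace ℝ (Fin d)))
    (_ : π.map Prod.fst = μ) (_ : π.map Prod.snd = ν),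
      ∫⁻ p, ENNReal.ofReal (‖p.1 - p.2‖ ^ 2) ∂π).toReal

/-- The exponent `α` is admissible in dimension `d`. -/
def Admissible (d : ℕ) (α : ℝ) : Prop :=
  ∀ K : Set (EuclideanSpace ℝ (Fin d)), IsCompact K → Convex ℝ K → (interior K).Nonempty →
    ∀ Y : Set (EuclideanSpace ℝ (Fin d)), IsCompact Y → Y.Nonempty →
      ∃ C : ℝ, ∀ μ ν : Measure (EuclideanSpace ℝ (Fin d)),
        IsProbabilityMeasure μ → IsProbabilityMeasure ν → μ Yᶜ = 0 → ν Yᶜ = 0 →
        ∀ T S : EuclideanSpace ℝ (Fin d) → EuclideanSpace ℝ (Fin d),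
          IsOptimalMap K μ T → IsOptimalMap K ν S →
          Real.sqrt (∫ x, ‖T x - S x‖ ^ 2 ∂(unif K)) ≤ C * W2 μ ν ^ α

end Vale.Agent.P074
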