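import Vale.Agent.P074.Rounding

namespace Vale.Agent.P074

open MeasureTheory Filter Topology Set Finset
open scoped ENNReal BoundedContinuousFunction

variable {n : ℕ}

/-- Gap between near subgradients and the cell map, in L1. -/
theorem l1_bound {K : Set (EuclideanSpace ℝ (Fin (n + 1)))} (hK : IsCompact K) (hc : Convex ℝ K)
    (hne : (interior K).Nonempty) {R : ℝ} (hR : 0 ≤ R) (hKR : K ⊆ Metric.closedBall 0 R)
    {L : ℝ} {κ : Type} [Fintype κ] [Nonempty κ] {y : κ → EuclideanSpace ℝ (Fin (n + 1))}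
    (hy : Function.Injective y) (hyL : ∀ k, ‖y k‖ ≤ L) {m a : κ → ℝ} (ha : SD (unif K) y m a)
    {S : EuclideanSpace ℝ (Fin (n + 1)) → EuclideanSpace ℝ (Fin (n + 1))} (hS : Measurable S)
    (hSm : (unif K).map S = discr y m) (i : Fin (n + 1)) {h : ℝ} (hh : 0 < h) :
    ∫ x, |(S x - cellMap y a x) i| ∂(unif K)
      ≤ (volume.real K)⁻¹ * (2 * L * (2 * R) ^ n) * h
        + (pairing K (cellMap y a) - pairing K S) / h := by
  classical
  have := isProbabilityMeasure_unif hK hne
  have hn : ∀ᵐ x ∂(unif K), ‖x‖ ≤ R :=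
    (ae_mem_unif hK).mono fun x hx => mem_closedBall_zero_iff.1 (hKR hx)
  have hm : ∀ k, 0 ≤ m k := fun k => ha k ▸ measureReal_nonneg
  let A : EuclideanSpace ℝ (Fin (n + 1)) → ℝ := fun z => ∑ k, if z = y k then a k else 0
  have hAk : ∀ k, A (y k) = a k := fun k => by simp [A, hy.eq_iff]
  have hAm : Measurable A := Finset.measurable_fun_sum _ fun k _ =>
    Measurable.ite (measurableSet_singleton (y k)) measurable_const measurable_const
  have hval : ∀ᵐ x ∂(unif K), ∃ k, y k = S x := by
    refine ae_of_ae_map hS.aemeasurable (p := fun z => ∃ k, y k = z) ?_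
    rw [hSm]
    have hB : MeasurableSet (Set.range y)ᶜ := (Set.finite_range y).measurableSet.compl
    rw [ae_iff, show {z | ¬∃ k, y k = z} = (Set.range y)ᶜ from rfl, discr_apply y m hB]
    simp
  have hSb : ∀ᵐ x ∂(unif K), ‖S x‖ ≤ L := hval.mono fun x ⟨k, hk⟩ => hk ▸ hyL k
  have iA : Integrable (fun x => A (S x)) (unif K) := by
    have h0 : Integrable A ((unif K).map S) := hSm ▸ integrable_discr y m A
    exact h0.comp_measurable hS
  have iS := integrable_inner_map hK hne hS hSb
  have ip := integrable_bounded_support hn (continuous_pot y a)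
  let G : EuclideanSpace ℝ (Fin (n + 1)) → ℝ := fun x => pot y a x - inner ℝ x (S x) + A (S x)
  have iG : Integrable G (unif K) := (ip.sub iS).add iA
  have hG : ∫ x, G x ∂(unif K) = pairing K (cellMap y a) - pairing K S := by
    have e : ∫ x, A (S x) ∂(unif K) = ∑ k, m k * a k := by
      rw [← integral_map hS.aemeasurable hAm.aestronglyMeasurable, hSm, integral_discr y hm]
      simp [hAk]
    have ips : Integrable (fun x => pot y a x - inner ℝ x (S x)) (unif K) := ip.sub iS
    simp only [G]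
    rw [integral_add ips iA, integral_sub ip iS, e, pairing_cellMap hK hne hy ha, obj, pairing]
    ring
  obtain ⟨e, he⟩ : ∃ e, e = EuclideanSpace.single i (1 : ℝ) := ⟨_, rfl⟩
  let δ : EuclideanSpace ℝ (Fin (n + 1)) → ℝ := fun x =>
    (pot y a (x + h • e) + pot y a (x - h • e) - 2 * pot y a x) / h
  have hδc : Continuous δ := (((continuous_pot y a).comp (continuous_id.add continuous_const)).add
    ((continuous_pot y a).comp (continuous_id.sub continuous_const))).sub
      (continuous_const.mul (continuous_pot y a)) |>.div_const h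
  have hδ0 : ∀ x, 0 ≤ δ x := fun x => by
    refine div_nonneg ?_ hh.le
    obtain ⟨k, hk⟩ := exists_pot_eq y a x
    have h1 := score_le_pot y a k (x + h • e)
    have h2 := score_le_pot y a k (x - h • e)
    simp only [score, inner_add_left, inner_sub_left] at h1 h2 hk
    linarith
  have hpt : ∀ᵐ x ∂(unif K), |(S x - cellMap y a x) i| ≤ δ x + G x / h := by
    filter_upwards [hval, ae_exists_cell (unif_absolutelyContinuous K) hy a] with x hx1 hx2
    obtain ⟨k, hk⟩ := hx1
    obtain ⟨l, hl⟩ := hx2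
    have hsc : inner ℝ x (y k) - a k ≤ pot y a x := score_le_pot y a k x
    have u1 := score_le_pot y a k (x + h • e)
    have u2 := score_le_pot y a k (x - h • e)
    have v1 := pot_subgradient hl (x + h • e)
    have v2 := pot_subgradient hl (x - h • e)
    rw [add_sub_cancel_left] at v1
    rw [sub_sub_cancel_left, inner_neg_left] at v2
    have hG' : G x = pot y a x - inner ℝ x (y k) + a k := by simp [G, ← hk, hAk]
    have ek : (S x - cellMap y a x) i = inner ℝ e (y k) - inner ℝ e (y l) := by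
      rw [← hk, cellMap_of_mem hl, he, EuclideanSpace.inner_single_left,
        EuclideanSpace.inner_single_left]
      simp
    rw [ek, show δ x + G x / h = (pot y a (x + h • e) + pot y a (x - h • e) - 2 * pot y a x + G x) / h
      by simp only [δ]; ring, le_div_iff₀ hh, ← abs_of_pos hh, ← abs_mul]
    simp only [score, inner_add_left, inner_sub_left, real_inner_smul_left] at u1 u2 v1 v2
    rw [hG', abs_of_pos hh, abs_le]
    constructor <;> nlinarith
  have hδi : ∫ x, δ x ∂(unif K) ≤ (volume.real K)⁻¹ * (2 * L * (2 * R) ^ n) * h := by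
    rw [integral_unif, mul_assoc]
    refine mul_le_mul_of_nonneg_left ?_ (inv_nonneg.2 measureReal_nonneg)
    obtain ⟨k0⟩ := ‹Nonempty κ›
    have hL : 0 ≤ L := (norm_nonneg _).trans (hyL k0)
    refine le_of_le_of_eq (slice_bound (F := δ) (G := fun _ => (0 : ℝ)) i hK hc hR hKR hδc
      continuous_const hδ0 (fun _ => le_rfl) (A := 2 * L * h) (B := 0) (by positivity) le_rfl
      fun v p q hpq => ?_) (by simp; ring)
    simp only [zero_mul, add_zero]
    have hlip := pot_line_lip hyL a (lineAt i v 0) (e := EuclideanSpace.single i 1) (by simp)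
    refine le_trans (le_of_eq (intervalIntegral.integral_congr fun s _ => ?_))
      (integral_slope_incr (L := L) (continuous_of_lip hlip) (fun h' hh' => abs_dq_le hlip hh') hh p q)
    simp only [δ, dq, ← lineAt_eq, sub_add_cancel]
    have e1 : lineAt i v s + h • e = lineAt i v (s + h) := by
      rw [he, lineAt_eq i v s, lineAt_eq i v (s + h), add_smul, add_assoc]
    have e2 : lineAt i v s - h • e = lineAt i v (s - h) := by
      rw [he, lineAt_eq i v s, lineAt_eq i v (s - h), sub_smul, add_sub_assoc]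
    rw [e1, e2]
    ring
  have iabs : Integrable (fun x => |(S x - cellMap y a x) i|) (unif K) := by
    refine integrable_of_bound (B := L + L) ?_ ?_
    · exact ((measurable_pi_apply i).comp ((PiLp.volume_preserving_ofLp (Fin (n + 1))).measurable.comp
        (hS.sub (measurable_cellMap y a)))).abs
    · filter_upwards [hSb, ae_exists_cell (unif_absolutelyContinuous K) hy a] with x hs hx
      obtain ⟨l, hl⟩ := hx
      rw [abs_abs, cellMap_of_mem hl]
      exact (PiLp.norm_apply_le _ i).trans ((norm_sub_le _ _).trans (add_le_add hs (hyL l)))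
  have iδ := integrable_bounded_support hn hδc
  refine (integral_mono_ae iabs (iδ.add (iG.div_const h)) hpt).trans ?_
  simp only [Pi.add_apply]
  rw [integral_add iδ (iG.div_const h), integral_div h G, hG]
  linarith

/-- Maps to nearby finitely supported laws approximate every optimal map. -/
structure Approx (K : Set (EuclideanSpace ℝ (Fin (n + 1)))) (L : ℝ)
    (μ : Measure (EuclideanSpace ℝ (Fin (n + 1))))
    (r T : ℕ → EuclideanSpace ℝ (Fin (n + 1)) → EuclideanSpace ℝ (Fin (n + 1))) : Prop where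
  cellmap : ∀ j, IsCellMap K L (μ.map (r j)) (T j)

/-- The rounding accuracy. -/
noncomputable def acc (j : ℕ) : ℝ := (1 / 8 : ℝ) ^ j

theorem acc_pos (j : ℕ) : 0 < acc j := by unfold acc; positivity

theorem tendsto_acc : Tendsto acc atTop (𝓝 0) :=
  tendsto_pow_atTop_nhds_zero_of_lt_one (by norm_num) (by norm_num)

variable {K : Set (EuclideanSpace ℝ (Fin (n + 1)))} {L : ℝ}
  {μ : Measure (EuclideanSpace ℝ (Fin (n + 1)))}
  {r T : ℕ → EuclideanSpace ℝ (Fin (n + 1)) → EuclideanSpace ℝ (Fin (n + 1))}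

theorem cost_rounded_le {C : ℝ} (hC : 0 ≤ C)
    (hC' : ∀ μ ν T S, IsCellMap K L μ T → IsCellMap K L ν S →
      ∀ π : Measure (EuclideanSpace ℝ (Fin (n + 1)) × EuclideanSpace ℝ (Fin (n + 1))),
        IsFiniteMeasure π → π.map Prod.fst = μ → π.map Prod.snd = ν →
        ∫ x, ‖T x - S x‖ ^ 2 ∂(unif K) ≤ C * (∫ p, ‖p.1 - p.2‖ ^ 2 ∂π) ^ (1 / 3 : ℝ))
    {μ ν : Measure (EuclideanSpace ℝ (Fin (n + 1)))}
    {f g U V : EuclideanSpace ℝ (Fin (n + 1)) → EuclideanSpace ℝ (Fin (n + 1))}
    (hf : Measurable f) (hg : Measurable g) (hU : IsCellMap K L (μ.map f) U)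
    (hV : IsCellMap K L (ν.map g) V) {εf εg : ℝ} (hf' : ∀ᵐ x ∂μ, ‖f x - x‖ ≤ εf)
    (hg' : ∀ᵐ x ∂ν, ‖g x - x‖ ≤ εg) (hεf : 0 ≤ εf) (hεg : 0 ≤ εg)
    {π : Measure (EuclideanSpace ℝ (Fin (n + 1)) × EuclideanSpace ℝ (Fin (n + 1)))}
    [IsProbabilityMeasure π] (h1 : π.map Prod.fst = μ) (h2 : π.map Prod.snd = ν)
    (hint : Integrable (fun p => ‖p.1 - p.2‖ ^ 2) π) :
    ∫ x, ‖U x - V x‖ ^ 2 ∂(unif K)
      ≤ C * (2 * (∫ p, ‖p.1 - p.2‖ ^ 2 ∂π) + 2 * (εf + εg) ^ 2) ^ (1 / 3 : ℝ) := by
  have hfg : Measurable fun p : EuclideanSpace ℝ (Fin (n + 1)) × EuclideanSpace ℝ (Fin (n + 1)) =>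
      (f p.1, g p.2) := (hf.comp measurable_fst).prodMk (hg.comp measurable_snd)
  have e1 : (π.map fun p => (f p.1, g p.2)).map Prod.fst = μ.map f := by
    rw [← h1, Measure.map_map measurable_fst hfg, Measure.map_map hf measurable_fst]
    rfl
  have e2 : (π.map fun p => (f p.1, g p.2)).map Prod.snd = ν.map g := by
    rw [← h2, Measure.map_map measurable_snd hfg, Measure.map_map hg measurable_snd]
    rfl
  have := Measure.isProbabilityMeasure_map (μ := π) hfg.aemeasurable
  refine (hC' _ _ U V hU hV _ inferInstance e1 e2).trans (mul_le_mul_of_nonneg_left ?_ hC)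
  refine Real.rpow_le_rpow (integral_nonneg fun p => sq_nonneg _) ?_ (by norm_num)
  have hm : AEStronglyMeasurable (fun q : EuclideanSpace ℝ (Fin (n + 1)) ×
      EuclideanSpace ℝ (Fin (n + 1)) => ‖q.1 - q.2‖ ^ 2) (π.map fun p => (f p.1, g p.2)) :=
    ((measurable_fst.sub measurable_snd).norm.pow_const 2).aestronglyMeasurable
  rw [integral_map hfg.aemeasurable hm]
  refine le_trans (integral_mono_of_nonneg (ae_of_all _ fun p => sq_nonneg _)
    ((hint.const_mul 2).add (integrable_const (2 * (εf + εg) ^ 2))) ?_) (le_of_eq ?_)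
  · filter_upwards [ae_of_ae_map measurable_fst.aemeasurable (h1 ▸ hf'),
      ae_of_ae_map measurable_snd.aemeasurable (h2 ▸ hg')] with p hp1 hp2
    have h3 : ‖f p.1 - g p.2‖ ≤ ‖p.1 - p.2‖ + (εf + εg) := by
      calc ‖f p.1 - g p.2‖ = ‖(p.1 - p.2) + (f p.1 - p.1) - (g p.2 - p.2)‖ := by congr 1; abel
        _ ≤ ‖p.1 - p.2‖ + ‖f p.1 - p.1‖ + ‖g p.2 - p.2‖ :=
            (norm_sub_le _ _).trans (add_le_add (norm_add_le _ _) le_rfl)
        _ ≤ _ := by linarith
    show ‖f p.1 - g p.2‖ ^ 2 ≤ 2 * ‖p.1 - p.2‖ ^ 2 + 2 * (εf + εg) ^ 2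
    nlinarith [pow_le_pow_left₀ (norm_nonneg _) h3 2, sq_nonneg (‖p.1 - p.2‖ - (εf + εg))]
  · simp only [Pi.add_apply]
    rw [integral_add (hint.const_mul 2) (integrable_const _), integral_const_mul, integral_const]
    simp

/-- Existence of an optimal map as a limit. -/
theorem exists_limit_optimal (hK : IsCompact K) (hne : (interior K).Nonempty) {C : ℝ} (hC : 0 ≤ C)
    (hC' : ∀ μ ν T S, IsCellMap K L μ T → IsCellMap K L ν S →
      ∀ π : Measure (EuclideanSpace ℝ (Fin (n + 1)) × EuclideanSpace ℝ (Fin (n + 1))),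
        IsFiniteMeasure π → π.map Prod.fst = μ → π.map Prod.snd = ν →
        ∫ x, ‖T x - S x‖ ^ 2 ∂(unif K) ≤ C * (∫ p, ‖p.1 - p.2‖ ^ 2 ∂π) ^ (1 / 3 : ℝ))
    [IsProbabilityMeasure μ] (hμ : ∀ᵐ z ∂μ, ‖z‖ ≤ L) (hr : ∀ j, Measurable (r j))
    (hrε : ∀ j y, ‖y‖ ≤ L → ‖r j y - y‖ ≤ acc j) (hT : ∀ j, IsCellMap K L (μ.map (r j)) (T j)) :
    ∃ T₀, IsOptimalMap K μ T₀ ∧ Tendsto (fun j => pairing K (T j)) atTop (𝓝 (pairing K T₀)) ∧
      (∀ᵐ x ∂(unif K), Tendsto (fun j => T j x) atTop (𝓝 (T₀ x))) := by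
  have := isProbabilityMeasure_unif hK hne
  have hTm : ∀ j, Measurable (T j) := fun j => (hT j).measurable
  have hTb : ∀ᵐ x ∂(unif K), ∀ j, ‖T j x‖ ≤ L := ae_all_iff.2 fun j => (hT j).norm_le
  have hrμ : ∀ j, ∀ᵐ z ∂μ, ‖r j z - z‖ ≤ acc j := fun j => hμ.mono fun z hz => hrε j z hz
  have hstep : ∀ j, ∫ x, ‖T j x - T (j + 1) x‖ ^ 2 ∂(unif K) ≤ C * (2 * (1 / 4 : ℝ) ^ j) := by
    intro j
    have hd : Measurable fun z : EuclideanSpace ℝ (Fin (n + 1)) => (z, z) :=
      measurable_id.prodMk measurable_id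
    have := Measure.isProbabilityMeasure_map (μ := μ) hd.aemeasurable
    have hm : AEStronglyMeasurable (fun q : EuclideanSpace ℝ (Fin (n + 1)) ×
        EuclideanSpace ℝ (Fin (n + 1)) => ‖q.1 - q.2‖ ^ 2) (μ.map fun z => (z, z)) :=
      ((measurable_fst.sub measurable_snd).norm.pow_const 2).aestronglyMeasurable
    have hint : Integrable (fun p => ‖p.1 - p.2‖ ^ 2) (μ.map fun z => (z, z)) := by
      rw [integrable_map_measure hm hd.aemeasurable]
      simp [Function.comp_def]
    have h := cost_rounded_le hC hC' (hr j) (hr (j + 1)) (hT j) (hT (j + 1)) (hrμ j) (hrμ (j + 1))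
      (acc_pos j).le (acc_pos _).le
      (π := μ.map fun z => (z, z)) (by rw [Measure.map_map measurable_fst hd]; exact Measure.map_id)
      (by rw [Measure.map_map measurable_snd hd]; exact Measure.map_id) hint
    refine h.trans (mul_le_mul_of_nonneg_left ?_ hC)
    rw [integral_map hd.aemeasurable hm]
    simp only [sub_self, norm_zero]
    have e : (2 * (1 / 4 : ℝ) ^ j) = ((2 * (1 / 4 : ℝ) ^ j) ^ 3) ^ (1 / 3 : ℝ) := by
      rw [show (1 / 3 : ℝ) = ((3 : ℕ) : ℝ)⁻¹ by norm_num,
        Real.pow_rpow_inv_natCast (by positivity) (by norm_num)]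
    rw [e]
    refine Real.rpow_le_rpow (by positivity) ?_ (by norm_num)
    simp only [acc, pow_succ]
    have e2 : ((1 / 8 : ℝ) ^ j) ^ 2 = ((1 / 4 : ℝ) ^ j) ^ 3 := by
      rw [← pow_mul, ← pow_mul, mul_comm j 2, mul_comm j 3, pow_mul, pow_mul]
      norm_num
    simp only [zero_pow (by norm_num : 2 ≠ 0), integral_zero, mul_zero, zero_add]
    nlinarith [e2, pow_nonneg (pow_nonneg (show (0 : ℝ) ≤ 1 / 4 by norm_num) j) 3]
  have hi : ∀ j, Integrable (fun x => ‖T j x - T (j + 1) x‖) (unif K) := fun j => by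
    refine integrable_of_bound (B := L + L) ((hTm j).sub (hTm (j + 1))).norm ?_
    filter_upwards [hTb] with x hx
    rw [abs_norm]
    exact (norm_sub_le _ _).trans (add_le_add (hx j) (hx (j + 1)))
  have hsum : ∑' j, ∫⁻ x, ENNReal.ofReal ‖T j x - T (j + 1) x‖ ∂(unif K) ≠ ⊤ := by
    have hj : ∀ j, ∫⁻ x, ENNReal.ofReal ‖T j x - T (j + 1) x‖ ∂(unif K)
        ≤ ENNReal.ofReal ((C + 1) * (1 / 2 : ℝ) ^ j) := by
      intro j
      rw [← ofReal_integral_eq_lintegral_ofReal (hi j) (ae_of_all _ fun x => norm_nonneg _)]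
      refine ENNReal.ofReal_le_ofReal ?_
      have i2 : Integrable (fun x => (2 : ℝ) ^ j / 2 * ‖T j x - T (j + 1) x‖ ^ 2) (unif K) := by
        refine (integrable_of_bound (B := (L + L) ^ 2)
          (((hTm j).sub (hTm (j + 1))).norm.pow_const 2) ?_).const_mul _
        filter_upwards [hTb] with x hx
        rw [abs_of_nonneg (sq_nonneg _)]
        exact pow_le_pow_left₀ (norm_nonneg _) ((norm_sub_le _ _).trans (add_le_add (hx j) (hx (j + 1)))) 2
      refine (integral_mono (hi j) (i2.add (integrable_const ((1 / 2 : ℝ) ^ j / 2))) fun x => ?_).trans ?_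
      · show ‖T j x - T (j + 1) x‖ ≤ 2 ^ j / 2 * ‖T j x - T (j + 1) x‖ ^ 2 + (1 / 2 : ℝ) ^ j / 2
        have hp : (0 : ℝ) < 2 ^ j := by positivity
        rw [div_pow, one_pow]
        field_simp
        nlinarith [sq_nonneg (2 ^ j * ‖T j x - T (j + 1) x‖ - 1)]
      · simp only [Pi.add_apply]
        rw [integral_add i2 (integrable_const _), integral_const_mul, integral_const, probReal_univ,
          one_smul]
        refine (add_le_add (mul_le_mul_of_nonneg_left (hstep j) (by positivity)) le_rfl).trans ?_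
        have : (2 : ℝ) ^ j * (1 / 4) ^ j = (1 / 2) ^ j := by
          rw [← mul_pow]; norm_num
        nlinarith [pow_nonneg (show (0 : ℝ) ≤ 1 / 2 by norm_num) j]
    refine ne_top_of_le_ne_top ?_ (ENNReal.tsum_le_tsum hj)
    rw [← ENNReal.ofReal_tsum_of_nonneg (fun j => by positivity)
      ((summable_geometric_of_lt_one (by norm_num) (by norm_num)).mul_left _)]
    exact ENNReal.ofReal_ne_top
  have hlim : ∀ᵐ x ∂(unif K), ∃ l, Tendsto (fun j => T j x) atTop (𝓝 l) := by
    have hm2 : ∀ j, Measurable fun x => ENNReal.ofReal ‖T j x - T (j + 1) x‖ := fun j =>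
      ((hTm j).sub (hTm (j + 1))).norm.ennreal_ofReal
    rw [← lintegral_tsum fun j => (hm2 j).aemeasurable] at hsum
    filter_upwards [ae_lt_top (Measurable.ennreal_tsum hm2) hsum] with x hx
    have hs : Summable fun j => ‖T j x - T (j + 1) x‖ := by
      have := ENNReal.summable_toReal hx.ne
      simpa [ENNReal.toReal_ofReal] using this
    exact cauchySeq_tendsto_of_complete (cauchySeq_of_summable_dist (by simpa [dist_eq_norm] using hs))
  obtain ⟨T₀, hT₀m, hT₀⟩ := measurable_limit_of_tendsto_metrizable_ae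
    (fun j => (hTm j).aemeasurable) hlim
  have hT₀b : ∀ᵐ x ∂(unif K), ‖T₀ x‖ ≤ L := by
    filter_upwards [hTb, hT₀] with x hx hl
    exact le_of_tendsto hl.norm (Eventually.of_forall hx)
  have hr0 : ∀ᵐ z ∂μ, Tendsto (fun j => r j z) atTop (𝓝 z) := by
    filter_upwards [hμ] with z hz
    rw [tendsto_iff_norm_sub_tendsto_zero]
    exact squeeze_zero (fun j => norm_nonneg _) (fun j => hrε j z hz) tendsto_acc
  have hmap : (unif K).map T₀ = μ := by
    have := Measure.isProbabilityMeasure_map (μ := unif K) hT₀m.aemeasurable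
    refine ext_of_forall_integral_eq_of_IsFiniteMeasure fun f => ?_
    rw [integral_map hT₀m.aemeasurable f.continuous.aestronglyMeasurable]
    have l1 : Tendsto (fun j => ∫ x, f (T j x) ∂(unif K)) atTop (𝓝 (∫ x, f (T₀ x) ∂(unif K))) := by
      refine tendsto_integral_of_dominated_convergence (fun _ => ‖f‖)
        (fun j => (f.continuous.measurable.comp (hTm j)).aestronglyMeasurable) (integrable_const _)
        (fun j => ae_of_all _ fun x => f.norm_coe_le_norm _) ?_
      filter_upwards [hT₀] with x hx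
      exact (f.continuous.tendsto _).comp hx
    have l2 : Tendsto (fun j => ∫ z, f (r j z) ∂μ) atTop (𝓝 (∫ z, f z ∂μ)) := by
      refine tendsto_integral_of_dominated_convergence (fun _ => ‖f‖)
        (fun j => (f.continuous.measurable.comp (hr j)).aestronglyMeasurable) (integrable_const _)
        (fun j => ae_of_all _ fun x => f.norm_coe_le_norm _) ?_
      filter_upwards [hr0] with z hz
      exact (f.continuous.tendsto _).comp hz
    have e : ∀ j, ∫ x, f (T j x) ∂(unif K) = ∫ z, f (r j z) ∂μ := fun j => by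
      rw [← integral_map (hTm j).aemeasurable f.continuous.aestronglyMeasurable,
        ← integral_map (hr j).aemeasurable f.continuous.aestronglyMeasurable]
      obtain ⟨κ, _, _, y, m, a, hy, -, -, ha, he, hTe⟩ := hT j
      rw [he, hTe, map_cellMap (unif_absolutelyContinuous K) hy ha]
    simp only [e] at l1
    exact tendsto_nhds_unique l1 l2
  obtain ⟨R, hKR⟩ := hK.isBounded.subset_closedBall 0
  have hpair : Tendsto (fun j => pairing K (T j)) atTop (𝓝 (pairing K T₀)) := by
    refine tendsto_integral_of_dominated_convergence (fun _ => R * L)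
      (fun j => (measurable_id.inner (hTm j)).aestronglyMeasurable) (integrable_const _)
      (fun j => ?_) ?_
    · filter_upwards [hTb, ae_mem_unif hK] with x hx hxK
      have hn : ‖x‖ ≤ R := mem_closedBall_zero_iff.1 (hKR hxK)
      exact (abs_real_inner_le_norm x _).trans
        (mul_le_mul hn (hx j) (norm_nonneg _) ((norm_nonneg x).trans hn))
    · filter_upwards [hT₀] with x hx
      exact tendsto_const_nhds.inner hx
  refine ⟨T₀, isOptimalMap_of_pairing hK hne hμ hT₀m hmap fun S hS hSμ => ?_, hpair, hT₀⟩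
  have hSb := ae_bound_of_map hS hSμ hμ
  have l : Tendsto (fun j => pairing K (fun x => r j (S x))) atTop (𝓝 (pairing K S)) := by
    refine tendsto_integral_of_dominated_convergence (fun _ => R * (L + 1))
      (fun j => (measurable_id.inner ((hr j).comp hS)).aestronglyMeasurable) (integrable_const _)
      (fun j => ?_) ?_
    · filter_upwards [hSb, ae_mem_unif hK] with x hx hxK
      have hn : ‖x‖ ≤ R := mem_closedBall_zero_iff.1 (hKR hxK)
      have h1 : ‖r j (S x)‖ ≤ L + 1 := by
        have h2 : acc j ≤ 1 := pow_le_one₀ (by norm_num) (by norm_num)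
        have h3 := norm_le_insert' (r j (S x)) (S x)
        linarith [hrε j (S x) hx]
      exact (abs_real_inner_le_norm x _).trans
        (mul_le_mul hn h1 (norm_nonneg _) ((norm_nonneg x).trans hn))
    · filter_upwards [ae_of_ae_map hS.aemeasurable (hSμ ▸ hr0)] with x hx
      exact tendsto_const_nhds.inner hx
  refine le_of_tendsto_of_tendsto' l hpair fun j => ?_
  obtain ⟨κ, _, _, y, m, a, hy, hm, -, ha, he, hTe⟩ := hT j
  rw [hTe, pairing_cellMap hK hne hy ha]
  refine pairing_le_obj hK hne hy (fun k => (hm k).le) ((hr j).comp hS) ?_ a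
  rw [← he, ← hSμ, Measure.map_map (hr j) hS]

/-- Every optimal map is the limit. -/
theorem optimal_unique (hK : IsCompact K) (hc : Convex ℝ K) (hne : (interior K).Nonempty)
    [IsProbabilityMeasure μ] (hμ : ∀ᵐ z ∂μ, ‖z‖ ≤ L) (hr : ∀ j, Measurable (r j))
    (hrL : ∀ j y, ‖r j y‖ ≤ L)
    (hrε : ∀ j y, ‖y‖ ≤ L → ‖r j y - y‖ ≤ acc j) (hT : ∀ j, IsCellMap K L (μ.map (r j)) (T j))
    {T₀ S : EuclideanSpace ℝ (Fin (n + 1)) → EuclideanSpace ℝ (Fin (n + 1))}
    (hT₀ : IsOptimalMap K μ T₀)
    (hpair : Tendsto (fun j => pairing K (T j)) atTop (𝓝 (pairing K T₀)))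
    (hlim : ∀ᵐ x ∂(unif K), Tendsto (fun j => T j x) atTop (𝓝 (T₀ x)))
    (hS : IsOptimalMap K μ S) : S =ᵐ[unif K] T₀ := by
  have := isProbabilityMeasure_unif hK hne
  obtain ⟨R, hKR⟩ := hK.isBounded.subset_closedBall 0
  have hR : 0 ≤ R := by
    obtain ⟨x, hx⟩ := hne
    exact (norm_nonneg x).trans (mem_closedBall_zero_iff.1 (hKR (interior_subset hx)))
  have hSb := ae_bound_of_map hS.1 hS.2.1 hμ
  have hTb : ∀ᵐ x ∂(unif K), ∀ j, ‖T j x‖ ≤ L := ae_all_iff.2 fun j => (hT j).norm_le
  have hrS : ∀ᵐ x ∂(unif K), Tendsto (fun j => r j (S x)) atTop (𝓝 (S x)) := by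
    filter_upwards [hSb] with x hx
    rw [tendsto_iff_norm_sub_tendsto_zero]
    exact squeeze_zero (fun j => norm_nonneg _) (fun j => hrε j _ hx) tendsto_acc
  have heq : pairing K S = pairing K T₀ :=
    le_antisymm (pairing_le_of_isOptimalMap hK hne hμ hT₀ hS.1 hS.2.1)
      (pairing_le_of_isOptimalMap hK hne hμ hS hT₀.1 hT₀.2.1)
  have lS : Tendsto (fun j => pairing K (fun x => r j (S x))) atTop (𝓝 (pairing K S)) := by
    refine tendsto_integral_of_dominated_convergence (fun _ => R * L)
      (fun j => (measurable_id.inner ((hr j).comp hS.1)).aestronglyMeasurable) (integrable_const _)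
      (fun j => ?_) ?_
    · filter_upwards [ae_mem_unif hK] with x hxK
      have hn : ‖x‖ ≤ R := mem_closedBall_zero_iff.1 (hKR hxK)
      exact (abs_real_inner_le_norm x _).trans
        (mul_le_mul hn (hrL j _) (norm_nonneg _) ((norm_nonneg x).trans hn))
    · filter_upwards [hrS] with x hx
      exact tendsto_const_nhds.inner hx
  have hcoord : ∀ i, (fun x => (S x - T₀ x) i) =ᵐ[unif K] 0 := by
    intro i
    obtain ⟨C1, hC1⟩ : ∃ C1, C1 = (volume.real K)⁻¹ * (2 * L * (2 * R) ^ n) := ⟨_, rfl⟩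
    have hci : Measurable fun x => (S x - T₀ x) i :=
      (measurable_pi_apply i).comp ((PiLp.volume_preserving_ofLp (Fin (n + 1))).measurable.comp
        (hS.1.sub hT₀.1))
    have l1 : Tendsto (fun j => ∫ x, |(r j (S x) - T j x) i| ∂(unif K)) atTop
        (𝓝 (∫ x, |(S x - T₀ x) i| ∂(unif K))) := by
      refine tendsto_integral_of_dominated_convergence (fun _ => L + L)
        (fun j => ((measurable_pi_apply i).comp
          ((PiLp.volume_preserving_ofLp (Fin (n + 1))).measurable.comp
            (((hr j).comp hS.1).sub (hT j).measurable))).abs.aestronglyMeasurable)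
        (integrable_const _) (fun j => ?_) ?_
      · filter_upwards [hTb] with x hx
        rw [Real.norm_eq_abs, abs_abs]
        exact (PiLp.norm_apply_le _ i).trans ((norm_sub_le _ _).trans (add_le_add (hrL j _) (hx j)))
      · filter_upwards [hrS, hlim] with x h1 h2
        exact (((continuous_apply i).comp (PiLp.continuous_ofLp 2 _)).tendsto _ |>.comp
          (h1.sub h2)).abs
    have hle : ∀ h : ℝ, 0 < h → ∫ x, |(S x - T₀ x) i| ∂(unif K) ≤ C1 * h := by
      intro h hh
      have l2 : Tendsto (fun j => C1 * h + (pairing K (T j) - pairing K (fun x => r j (S x))) / h)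
          atTop (𝓝 (C1 * h + (pairing K T₀ - pairing K S) / h)) :=
        ((hpair.sub lS).div_const h).const_add _
      rw [heq, sub_self, zero_div, add_zero] at l2
      refine le_of_tendsto_of_tendsto' l1 l2 fun j => ?_
      obtain ⟨κ, _, _, y, m, a, hy, hm, hyL, ha, he, hTe⟩ := hT j
      rw [hTe, hC1]
      refine l1_bound hK hc hne hR hKR hy hyL ha ((hr j).comp hS.1) ?_ i hh
      rw [← he, ← hS.2.1, Measure.map_map (hr j) hS.1]
    have h0 : ∫ x, |(S x - T₀ x) i| ∂(unif K) = 0 := by
      refine le_antisymm ?_ (integral_nonneg fun x => abs_nonneg _)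
      have l3 : Tendsto (fun j : ℕ => C1 * (1 / ((j : ℝ) + 1))) atTop (𝓝 (C1 * 0)) :=
        tendsto_one_div_add_atTop_nhds_zero_nat.const_mul _
      rw [mul_zero] at l3
      exact ge_of_tendsto l3 (Eventually.of_forall fun j => hle _ (by positivity))
    have hint : Integrable (fun x => |(S x - T₀ x) i|) (unif K) := by
      refine integrable_of_bound (B := L + L) hci.abs ?_
      filter_upwards [hSb, ae_bound_of_map hT₀.1 hT₀.2.1 hμ] with x h1 h2
      rw [abs_abs]
      exact (PiLp.norm_apply_le _ i).trans ((norm_sub_le _ _).trans (add_le_add h1 h2))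
    filter_upwards [(integral_eq_zero_iff_of_nonneg (fun x => abs_nonneg _) hint).1 h0] with x hx
    simpa using hx
  filter_upwards [ae_all_iff.2 hcoord] with x hx
  ext i
  have := hx i
  simp at this
  linarith

end Vale.Agent.P074
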