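import Mathlib

namespace Vale.Agent.P074

open MeasureTheory Filter Topology Set

variable {d : ℕ} {κ : Type}

/-- The affine function of the atom `k`. -/
noncomputable def score (y : κ → EuclideanSpace ℝ (Fin d)) (a : κ → ℝ) (k : κ)
    (x : EuclideanSpace ℝ (Fin d)) : ℝ :=
  inner ℝ x (y k) - a k

/-- The potential: the largest of the affine functions. -/
noncomputable def pot (y : κ → EuclideanSpace ℝ (Fin d)) (a : κ → ℝ)
    (x : EuclideanSpace ℝ (Fin d)) : ℝ :=
  ⨆ k, score y a k x

/-- The set where the atom `k` is the strict maximiser. -/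
def cell (y : κ → EuclideanSpace ℝ (Fin d)) (a : κ → ℝ) (k : κ) :
    Set (EuclideanSpace ℝ (Fin d)) :=
  {x | ∀ l, l ≠ k → score y a l x < score y a k x}

/-- The normalised volume on a set. -/
noncomputable def unif (K : Set (EuclideanSpace ℝ (Fin d))) :
    Measure (EuclideanSpace ℝ (Fin d)) :=
  (volume K)⁻¹ • volume.restrict K

/-- The cells of `y` with offsets `a` have the prescribed masses. -/
def SD (σ : Measure (EuclideanSpace ℝ (Fin d))) (y : κ → EuclideanSpace ℝ (Fin d)) (m : κ → ℝ)
    (a : κ → ℝ) : Prop :=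
  ∀ k, σ.real (cell y a k) = m k

theorem continuous_score (y : κ → EuclideanSpace ℝ (Fin d)) (a : κ → ℝ) (k : κ) :
    Continuous (score y a k) :=
  (continuous_id.inner continuous_const).sub continuous_const

theorem cell_disjoint (y : κ → EuclideanSpace ℝ (Fin d)) (a : κ → ℝ) {k l : κ} (h : k ≠ l) :
    Disjoint (cell y a k) (cell y a l) :=
  Set.disjoint_left.2 fun _ hk hl => lt_asymm (hk l h.symm) (hl k h)

section Finite

variable [Finite κ]

theorem measurableSet_cell (y : κ → EuclideanSpace ℝ (Fin d)) (a : κ → ℝ) (k : κ) :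
    MeasurableSet (cell y a k) := by
  have h : cell y a k = ⋂ l, ⋂ (_ : l ≠ k), {x | score y a l x < score y a k x} := by
    ext x
    simp [cell]
  rw [h]
  exact MeasurableSet.iInter fun l => MeasurableSet.iInter fun _ =>
    (isOpen_lt (continuous_score y a l) (continuous_score y a k)).measurableSet

theorem isOpen_cell (y : κ → EuclideanSpace ℝ (Fin d)) (a : κ → ℝ) (k : κ) :
    IsOpen (cell y a k) := by
  have h : cell y a k = ⋂ l, ⋂ (_ : l ≠ k), {x | score y a l x < score y a k x} := by
    ext x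
    simp [cell]
  rw [h]
  exact isOpen_iInter_of_finite fun l => isOpen_iInter_of_finite fun _ =>
    isOpen_lt (continuous_score y a l) (continuous_score y a k)

theorem score_le_pot (y : κ → EuclideanSpace ℝ (Fin d)) (a : κ → ℝ) (k : κ)
    (x : EuclideanSpace ℝ (Fin d)) : score y a k x ≤ pot y a x :=
  le_ciSup (Finite.bddAbove_range fun l => score y a l x) k

variable [Nonempty κ]

theorem pot_le {y : κ → EuclideanSpace ℝ (Fin d)} {a : κ → ℝ} {x : EuclideanSpace ℝ (Fin d)}
    {c : ℝ} (h : ∀ k, score y a k x ≤ c) : pot y a x ≤ c :=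
  ciSup_le h

theorem exists_pot_eq (y : κ → EuclideanSpace ℝ (Fin d)) (a : κ → ℝ)
    (x : EuclideanSpace ℝ (Fin d)) : ∃ k, score y a k x = pot y a x :=
  exists_eq_ciSup_of_finite

theorem pot_eq_of_mem_cell {y : κ → EuclideanSpace ℝ (Fin d)} {a : κ → ℝ} {k : κ}
    {x : EuclideanSpace ℝ (Fin d)} (hx : x ∈ cell y a k) : pot y a x = score y a k x := by
  refine le_antisymm (pot_le fun l => ?_) (score_le_pot y a k x)
  by_cases h : l = k
  · rw [h]
  · exact (hx l h).le

theorem pot_add_const (y : κ → EuclideanSpace ℝ (Fin d)) (a : κ → ℝ) (c : ℝ)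
    (x : EuclideanSpace ℝ (Fin d)) : pot y (fun k => a k + c) x = pot y a x - c := by
  refine le_antisymm (pot_le fun k => ?_) ?_
  · have := score_le_pot y a k x
    simp only [score] at *
    linarith
  · obtain ⟨k, hk⟩ := exists_pot_eq y a x
    have := score_le_pot y (fun k => a k + c) k x
    rw [← hk]
    simp only [score] at *
    linarith

/-- The potential moves at most as much as the scores. -/
theorem abs_pot_sub_le {y z : κ → EuclideanSpace ℝ (Fin d)} {a b : κ → ℝ}
    {x x' : EuclideanSpace ℝ (Fin d)} {c : ℝ}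
    (h : ∀ k, |score y a k x - score z b k x'| ≤ c) : |pot y a x - pot z b x'| ≤ c := by
  obtain ⟨k, hk⟩ := exists_pot_eq y a x
  obtain ⟨l, hl⟩ := exists_pot_eq z b x'
  have h1 := score_le_pot z b k x'
  have h2 := score_le_pot y a l x
  have h3 := abs_le.1 (h k)
  have h4 := abs_le.1 (h l)
  rw [abs_le]
  constructor <;> linarith

theorem continuous_pot (y : κ → EuclideanSpace ℝ (Fin d)) (a : κ → ℝ) :
    Continuous (pot y a) := by
  cases nonempty_fintype κ
  have h : pot y a = fun x => Finset.univ.sup' Finset.univ_nonempty (fun k => score y a k x) := by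
    funext x
    exact le_antisymm
      (pot_le fun k => Finset.le_sup' (fun k => score y a k x) (Finset.mem_univ k))
      (Finset.sup'_le _ _ fun k _ => score_le_pot y a k x)
  rw [h]
  exact Continuous.finset_sup'_apply _ fun k _ => continuous_score y a k

end Finite

theorem unif_absolutelyContinuous (K : Set (EuclideanSpace ℝ (Fin d))) :
    unif K ≪ volume :=
  (Measure.smul_absolutelyContinuous).trans Measure.restrict_le_self.absolutelyContinuous

theorem volume_pos_lt_top {K : Set (EuclideanSpace ℝ (Fin d))} (hK : IsCompact K)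
    (hne : (interior K).Nonempty) : 0 < volume K ∧ volume K < ⊤ :=
  ⟨lt_of_lt_of_le (isOpen_interior.measure_pos volume hne) (measure_mono interior_subset),
    hK.measure_lt_top⟩

theorem isProbabilityMeasure_unif {K : Set (EuclideanSpace ℝ (Fin d))} (hK : IsCompact K)
    (hne : (interior K).Nonempty) : IsProbabilityMeasure (unif K) := by
  obtain ⟨h1, h2⟩ := volume_pos_lt_top hK hne
  refine ⟨?_⟩
  simp [unif, ENNReal.inv_mul_cancel h1.ne' h2.ne]

theorem ae_mem_unif {K : Set (EuclideanSpace ℝ (Fin d))} (hK : IsCompact K) :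
    ∀ᵐ x ∂ (unif K), x ∈ K := by
  rw [unif]
  exact (Measure.smul_absolutelyContinuous).ae_le (ae_restrict_mem hK.measurableSet)

theorem integral_unif (K : Set (EuclideanSpace ℝ (Fin d)))
    (f : EuclideanSpace ℝ (Fin d) → ℝ) :
    ∫ x, f x ∂ (unif K) = (volume.real K)⁻¹ * ∫ x in K, f x := by
  rw [unif, integral_smul_measure, ENNReal.toReal_inv, smul_eq_mul, measureReal_def]

/-- A hyperplane of ties is null. -/
theorem volume_tie (y : κ → EuclideanSpace ℝ (Fin d)) (a : κ → ℝ) {k l : κ} (h : y k ≠ y l) :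
    volume {x | score y a k x = score y a l x} = 0 := by
  obtain ⟨v, hv⟩ : ∃ v, v = y k - y l := ⟨_, rfl⟩
  have hv0 : v ≠ 0 := hv ▸ sub_ne_zero.2 h
  have hne : ((ℝ ∙ v)ᗮ : Submodule ℝ (EuclideanSpace ℝ (Fin d))) ≠ ⊤ := by
    intro htop
    have hm : v ∈ (ℝ ∙ v)ᗮ := htop ▸ Submodule.mem_top
    rw [Submodule.mem_orthogonal_singleton_iff_inner_right] at hm
    exact hv0 (inner_self_eq_zero.1 hm)
  obtain ⟨x0, hx0⟩ : ∃ x0 : EuclideanSpace ℝ (Fin d), inner ℝ x0 v = a k - a l := by
    refine ⟨((a k - a l) / inner ℝ v v) • v, ?_⟩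
    rw [real_inner_smul_left, div_mul_cancel₀]
    exact fun e => hv0 (inner_self_eq_zero.1 e)
  have hset : {x | score y a k x = score y a l x}
      = (fun x => x + -x0) ⁻¹' ((ℝ ∙ v)ᗮ : Submodule ℝ (EuclideanSpace ℝ (Fin d))) := by
    ext x
    simp only [Set.mem_setOf_eq, Set.mem_preimage, SetLike.mem_coe,
      Submodule.mem_orthogonal_singleton_iff_inner_left, score]
    rw [← sub_eq_add_neg, inner_sub_left, hx0, hv, inner_sub_right]
    constructor <;> intro e <;> linarith
  rw [hset, measure_preimage_add_right]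
  exact Measure.addHaar_submodule volume _ hne

theorem ae_exists_cell [Finite κ] [Nonempty κ] {σ : Measure (EuclideanSpace ℝ (Fin d))}
    (hσ : σ ≪ volume) {y : κ → EuclideanSpace ℝ (Fin d)} (hy : Function.Injective y)
    (a : κ → ℝ) : ∀ᵐ x ∂σ, ∃ k, x ∈ cell y a k := by
  have h : ∀ᵐ x ∂σ, ∀ k l, k ≠ l → score y a k x ≠ score y a l x := by
    rw [ae_all_iff]
    intro k
    rw [ae_all_iff]
    intro l
    by_cases hkl : k = l
    · exact ae_of_all _ fun x hne => absurd hkl hne
    · have h0 : σ {x | score y a k x = score y a l x} = 0 :=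
        hσ (volume_tie y a (hy.ne hkl))
      filter_upwards [measure_eq_zero_iff_ae_notMem.1 h0] with x hx
      exact fun _ => hx
  filter_upwards [h] with x hx
  obtain ⟨k, hk⟩ := exists_pot_eq y a x
  exact ⟨k, fun l hl => lt_of_le_of_ne (hk ▸ score_le_pot y a l x) (hx l k hl)⟩

/-- A finite measure is split by the cells. -/
theorem sum_real_cell [Fintype κ] [Nonempty κ] {σ : Measure (EuclideanSpace ℝ (Fin d))}
    [IsFiniteMeasure σ] (hσ : σ ≪ volume) {y : κ → EuclideanSpace ℝ (Fin d)}
    (hy : Function.Injective y) (a : κ → ℝ) : ∑ k, σ.real (cell y a k) = σ.real univ := by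
  rw [← measureReal_iUnion_fintype (fun i j h => cell_disjoint y a h)
    (fun k => measurableSet_cell y a k)]
  apply measureReal_congr
  filter_upwards [ae_exists_cell hσ hy a] with x hx
  exact propext ⟨fun _ => trivial, fun _ => Set.mem_iUnion.2 hx⟩

end Vale.Agent.P074
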