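import Mathlib

namespace Vale.Agent.P074

open MeasureTheory Set
open scoped ENNReal

/-- The one-dimensional Brunn-Minkowski inequality for a superset of the sumset. -/
theorem volume_add_le {A B S : Set ℝ} (hA : MeasurableSet A) (hB : MeasurableSet B)
    (hA0 : A.Nonempty) (hB0 : B.Nonempty) (h : ∀ a ∈ A, ∀ b ∈ B, a + b ∈ S) :
    volume A + volume B ≤ volume S := by
  obtain ⟨a0, ha0⟩ := hA0
  obtain ⟨b0, hb0⟩ := hB0
  have key : ∀ K L : Set ℝ, K ⊆ A → IsCompact K → L ⊆ B → IsCompact L →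
      volume K + volume L ≤ volume S := by
    intro K L hK hKc hL hLc
    let K' := insert a0 K
    let L' := insert b0 L
    have hK' : IsCompact K' := hKc.insert a0
    have hL' : IsCompact L' := hLc.insert b0
    obtain ⟨a, haK, hau⟩ := hK'.exists_isGreatest (insert_nonempty a0 K)
    obtain ⟨b, hbL, hbl⟩ := hL'.exists_isLeast (insert_nonempty b0 L)
    have hKA : K' ⊆ A := insert_subset ha0 hK
    have hLB : L' ⊆ B := insert_subset hb0 hL
    have h1 : volume ((fun x => x + -b) ⁻¹' K') = volume K' := measure_preimage_add_right _ _ _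
    have h2 : volume ((fun x => x + -a) ⁻¹' L') = volume L' := measure_preimage_add_right _ _ _
    have hd : AEDisjoint volume ((fun x => x + -b) ⁻¹' K') ((fun x => x + -a) ⁻¹' L') := by
      refine measure_mono_null ?_ (measure_singleton (a + b))
      rintro x ⟨hx1, hx2⟩
      have := hau hx1
      have := hbl hx2
      simp only [mem_singleton_iff]
      linarith
    calc volume K + volume L ≤ volume K' + volume L' :=
          add_le_add (measure_mono (subset_insert _ _)) (measure_mono (subset_insert _ _))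
      _ = volume ((fun x => x + -b) ⁻¹' K') + volume ((fun x => x + -a) ⁻¹' L') := by rw [h1, h2]
      _ = volume ((fun x => x + -b) ⁻¹' K' ∪ (fun x => x + -a) ⁻¹' L') :=
          (measure_union₀ ((hL'.measurableSet.preimage
            (measurable_id.add_const _)).nullMeasurableSet) hd).symm
      _ ≤ volume S := by
          refine measure_mono ?_
          rintro x (hx | hx)
          · have := h _ (hKA hx) _ (hLB hbL)
            simpa using this
          · have := h _ (hKA haK) _ (hLB hx)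
            simpa using this
  rw [hA.measure_eq_iSup_isCompact, hB.measure_eq_iSup_isCompact]
  have e : ∀ X : Set ℝ, (⨆ K, ⨆ (_ : K ⊆ X), ⨆ (_ : IsCompact K), volume K)
      = ⨆ K, ⨆ (_ : K ⊆ X ∧ IsCompact K), volume K := fun X => iSup_congr fun K => (iSup_and (s := fun _ => volume K)).symm
  rw [e A, e B]
  refine ENNReal.biSup_add_biSup_le' (p := fun K => K ⊆ A ∧ IsCompact K)
    (q := fun L => L ⊆ B ∧ IsCompact L) ⟨∅, empty_subset _, isCompact_empty⟩
    ⟨∅, empty_subset _, isCompact_empty⟩ ?_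
  exact fun K hK L hL => key K L hK.1 hK.2 hL.1 hL.2

/-- Normalised one-dimensional inequality. -/
theorem pl_one_normalised {f g h : ℝ → ℝ} (hf : Measurable f) (hg : Measurable g)
    (hh : Measurable h) (hf0 : ∀ x, 0 ≤ f x) (hg0 : ∀ x, 0 ≤ g x) (hh0 : ∀ x, 0 ≤ h x)
    (hf1 : ∀ x, f x ≤ 1) (hg1 : ∀ x, g x ≤ 1) (hfs : ∀ t < 1, ∃ x, t < f x)
    (hgs : ∀ t < 1, ∃ x, t < g x) (H : ∀ x y, f x * g y ≤ h ((x + y) / 2) ^ 2) :
    (∫⁻ x, ENNReal.ofReal (f x)) + ∫⁻ x, ENNReal.ofReal (g x)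
      ≤ 2 * ∫⁻ x, ENNReal.ofReal (h x) := by
  rw [lintegral_eq_lintegral_meas_lt _ (ae_of_all _ hf0) hf.aemeasurable,
    lintegral_eq_lintegral_meas_lt _ (ae_of_all _ hg0) hg.aemeasurable,
    lintegral_eq_lintegral_meas_lt _ (ae_of_all _ hh0) hh.aemeasurable]
  have hmf : Measurable fun t : ℝ => volume {x : ℝ | t < f x} :=
    Antitone.measurable fun s t hst => measure_mono fun x (hx : t < f x) => lt_of_le_of_lt hst hx
  rw [← lintegral_add_left hmf, ← lintegral_const_mul' _ _ (by simp)]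
  refine setLIntegral_mono_ae' measurableSet_Ioi (ae_of_all _ fun t ht => ?_)
  simp only [Set.mem_Ioi] at ht
  by_cases h1 : t < 1
  · refine le_of_le_of_eq (volume_add_le (S := (fun z : ℝ => z / 2) ⁻¹' {x | t < h x})
      (measurableSet_lt measurable_const hf) (measurableSet_lt measurable_const hg)
      (hfs t h1) (hgs t h1) ?_) ?_
    · intro a (ha : t < f a) b (hb : t < g b)
      show t < h ((a + b) / 2)
      have := H a b
      have hfg : t * t < f a * g b := mul_lt_mul'' ha hb ht.le ht.le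
      nlinarith [hh0 ((a + b) / 2)]
    · rw [show (fun z : ℝ => z / 2) = (fun z => (1 / 2 : ℝ) * z) by funext z; ring,
        Real.volume_preimage_mul_left (by norm_num)]
      norm_num
  · have e : ∀ q : ℝ → ℝ, (∀ x, q x ≤ 1) → {x | t < q x} = ∅ := fun q hq => by
      ext x
      simp only [Set.mem_empty_iff_false, iff_false]
      exact fun hx => absurd hx (not_lt.2 ((hq x).trans (not_lt.1 h1)))
    rw [e f hf1, e g hg1]
    simp

theorem four_mul_le_sq_add_ennreal (a b : ℝ≥0∞) : 4 * (a * b) ≤ (a + b) ^ 2 := by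
  rcases eq_or_ne (a + b) ⊤ with h | h
  · simp [h]
  · rw [ENNReal.add_ne_top] at h
    lift a to NNReal using h.1
    lift b to NNReal using h.2
    norm_cast
    rw [← NNReal.coe_le_coe]
    push_cast
    nlinarith [sq_nonneg ((a : ℝ) - b)]

/-- The inequality in dimension one, for bounded data. -/
theorem pl_one_bounded {f g h : ℝ → ℝ≥0∞} (hf : Measurable f) (hg : Measurable g)
    (hh : Measurable h) (hfb : (⨆ x, f x) ≠ ⊤) (hgb : (⨆ x, g x) ≠ ⊤)
    (H : ∀ x y, f x * g y ≤ h ((x + y) / 2) ^ 2) :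
    (∫⁻ x, f x) * ∫⁻ x, g x ≤ (∫⁻ x, h x) ^ 2 := by
  obtain ⟨F, hF⟩ : ∃ F, F = ⨆ x, f x := ⟨_, rfl⟩
  obtain ⟨G, hG⟩ : ∃ G, G = ⨆ x, g x := ⟨_, rfl⟩
  rcases eq_or_ne F 0 with hF0 | hF0
  · have : ∀ x, f x = 0 := fun x => le_antisymm (hF0 ▸ hF ▸ le_iSup f x) zero_le
    simp [this]
  rcases eq_or_ne G 0 with hG0 | hG0
  · have : ∀ x, g x = 0 := fun x => le_antisymm (hG0 ▸ hG ▸ le_iSup g x) zero_le
    simp [this]
  rw [← hF] at hfb
  rw [← hG] at hgb
  obtain ⟨S, hS, hS0, hSt⟩ : ∃ S : ℝ≥0∞, S ^ 2 = F * G ∧ S ≠ 0 ∧ S ≠ ⊤ := by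
    refine ⟨ENNReal.ofReal (Real.sqrt (F.toReal * G.toReal)), ?_, ?_, ENNReal.ofReal_ne_top⟩
    · rw [← ENNReal.ofReal_pow (Real.sqrt_nonneg _), Real.sq_sqrt (by positivity),
        ENNReal.ofReal_mul ENNReal.toReal_nonneg, ENNReal.ofReal_toReal hfb,
        ENNReal.ofReal_toReal hgb]
    · simp only [ne_eq, ENNReal.ofReal_eq_zero, not_le]
      exact Real.sqrt_pos.2 (mul_pos (ENNReal.toReal_pos hF0 hfb) (ENNReal.toReal_pos hG0 hgb))
  let f' : ℝ → ℝ := fun x => (f x / F).toReal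
  let g' : ℝ → ℝ := fun x => (g x / G).toReal
  let h' : ℝ → ℝ := fun x => (min (h x / S) 1).toReal
  have hfle : ∀ x, f x / F ≤ 1 := fun x => ENNReal.div_le_of_le_mul (by simpa [hF] using le_iSup f x)
  have hgle : ∀ x, g x / G ≤ 1 := fun x => ENNReal.div_le_of_le_mul (by simpa [hG] using le_iSup g x)
  have hne : ∀ z : ℝ≥0∞, z ≤ 1 → z ≠ ⊤ := fun z hz => ne_top_of_le_ne_top ENNReal.one_ne_top hz
  have hsup : ∀ (q : ℝ → ℝ≥0∞) (Q : ℝ≥0∞), Q = ⨆ x, q x → Q ≠ 0 → Q ≠ ⊤ →
      (∀ x, q x / Q ≤ 1) → ∀ t < (1 : ℝ), ∃ x, t < (q x / Q).toReal := by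
    intro q Q hQ hQ0 hQt hle t ht
    by_contra hcon
    push Not at hcon
    have hb : ∀ x, q x ≤ ENNReal.ofReal t * Q := fun x => by
      rw [← ENNReal.div_le_iff hQ0 hQt, ← ENNReal.ofReal_toReal (hne _ (hle x))]
      exact ENNReal.ofReal_le_ofReal (hcon x)
    have h2 : Q ≤ ENNReal.ofReal t * Q := hQ ▸ iSup_le (fun x => hQ.symm ▸ hb x)
    have h3 : ENNReal.ofReal t * Q < 1 * Q :=
      ENNReal.mul_lt_mul_left hQ0 hQt (ENNReal.ofReal_lt_one.2 ht)
    rw [one_mul] at h3
    exact absurd h2 (not_le.2 h3)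
  have key := pl_one_normalised (f := f') (g := g') (h := h') (hf.div_const F).ennreal_toReal
    (hg.div_const G).ennreal_toReal ((hh.div_const S).min measurable_const).ennreal_toReal
    (fun _ => ENNReal.toReal_nonneg) (fun _ => ENNReal.toReal_nonneg)
    (fun _ => ENNReal.toReal_nonneg)
    (fun x => ENNReal.toReal_le_of_le_ofReal zero_le_one (by simpa using hfle x))
    (fun x => ENNReal.toReal_le_of_le_ofReal zero_le_one (by simpa using hgle x))
    (hsup f F hF hF0 hfb hfle) (hsup g G hG hG0 hgb hgle) ?_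
  · simp only [f', g', h', ENNReal.ofReal_toReal (hne _ (hfle _)),
      ENNReal.ofReal_toReal (hne _ (hgle _)), ENNReal.ofReal_toReal (hne _ (min_le_right _ _))]
      at key
    have ef : ∫⁻ x, f x = F * ∫⁻ x, f x / F := by
      rw [← lintegral_const_mul' _ _ hfb]
      exact lintegral_congr fun x => (ENNReal.mul_div_cancel hF0 hfb).symm
    have eg : ∫⁻ x, g x = G * ∫⁻ x, g x / G := by
      rw [← lintegral_const_mul' _ _ hgb]
      exact lintegral_congr fun x => (ENNReal.mul_div_cancel hG0 hgb).symm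
    have eh : S * ∫⁻ x, min (h x / S) 1 ≤ ∫⁻ x, h x := by
      rw [← lintegral_const_mul' _ _ hSt]
      exact lintegral_mono fun x =>
        (mul_le_mul' le_rfl (min_le_left _ _)).trans_eq (ENNReal.mul_div_cancel hS0 hSt)
    have h4 : 4 * ((∫⁻ x, f x / F) * ∫⁻ x, g x / G) ≤ 4 * (∫⁻ x, min (h x / S) 1) ^ 2 := by
      refine (four_mul_le_sq_add_ennreal _ _).trans ?_
      calc ((∫⁻ x, f x / F) + ∫⁻ x, g x / G) ^ 2
          ≤ (2 * ∫⁻ x, min (h x / S) 1) ^ 2 := by gcongr
        _ = _ := by rw [mul_pow]; norm_num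
    rw [ENNReal.mul_le_mul_iff_right (by norm_num) (by norm_num)] at h4
    calc (∫⁻ x, f x) * ∫⁻ x, g x
        = S ^ 2 * ((∫⁻ x, f x / F) * ∫⁻ x, g x / G) := by rw [ef, eg, hS]; ring
      _ ≤ S ^ 2 * (∫⁻ x, min (h x / S) 1) ^ 2 := mul_le_mul' le_rfl h4
      _ ≤ _ := by rw [← mul_pow]; gcongr
  · intro x y
    simp only [f', g', h', ← ENNReal.toReal_mul, ← ENNReal.toReal_pow]
    refine ENNReal.toReal_mono (ENNReal.pow_ne_top (hne _ (min_le_right _ _))) ?_
    rcases le_total (h ((x + y) / 2) / S) 1 with h5 | h5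
    · rw [min_eq_left h5, div_eq_mul_inv, div_eq_mul_inv, div_eq_mul_inv, mul_pow,
        ← ENNReal.inv_pow, hS, ENNReal.mul_inv (Or.inl hF0) (Or.inl hfb),
        mul_mul_mul_comm]
      exact mul_le_mul' (H x y) le_rfl
    · rw [min_eq_right h5, one_pow]
      exact mul_le_one' (hfle x) (hgle y)

/-- The inequality in dimension one. -/
theorem pl_one {f g h : ℝ → ℝ≥0∞} (hf : Measurable f) (hg : Measurable g)
    (hh : Measurable h) (H : ∀ x y, f x * g y ≤ h ((x + y) / 2) ^ 2) :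
    (∫⁻ x, f x) * ∫⁻ x, g x ≤ (∫⁻ x, h x) ^ 2 := by
  have hsup : ∀ (q : ℝ → ℝ≥0∞), Measurable q →
      ∫⁻ x, q x = ⨆ n : ℕ, ∫⁻ x, min (q x) n := by
    intro q hq
    rw [← lintegral_iSup (fun n => hq.min measurable_const)
      (fun m n hmn x => min_le_min le_rfl (Nat.cast_le.2 hmn))]
    refine lintegral_congr fun x => ?_
    refine le_antisymm ?_ (iSup_le fun n => min_le_left _ _)
    rcases eq_or_ne (q x) ⊤ with h0 | h0
    · rw [h0]
      simp only [min_eq_right le_top, ENNReal.iSup_natCast, le_refl]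
    · obtain ⟨n, hn⟩ := ENNReal.exists_nat_gt h0
      exact le_iSup_of_le n (le_of_eq (min_eq_left hn.le).symm)
  rw [hsup f hf, hsup g hg, ENNReal.iSup_mul]
  refine iSup_le fun m => ?_
  rw [ENNReal.mul_iSup]
  refine iSup_le fun n => ?_
  refine pl_one_bounded (hf.min measurable_const) (hg.min measurable_const) hh
    (ne_top_of_le_ne_top (ENNReal.natCast_ne_top m) (iSup_le fun x => min_le_right _ _))
    (ne_top_of_le_ne_top (ENNReal.natCast_ne_top n) (iSup_le fun x => min_le_right _ _))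
    fun x y => (mul_le_mul' (min_le_left _ _) (min_le_left _ _)).trans (H x y)

theorem lintegral_cons {n : ℕ} {f : (Fin (n + 1) → ℝ) → ℝ≥0∞} (hf : Measurable f) :
    ∫⁻ x, f x = ∫⁻ s : ℝ, ∫⁻ v : Fin n → ℝ, f (Fin.cons s v) := by
  have e := (volume_preserving_piFinSuccAbove (fun _ : Fin (n + 1) => ℝ) 0).symm
  rw [← e.lintegral_comp hf, Measure.volume_eq_prod]
  rw [lintegral_prod]
  · refine lintegral_congr fun s => lintegral_congr fun v => congrArg f ?_
    simp [MeasurableEquiv.piFinSuccAbove, Fin.consEquiv]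
  · exact (hf.comp e.measurable).aemeasurable

theorem measurable_cons (n : ℕ) :
    Measurable fun p : ℝ × (Fin n → ℝ) => (Fin.cons p.1 p.2 : Fin (n + 1) → ℝ) := by
  refine measurable_pi_lambda _ fun i => ?_
  refine Fin.cases ?_ (fun j => ?_) i
  · simpa using measurable_fst
  · simp only [Fin.cons_succ]
    exact (measurable_pi_apply j).comp measurable_snd

theorem pl_pi : ∀ (n : ℕ) {f g h : (Fin n → ℝ) → ℝ≥0∞}, Measurable f → Measurable g →
    Measurable h → (∀ x y, f x * g y ≤ h ((1 / 2 : ℝ) • (x + y)) ^ 2) →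
    (∫⁻ x, f x) * ∫⁻ x, g x ≤ (∫⁻ x, h x) ^ 2 := by
  intro n
  induction n with
  | zero =>
    intro f g h hf hg hh H
    rw [lintegral_unique, lintegral_unique, lintegral_unique]
    have hu : volume (univ : Set (Fin 0 → ℝ)) = 1 := by
      simp [volume_pi, Measure.pi_empty_univ]
    rw [hu, mul_one, mul_one, mul_one]
    exact (H _ _).trans_eq (congrArg (fun v => h v ^ 2) (funext fun i => i.elim0))
  | succ n ih =>
    intro f g h hf hg hh H
    rw [lintegral_cons hf, lintegral_cons hg, lintegral_cons hh]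
    have hm : ∀ q : (Fin (n + 1) → ℝ) → ℝ≥0∞, Measurable q →
        Measurable fun s : ℝ => ∫⁻ v : Fin n → ℝ, q (Fin.cons s v) := fun q hq =>
      (hq.comp (measurable_cons n)).lintegral_prod_right'
    refine pl_one (hm f hf) (hm g hg) (hm h hh) fun s t => ?_
    have hsl : ∀ (q : (Fin (n + 1) → ℝ) → ℝ≥0∞) (r : ℝ), Measurable q →
        Measurable fun v : Fin n → ℝ => q (Fin.cons r v) := fun q r hq =>
      hq.comp ((measurable_cons n).comp measurable_prodMk_left)
    refine ih (hsl f s hf) (hsl g t hg) (hsl h _ hh) fun v w => ?_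
    refine (H _ _).trans_eq ?_
    congr 2
    funext i
    refine Fin.cases ?_ (fun j => ?_) i
    · simp; ring
    · simp; ring

/-- The Prékopa-Leindler inequality at the midpoint. -/
theorem prekopa {d : ℕ} {f g h : EuclideanSpace ℝ (Fin d) → ℝ≥0∞} (hf : Measurable f)
    (hg : Measurable g) (hh : Measurable h)
    (H : ∀ x y, f x * g y ≤ h ((1 / 2 : ℝ) • (x + y)) ^ 2) :
    (∫⁻ x, f x) * ∫⁻ x, g x ≤ (∫⁻ x, h x) ^ 2 := by
  have e := PiLp.volume_preserving_toLp (Fin d)
  rw [← e.lintegral_comp hf, ← e.lintegral_comp hg, ← e.lintegral_comp hh]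
  refine pl_pi d (hf.comp e.measurable) (hg.comp e.measurable) (hh.comp e.measurable) fun x y => ?_
  refine (H _ _).trans_eq ?_
  congr 2

end Vale.Agent.P074
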