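import Vale.Agent.P074.Basic
import Vale.Agent.P074.PL

namespace Vale.Agent.P074

open MeasureTheory Set
open scoped ENNReal

variable {d : ℕ}

/-- The Gaussian weight. -/
noncomputable def wgt (lam : ℝ) (x : EuclideanSpace ℝ (Fin d)) : ℝ :=
  Real.exp (-(lam * ‖x‖ ^ 2 / 2))

theorem wgt_pos (lam : ℝ) (x : EuclideanSpace ℝ (Fin d)) : 0 < wgt lam x := Real.exp_pos _

theorem continuous_wgt (lam : ℝ) : Continuous (wgt (d := d) lam) := by
  unfold wgt
  fun_prop

theorem wgt_midpoint (lam : ℝ) (x y : EuclideanSpace ℝ (Fin d)) :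
    wgt lam ((1 / 2 : ℝ) • (x + y)) ^ 2
      = wgt lam x * wgt lam y * Real.exp (lam * ‖x - y‖ ^ 2 / 4) := by
  unfold wgt
  rw [sq, ← Real.exp_add, ← Real.exp_add, ← Real.exp_add]
  congr 1
  have h := parallelogram_law_with_norm ℝ x y
  rw [norm_smul, Real.norm_of_nonneg (by norm_num : (0 : ℝ) ≤ 1 / 2), mul_pow]
  linear_combination (-lam / 4) * h

theorem exp_integral_lower {μ : Measure (EuclideanSpace ℝ (Fin d))}
    {W u : EuclideanSpace ℝ (Fin d) → ℝ} {t : ℝ} (hW0 : ∀ x, 0 ≤ W x) (hW : Integrable W μ)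
    (hWu : Integrable (fun x => u x * W x) μ)
    (hWe : Integrable (fun x => W x * Real.exp (t * u x)) μ) (hA : 0 < ∫ x, W x ∂μ) :
    (∫ x, W x ∂μ) * Real.exp (t * ((∫ x, u x * W x ∂μ) / ∫ x, W x ∂μ))
      ≤ ∫ x, W x * Real.exp (t * u x) ∂μ := by
  obtain ⟨c, hc⟩ : ∃ c, c = (∫ x, u x * W x ∂μ) / ∫ x, W x ∂μ := ⟨_, rfl⟩
  rw [← hc]
  have hle : ∀ x, Real.exp (t * c) * ((1 - t * c) * W x + t * (u x * W x))
      ≤ W x * Real.exp (t * u x) := by
    intro x
    have h1 := Real.add_one_le_exp (t * u x - t * c)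
    rw [Real.exp_sub] at h1
    have h2 : (t * u x - t * c + 1) * Real.exp (t * c) ≤ Real.exp (t * u x) :=
      (le_div_iff₀ (Real.exp_pos _)).1 h1
    nlinarith [hW0 x, Real.exp_pos (t * c)]
  refine le_of_eq_of_le ?_ (integral_mono
    (((hW.const_mul (1 - t * c)).add (hWu.const_mul t)).const_mul (Real.exp (t * c))) hWe hle)
  rw [integral_const_mul, integral_add' (hW.const_mul _) (hWu.const_mul _), integral_const_mul,
    integral_const_mul, hc, mul_comm]
  congr 1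
  field_simp
  ring

/-- The gain at one cell. -/
theorem cell_gain {K C C' Z : Set (EuclideanSpace ℝ (Fin d))} (hK : IsCompact K)
    (hC : MeasurableSet C) (hC' : MeasurableSet C') (hZ : MeasurableSet Z) (hCK : C ⊆ K)
    (hC'K : C' ⊆ K) (hZK : Z ⊆ K)
    (hmid : ∀ x ∈ C, ∀ y ∈ C', (1 / 2 : ℝ) • (x + y) ∈ Z)
    {lam l : ℝ} (hlam : 0 < lam) (hl : 0 < l) {u : EuclideanSpace ℝ (Fin d) → ℝ}
    (hu : Continuous u) (hlip : ∀ x ∈ K, ∀ y ∈ K, |u x - u y| ≤ l * ‖x - y‖)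
    (hA : 0 < ∫ x in C, wgt lam x) (hB : 0 < ∫ x in C', wgt lam x) :
    Real.sqrt ((∫ x in C, wgt lam x) * ∫ x in C', wgt lam x)
        * (1 + lam / (8 * l ^ 2) *
          ((∫ x in C, u x * wgt lam x) / (∫ x in C, wgt lam x)
            - (∫ x in C', u x * wgt lam x) / (∫ x in C', wgt lam x)) ^ 2)
      ≤ ∫ x in Z, wgt lam x := by
  obtain ⟨p, hp⟩ : ∃ p, p = (∫ x in C, u x * wgt lam x) / ∫ x in C, wgt lam x := ⟨_, rfl⟩
  obtain ⟨q, hq⟩ : ∃ q, q = (∫ x in C', u x * wgt lam x) / ∫ x in C', wgt lam x := ⟨_, rfl⟩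
  rw [← hp, ← hq]
  obtain ⟨t, ht⟩ : ∃ t, t = lam * (p - q) / (2 * l ^ 2) := ⟨_, rfl⟩
  have hW := continuous_wgt (d := d) lam
  have hint : ∀ (S : Set (EuclideanSpace ℝ (Fin d))) (q : EuclideanSpace ℝ (Fin d) → ℝ),
      S ⊆ K → Continuous q → IntegrableOn q S := fun S q hS hq =>
    (hq.continuousOn.integrableOn_compact hK).mono_set hS
  have c1 : Continuous fun x => wgt lam x * Real.exp (t * u x) :=
    hW.mul (Real.continuous_exp.comp (continuous_const.mul hu))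
  have c2 : Continuous fun x => wgt lam x * Real.exp (-t * u x) :=
    hW.mul (Real.continuous_exp.comp (continuous_const.mul hu))
  obtain ⟨G, hG⟩ : ∃ G, G = Real.exp (t ^ 2 * l ^ 2 / (2 * lam)) := ⟨_, rfl⟩
  have hpl := prekopa (d := d)
    (f := C.indicator fun x => ENNReal.ofReal (wgt lam x * Real.exp (t * u x)))
    (g := C'.indicator fun x => ENNReal.ofReal (wgt lam x * Real.exp (-t * u x)))
    (h := Z.indicator fun x => ENNReal.ofReal (G * wgt lam x))
    (c1.measurable.ennreal_ofReal.indicator hC) (c2.measurable.ennreal_ofReal.indicator hC')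
    ((continuous_const.mul hW).measurable.ennreal_ofReal.indicator hZ) ?_
  · rw [lintegral_indicator hC, lintegral_indicator hC', lintegral_indicator hZ,
      ← ofReal_integral_eq_lintegral_ofReal (hint C _ hCK c1)
        (ae_of_all _ fun x => mul_nonneg (wgt_pos lam x).le (Real.exp_nonneg _)),
      ← ofReal_integral_eq_lintegral_ofReal (hint C' _ hC'K c2)
        (ae_of_all _ fun x => mul_nonneg (wgt_pos lam x).le (Real.exp_nonneg _)),
      ← ofReal_integral_eq_lintegral_ofReal (hint Z (fun x => G * wgt lam x) hZK (continuous_const.mul hW))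
        (ae_of_all _ fun x => mul_nonneg (hG ▸ Real.exp_nonneg _) (wgt_pos lam x).le),
      ← ENNReal.ofReal_mul (integral_nonneg fun x =>
        mul_nonneg (wgt_pos lam x).le (Real.exp_nonneg _)),
      ← ENNReal.ofReal_pow (integral_nonneg fun x =>
        mul_nonneg (hG ▸ Real.exp_nonneg _) (wgt_pos lam x).le),
      ENNReal.ofReal_le_ofReal_iff (sq_nonneg _), integral_const_mul] at hpl
    have h1 := exp_integral_lower (μ := volume.restrict C) (t := t) (fun x => (wgt_pos lam x).le)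
      (hint C _ hCK hW) (hint C _ hCK (hu.mul hW)) (hint C _ hCK c1) hA
    have h2 := exp_integral_lower (μ := volume.restrict C') (t := -t) (fun x => (wgt_pos lam x).le)
      (hint C' _ hC'K hW) (hint C' _ hC'K (hu.mul hW)) (hint C' _ hC'K c2) hB
    rw [← hp] at h1
    rw [← hq] at h2
    have h3 := (mul_le_mul h1 h2 (mul_nonneg hB.le (Real.exp_nonneg _))
      (integral_nonneg fun x => mul_nonneg (wgt_pos lam x).le (Real.exp_nonneg _))).trans hpl
    have hZ0 : 0 ≤ ∫ x in Z, wgt lam x := integral_nonneg fun x => (wgt_pos lam x).le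
    obtain ⟨A, hAd⟩ : ∃ A, A = ∫ x in C, wgt lam x := ⟨_, rfl⟩
    obtain ⟨B, hBd⟩ : ∃ B, B = ∫ x in C', wgt lam x := ⟨_, rfl⟩
    obtain ⟨I, hI⟩ : ∃ I, I = ∫ x in Z, wgt lam x := ⟨_, rfl⟩
    rw [← hAd] at h3 hA ⊢
    rw [← hBd] at h3 hB ⊢
    rw [← hI] at h3 hZ0 ⊢
    obtain ⟨X, hX⟩ : ∃ X, X = lam / (8 * l ^ 2) * (p - q) ^ 2 := ⟨_, rfl⟩
    rw [← hX]
    have e : Real.exp (t * p) * Real.exp (-t * q) = Real.exp X ^ 2 * G ^ 2 := by
      rw [hG, ← Real.exp_nat_mul, ← Real.exp_nat_mul, ← Real.exp_add, ← Real.exp_add, hX, ht]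
      congr 1
      field_simp
      ring
    have h4 : A * B * Real.exp X ^ 2 ≤ I ^ 2 := by
      have hG0 : 0 < G ^ 2 := pow_pos (hG ▸ Real.exp_pos _) 2
      refine le_of_mul_le_mul_right ?_ hG0
      calc A * B * Real.exp X ^ 2 * G ^ 2 = A * Real.exp (t * p) * (B * Real.exp (-t * q)) := by
            rw [mul_assoc (A * B), ← e]; ring
        _ ≤ (G * I) ^ 2 := h3
        _ = _ := by ring
    calc Real.sqrt (A * B) * (1 + X) ≤ Real.sqrt (A * B) * Real.exp X :=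
          mul_le_mul_of_nonneg_left (by linarith [Real.add_one_le_exp X]) (Real.sqrt_nonneg _)
      _ = Real.sqrt (A * B * Real.exp X ^ 2) := by
          rw [Real.sqrt_mul (mul_nonneg hA.le hB.le) (Real.exp X ^ 2),
            Real.sqrt_sq (Real.exp_nonneg _)]
      _ ≤ I := (Real.sqrt_le_sqrt h4).trans_eq (Real.sqrt_sq hZ0)
  · intro x y
    by_cases hx : x ∈ C
    · by_cases hy : y ∈ C'
      · rw [indicator_of_mem hx, indicator_of_mem hy, indicator_of_mem (hmid x hx y hy),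
          ← ENNReal.ofReal_mul (mul_nonneg (wgt_pos lam x).le (Real.exp_nonneg _)),
          ← ENNReal.ofReal_pow (mul_nonneg (hG ▸ Real.exp_nonneg _) (wgt_pos lam _).le),
          mul_pow, wgt_midpoint, hG]
        refine ENNReal.ofReal_le_ofReal ?_
        rw [show Real.exp (t ^ 2 * l ^ 2 / (2 * lam)) ^ 2
            * (wgt lam x * wgt lam y * Real.exp (lam * ‖x - y‖ ^ 2 / 4))
          = wgt lam x * wgt lam y * (Real.exp (t ^ 2 * l ^ 2 / (2 * lam)) ^ 2
            * Real.exp (lam * ‖x - y‖ ^ 2 / 4)) by ring,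
          mul_mul_mul_comm, ← Real.exp_add, ← Real.exp_nat_mul, ← Real.exp_add]
        refine mul_le_mul_of_nonneg_left (Real.exp_le_exp.2 ?_)
          (mul_nonneg (wgt_pos lam x).le (wgt_pos lam y).le)
        have h1 : t * u x + -t * u y ≤ |t| * (l * ‖x - y‖) := by
          calc t * u x + -t * u y = t * (u x - u y) := by ring
            _ ≤ |t| * |u x - u y| := by rw [← abs_mul]; exact le_abs_self _
            _ ≤ _ := mul_le_mul_of_nonneg_left (hlip x (hCK hx) y (hC'K hy)) (abs_nonneg t)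
        refine h1.trans ?_
        have h2 : t ^ 2 * l ^ 2 / (2 * lam) * 2 = t ^ 2 * l ^ 2 / lam := by field_simp
        push_cast
        rw [mul_comm (2 : ℝ), h2, div_add' _ _ _ hlam.ne', le_div_iff₀ hlam]
        nlinarith [sq_nonneg (|t| * l - lam * ‖x - y‖ / 2), sq_abs t]
      · simp [indicator_of_notMem hy]
    · simp [indicator_of_notMem hx]

theorem abs_exp_sub_exp_le {p q M : ℝ} (hp : p ≤ M) (hq : q ≤ M) :
    |Real.exp p - Real.exp q| ≤ Real.exp M * |p - q| := by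
  wlog h : q ≤ p generalizing p q
  · rw [abs_sub_comm, abs_sub_comm p]
    exact this hq hp (le_of_not_ge h)
  rw [abs_of_nonneg (sub_nonneg.2 (Real.exp_le_exp.2 h)), abs_of_nonneg (sub_nonneg.2 h)]
  have h1 := Real.add_one_le_exp (q - p)
  rw [Real.exp_sub] at h1
  have h2 : (q - p + 1) * Real.exp p ≤ Real.exp q := (le_div_iff₀ (Real.exp_pos p)).1 h1
  have h3 : Real.exp p * (p - q) ≤ Real.exp M * (p - q) :=
    mul_le_mul_of_nonneg_right (Real.exp_le_exp.2 hp) (sub_nonneg.2 h)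
  linarith

/-- Bounds for the inverse weight and its linear multiples on a ball. -/
theorem inv_wgt_bounds {lam R : ℝ} (hR : 0 < R) (heta : lam * R ^ 2 = 1 / 64)
    {x : EuclideanSpace ℝ (Fin d)} (hx : ‖x‖ ≤ R) :
    (127 / 128 : ℝ) ≤ wgt lam x ∧ wgt lam x ≤ 1 ∧ (wgt lam x)⁻¹ ≤ 128 / 127 := by
  have hlam : 0 < lam := by
    by_contra h
    nlinarith [mul_nonneg (neg_nonneg.2 (not_lt.1 h)) (sq_nonneg R)]
  have h1 : lam * ‖x‖ ^ 2 ≤ 1 / 64 := by
    rw [← heta]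
    gcongr
  have h2 : (127 / 128 : ℝ) ≤ wgt lam x := by
    unfold wgt
    have := Real.add_one_le_exp (-(lam * ‖x‖ ^ 2 / 2))
    linarith
  refine ⟨h2, Real.exp_le_one_iff.2 (by nlinarith [sq_nonneg ‖x‖]), ?_⟩
  calc (wgt lam x)⁻¹ ≤ (127 / 128 : ℝ)⁻¹ := inv_anti₀ (by norm_num) h2
    _ = _ := by norm_num

theorem lip_inv_wgt {lam R : ℝ} (hR : 0 < R) (heta : lam * R ^ 2 = 1 / 64)
    {x y : EuclideanSpace ℝ (Fin d)} (hx : ‖x‖ ≤ R) (hy : ‖y‖ ≤ R) :
    |(wgt lam x)⁻¹ - (wgt lam y)⁻¹| ≤ 128 / 127 * (lam * R) * ‖x - y‖ := by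
  have hlam : 0 < lam := by
    by_contra h
    nlinarith [mul_nonneg (neg_nonneg.2 (not_lt.1 h)) (sq_nonneg R)]
  have e : ∀ z : EuclideanSpace ℝ (Fin d), (wgt lam z)⁻¹ = Real.exp (lam * ‖z‖ ^ 2 / 2) := by
    intro z
    rw [wgt, ← Real.exp_neg, neg_neg]
  have hb : ∀ z : EuclideanSpace ℝ (Fin d), ‖z‖ ≤ R → lam * ‖z‖ ^ 2 / 2 ≤ 1 / 128 := by
    intro z hz
    have : lam * ‖z‖ ^ 2 ≤ 1 / 64 := by rw [← heta]; gcongr
    linarith
  have hM : Real.exp (1 / 128) ≤ 128 / 127 := by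
    have := Real.exp_bound_div_one_sub_of_interval (x := 1 / 128) (by norm_num) (by norm_num)
    norm_num at this ⊢
    linarith
  rw [e, e, mul_assoc (128 / 127 : ℝ)]
  refine (abs_exp_sub_exp_le (hb x hx) (hb y hy)).trans (mul_le_mul hM ?_ (abs_nonneg _) (by norm_num))
  have h2 : |‖x‖ - ‖y‖| ≤ ‖x - y‖ := abs_norm_sub_norm_le x y
  calc |lam * ‖x‖ ^ 2 / 2 - lam * ‖y‖ ^ 2 / 2|
      = lam / 2 * (|‖x‖ + ‖y‖| * |‖x‖ - ‖y‖|) := by
        rw [← abs_mul, ← abs_of_pos (half_pos hlam), ← abs_mul]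
        congr 1
        ring
    _ ≤ lam / 2 * ((R + R) * ‖x - y‖) := by
        refine mul_le_mul_of_nonneg_left (mul_le_mul ?_ h2 (abs_nonneg _) (by linarith))
          (half_pos hlam).le
        rw [abs_of_nonneg (by positivity)]
        linarith
    _ = _ := by ring

theorem lip_lin_wgt {lam R : ℝ} (hR : 0 < R) (heta : lam * R ^ 2 = 1 / 64)
    {e : EuclideanSpace ℝ (Fin d)} (he : ‖e‖ ≤ 1) {x y : EuclideanSpace ℝ (Fin d)}
    (hx : ‖x‖ ≤ R) (hy : ‖y‖ ≤ R) :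
    |inner ℝ x e * (wgt lam x)⁻¹ - inner ℝ y e * (wgt lam y)⁻¹| ≤ 2 * ‖x - y‖ := by
  have hi : ∀ z : EuclideanSpace ℝ (Fin d), |inner ℝ z e| ≤ ‖z‖ := fun z =>
    (abs_real_inner_le_norm z e).trans (mul_le_of_le_one_right (norm_nonneg z) he)
  have h1 : |inner ℝ x e - inner ℝ y e| ≤ ‖x - y‖ := by
    rw [← inner_sub_left]; exact hi _
  have h2 : |inner ℝ y e| ≤ R := (hi y).trans hy
  have h3 := lip_inv_wgt hR heta hx hy
  have h4 := (inv_wgt_bounds hR heta hx).2.2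
  have h5 : 0 < (wgt lam x)⁻¹ := inv_pos.2 (wgt_pos lam x)
  calc _ = |(inner ℝ x e - inner ℝ y e) * (wgt lam x)⁻¹
        + inner ℝ y e * ((wgt lam x)⁻¹ - (wgt lam y)⁻¹)| := by ring_nf
    _ ≤ ‖x - y‖ * (128 / 127) + R * (128 / 127 * (lam * R) * ‖x - y‖) := by
        refine (abs_add_le _ _).trans (add_le_add ?_ ?_)
        · rw [abs_mul, abs_of_pos h5]
          exact mul_le_mul h1 h4 h5.le (norm_nonneg _)
        · rw [abs_mul]
          exact mul_le_mul h2 h3 (abs_nonneg _) hR.le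
    _ = 128 / 127 * (1 + lam * R ^ 2) * ‖x - y‖ := by ring
    _ ≤ _ := by rw [heta]; nlinarith [norm_nonneg (x - y)]

end Vale.Agent.P074
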