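import Vale.Agent.P074.Core

namespace Vale.Agent.P074

open MeasureTheory Set Finset
open scoped ENNReal

variable {d : ℕ} {κ : Type}

theorem aggregate [Fintype κ] (M M' A B : κ → ℝ) {c : ℝ} (hM : ∀ k, 0 < M k)
    (hM' : ∀ k, 2 / 3 * M k ≤ M' k) (hA : ∀ k, 127 / 128 * M k ≤ A k ∧ A k ≤ M k)
    (hB : ∀ k, 127 / 128 * M' k ≤ B k ∧ B k ≤ M' k) (hc : 15 / 2 ≤ c)
    (hsum : ∑ k, A k = ∑ k, B k)
    (h : ∑ k, Real.sqrt (A k * B k) * (c * (M k / A k - M' k / B k) ^ 2)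
      ≤ ∑ k, A k - ∑ k, Real.sqrt (A k * B k)) :
    ∑ k, M k * (A k / M k - B k / M' k) ^ 2 ≤ ∑ k, (M k - M' k) ^ 2 / M k ∧
      ∑ k, A k - ∑ k, Real.sqrt (A k * B k) ≤ 2 * ∑ k, (M k - M' k) ^ 2 / M k := by
  have hM'0 : ∀ k, 0 < M' k := fun k => lt_of_lt_of_le (by linarith [hM k]) (hM' k)
  have hA0 : ∀ k, 0 < A k := fun k => lt_of_lt_of_le (by linarith [hM k]) (hA k).1
  have hB0 : ∀ k, 0 < B k := fun k => lt_of_lt_of_le (by linarith [hM'0 k]) (hB k).1
  have hlow : ∀ k, 3 / 4 * c * (M k * (A k / M k - B k / M' k) ^ 2)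
      ≤ Real.sqrt (A k * B k) * (c * (M k / A k - M' k / B k) ^ 2) := by
    intro k
    have h1 : 3 / 4 * M k ≤ Real.sqrt (A k * B k) := by
      refine Real.le_sqrt_of_sq_le ?_
      have h3 : (127 / 128 * M k) * (127 / 128 * (2 / 3 * M k)) ≤ A k * B k :=
        mul_le_mul (hA k).1 (le_trans (by linarith [hM' k]) (hB k).1)
          (by linarith [hM k]) (hA0 k).le
      nlinarith [sq_nonneg (M k)]
    have h2 : (A k / M k - B k / M' k) ^ 2 ≤ (M k / A k - M' k / B k) ^ 2 := by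
      obtain ⟨a, ha⟩ : ∃ a, a = A k / M k := ⟨_, rfl⟩
      obtain ⟨b, hb⟩ : ∃ b, b = B k / M' k := ⟨_, rfl⟩
      have ha0 : 0 < a := ha ▸ div_pos (hA0 k) (hM k)
      have hb0 : 0 < b := hb ▸ div_pos (hB0 k) (hM'0 k)
      have ha1 : a ≤ 1 := ha ▸ (div_le_one (hM k)).2 (hA k).2
      have hb1 : b ≤ 1 := hb ▸ (div_le_one (hM'0 k)).2 (hB k).2
      have e1 : M k / A k = 1 / a := by rw [ha, one_div_div]
      have e2 : M' k / B k = 1 / b := by rw [hb, one_div_div]
      rw [← ha, ← hb, e1, e2, show 1 / a - 1 / b = (b - a) / (a * b) by field_simp, div_pow,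
        le_div_iff₀ (by positivity)]
      have : (a * b) ^ 2 ≤ 1 := pow_le_one₀ (by positivity) (mul_le_one₀ ha1 hb0.le hb1)
      nlinarith [sq_nonneg (a - b), mul_le_mul_of_nonneg_left this (sq_nonneg (a - b))]
    calc 3 / 4 * c * (M k * (A k / M k - B k / M' k) ^ 2)
        = 3 / 4 * M k * (c * (A k / M k - B k / M' k) ^ 2) := by ring
      _ ≤ _ := mul_le_mul h1 (mul_le_mul_of_nonneg_left h2 (by linarith))
          (by positivity) (Real.sqrt_nonneg _)
  have hup : ∀ k, (A k + B k) / 2 - Real.sqrt (A k * B k)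
      ≤ M k * (A k / M k - B k / M' k) ^ 2 + (M k - M' k) ^ 2 / M k := by
    intro k
    obtain ⟨sa, hsa⟩ : ∃ s, s = Real.sqrt (A k / M k) := ⟨_, rfl⟩
    obtain ⟨sb, hsb⟩ : ∃ s, s = Real.sqrt (B k / M' k) := ⟨_, rfl⟩
    obtain ⟨m, hm⟩ : ∃ s, s = Real.sqrt (M k) := ⟨_, rfl⟩
    obtain ⟨m', hm'⟩ : ∃ s, s = Real.sqrt (M' k) := ⟨_, rfl⟩
    have e1 : sa ^ 2 = A k / M k := hsa ▸ Real.sq_sqrt (div_nonneg (hA0 k).le (hM k).le)
    have e2 : sb ^ 2 = B k / M' k := hsb ▸ Real.sq_sqrt (div_nonneg (hB0 k).le (hM'0 k).le)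
    have e3 : m ^ 2 = M k := hm ▸ Real.sq_sqrt (hM k).le
    have e4 : m' ^ 2 = M' k := hm' ▸ Real.sq_sqrt (hM'0 k).le
    have e5 : A k = (m * sa) ^ 2 := by
      rw [mul_pow, e1, e3, mul_div_cancel₀ _ (hM k).ne']
    have e6 : B k = (m' * sb) ^ 2 := by
      rw [mul_pow, e2, e4, mul_div_cancel₀ _ (hM'0 k).ne']
    have hm0 : 0 < m := hm ▸ Real.sqrt_pos.2 (hM k)
    have hm0' : 0 < m' := hm' ▸ Real.sqrt_pos.2 (hM'0 k)
    have hsa0 : 0 ≤ sa := hsa ▸ Real.sqrt_nonneg _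
    have hsb0 : 0 ≤ sb := hsb ▸ Real.sqrt_nonneg _
    have h1 : 1 ≤ sa + sb := by
      have ha : (1 / 2 : ℝ) ≤ sa := by
        refine hsa ▸ Real.le_sqrt_of_sq_le ?_
        rw [le_div_iff₀ (hM k)]
        linarith [(hA k).1, hM k]
      have hb : (1 / 2 : ℝ) ≤ sb := by
        refine hsb ▸ Real.le_sqrt_of_sq_le ?_
        rw [le_div_iff₀ (hM'0 k)]
        linarith [(hB k).1, hM'0 k]
      linarith
    have hsb1 : sb ^ 2 ≤ 1 := e2 ▸ (div_le_one (hM'0 k)).2 (hB k).2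
    have hsq : Real.sqrt (A k * B k) = (m * sa) * (m' * sb) := by
      rw [e5, e6, ← mul_pow, Real.sqrt_sq (by positivity)]
    have hd1 : (sa - sb) ^ 2 ≤ (A k / M k - B k / M' k) ^ 2 := by
      rw [← e1, ← e2, show sa ^ 2 - sb ^ 2 = (sa - sb) * (sa + sb) by ring, mul_pow]
      exact le_mul_of_one_le_right (sq_nonneg _) (one_le_pow₀ h1)
    have hd2 : (m - m') ^ 2 ≤ (M k - M' k) ^ 2 / M k := by
      rw [le_div_iff₀ (hM k), ← e3, ← e4, show m ^ 2 - m' ^ 2 = (m - m') * (m + m') by ring,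
        mul_pow]
      exact mul_le_mul_of_nonneg_left (pow_le_pow_left₀ hm0.le (by linarith) 2) (sq_nonneg _)
    calc (A k + B k) / 2 - Real.sqrt (A k * B k)
        = (m * (sa - sb) + sb * (m - m')) ^ 2 / 2 := by rw [hsq, e5, e6]; ring
      _ ≤ m ^ 2 * (sa - sb) ^ 2 + sb ^ 2 * (m - m') ^ 2 := by
          nlinarith [sq_nonneg (m * (sa - sb) - sb * (m - m'))]
      _ ≤ _ := add_le_add (mul_le_mul e3.le hd1 (sq_nonneg _) (hM k).le)
          ((mul_le_of_le_one_left (sq_nonneg _) hsb1).trans hd2)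
  have hR : ∑ k, A k - ∑ k, Real.sqrt (A k * B k)
      ≤ ∑ k, M k * (A k / M k - B k / M' k) ^ 2 + ∑ k, (M k - M' k) ^ 2 / M k := by
    rw [← sum_add_distrib]
    refine le_of_eq_of_le ?_ (sum_le_sum fun k _ => hup k)
    rw [sum_sub_distrib, ← sum_div, sum_add_distrib, ← hsum]
    ring
  have hL : 3 / 4 * c * ∑ k, M k * (A k / M k - B k / M' k) ^ 2
      ≤ ∑ k, A k - ∑ k, Real.sqrt (A k * B k) := by
    rw [mul_sum]
    exact (sum_le_sum fun k _ => hlow k).trans h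
  have hS0 : 0 ≤ ∑ k, M k * (A k / M k - B k / M' k) ^ 2 :=
    sum_nonneg fun k _ => mul_nonneg (hM k).le (sq_nonneg _)
  have hP0 : 0 ≤ ∑ k, (M k - M' k) ^ 2 / M k :=
    sum_nonneg fun k _ => div_nonneg (sq_nonneg _) (hM k).le
  constructor <;> nlinarith

theorem sum_setIntegral_cell [Fintype κ] [Nonempty κ] {K : Set (EuclideanSpace ℝ (Fin d))}
    (hK : IsCompact K) {y : κ → EuclideanSpace ℝ (Fin d)} (hy : Function.Injective y)
    (a : κ → ℝ) {f : EuclideanSpace ℝ (Fin d) → ℝ} (hf : IntegrableOn f K) :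
    ∑ k, ∫ x in cell y a k ∩ K, f x = ∫ x in K, f x := by
  rw [← integral_iUnion_fintype
    (fun k => (measurableSet_cell y a k).inter hK.measurableSet)
    (fun i j hij => ((cell_disjoint y a hij).mono inter_subset_left inter_subset_left))
    (fun k => hf.mono_set inter_subset_right)]
  refine setIntegral_congr_set ?_
  filter_upwards [ae_exists_cell (Measure.AbsolutelyContinuous.refl volume) hy a] with x hx
  refine propext ⟨fun h => ?_, fun h => ?_⟩
  · obtain ⟨k, hk⟩ := Set.mem_iUnion.1 h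
    exact hk.2
  · obtain ⟨k, hk⟩ := hx
    exact Set.mem_iUnion.2 ⟨k, hk, h⟩

theorem sq_setIntegral_abs_le {S : Set (EuclideanSpace ℝ (Fin d))}
    {h : EuclideanSpace ℝ (Fin d) → ℝ} (hS0 : volume S ≠ ⊤) (hM : 0 < volume.real S)
    (h1 : IntegrableOn (fun x => |h x|) S) (h2 : IntegrableOn (fun x => h x ^ 2) S) :
    (∫ x in S, |h x|) ^ 2 ≤ volume.real S * ∫ x in S, h x ^ 2 := by
  obtain ⟨r, hr⟩ : ∃ r, r = (∫ x in S, |h x|) / volume.real S := ⟨_, rfl⟩
  have : IsFiniteMeasure (volume.restrict S) := isFiniteMeasure_restrict.2 hS0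
  have h0 : 0 ≤ ∫ x in S, (h x ^ 2 + (r ^ 2 - 2 * r * |h x|)) :=
    integral_nonneg fun x => by
      show 0 ≤ _
      nlinarith [sq_nonneg (|h x| - r), sq_abs (h x)]
  have i1 : Integrable (fun x => r ^ 2 - 2 * r * |h x|) (volume.restrict S) :=
    (integrable_const _).sub (h1.const_mul _)
  rw [integral_add h2 i1,
    integral_sub (integrable_const _) (h1.const_mul _), integral_const_mul,
    setIntegral_const, smul_eq_mul] at h0
  have e : volume.real S * r = ∫ x in S, |h x| := by rw [hr, mul_div_cancel₀ _ hM.ne']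
  rw [← e] at h0 ⊢
  nlinarith

/-- The core stability estimate, for the volume. -/
theorem core_volume [Fintype κ] [Nonempty κ] {K : Set (EuclideanSpace ℝ (Fin d))}
    (hK : IsCompact K) (hc : Convex ℝ K) {R : ℝ} (hR : 0 < R)
    (hKR : K ⊆ Metric.closedBall 0 R) {y : κ → EuclideanSpace ℝ (Fin d)}
    (hy : Function.Injective y) {M : κ → ℝ} (hM : ∀ k, 0 < M k) {a a' : κ → ℝ}
    {h : EuclideanSpace ℝ (Fin d) → ℝ} (hh : Continuous h) (hhb : ∀ x ∈ K, |h x| ≤ 1 / 2)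
    (hC : ∀ k, volume.real (cell y a k ∩ K) = M k)
    (hC' : ∀ k, ∫ x in cell y a' k ∩ K, (1 + h x) = M k)
    (v : κ → EuclideanSpace ℝ (Fin d)) :
    |∑ k, ((∫ x in cell y a' k ∩ K, inner ℝ x (v k) * (1 + h x))
        - ∫ x in cell y a k ∩ K, inner ℝ x (v k))|
      ≤ 200 * R * Real.sqrt (∫ x in K, h x ^ 2) * Real.sqrt (∑ k, M k * ‖v k‖ ^ 2) := by
  obtain ⟨lam, hlam⟩ : ∃ lam, lam = 1 / (64 * R ^ 2) := ⟨_, rfl⟩
  have heta : lam * R ^ 2 = 1 / 64 := by rw [hlam]; field_simp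
  have hlam0 : 0 < lam := by rw [hlam]; positivity
  have hn : ∀ x ∈ K, ‖x‖ ≤ R := fun x hx => mem_closedBall_zero_iff.1 (hKR hx)
  let C : κ → Set (EuclideanSpace ℝ (Fin d)) := fun k => cell y a k ∩ K
  let C' : κ → Set (EuclideanSpace ℝ (Fin d)) := fun k => cell y a' k ∩ K
  let Z : κ → Set (EuclideanSpace ℝ (Fin d)) := fun k =>
    cell y (fun l => (a l + a' l) / 2) k ∩ K
  have hmC : ∀ k, MeasurableSet (C k) := fun k =>
    (measurableSet_cell y a k).inter hK.measurableSet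
  have hmC' : ∀ k, MeasurableSet (C' k) := fun k =>
    (measurableSet_cell y a' k).inter hK.measurableSet
  have hmZ : ∀ k, MeasurableSet (Z k) := fun k =>
    (measurableSet_cell y _ k).inter hK.measurableSet
  have hmid : ∀ k, ∀ x ∈ C k, ∀ x' ∈ C' k, (1 / 2 : ℝ) • (x + x') ∈ Z k := by
    intro k x hx x' hx'
    refine ⟨fun l hl => ?_, ?_⟩
    · have h1 := hx.1 l hl
      have h2 := hx'.1 l hl
      simp only [score, real_inner_smul_left, inner_add_left] at *
      linarith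
    · rw [smul_add]
      exact hc hx.2 hx'.2 (by norm_num) (by norm_num) (by norm_num)
  have hfin : ∀ S, S ⊆ K → volume S ≠ ⊤ := fun S hS =>
    ((measure_mono hS).trans_lt hK.measure_lt_top).ne
  have hint : ∀ (S : Set (EuclideanSpace ℝ (Fin d))) (q : EuclideanSpace ℝ (Fin d) → ℝ),
      S ⊆ K → Continuous q → IntegrableOn q S := fun S q hS hq =>
    (hq.continuousOn.integrableOn_compact hK).mono_set hS
  have hcK : ∀ k, C k ⊆ K := fun k => inter_subset_right
  have hcK' : ∀ k, C' k ⊆ K := fun k => inter_subset_right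
  have hW := continuous_wgt (d := d) lam
  have hWi : Continuous fun x : EuclideanSpace ℝ (Fin d) => (wgt lam x)⁻¹ :=
    hW.inv₀ fun x => (wgt_pos lam x).ne'
  -- basic quantities
  obtain ⟨M', hM'd⟩ : ∃ f : κ → ℝ, ∀ k, f k = volume.real (C' k) := ⟨_, fun _ => rfl⟩
  obtain ⟨A, hAd⟩ : ∃ f : κ → ℝ, ∀ k, f k = ∫ x in C k, wgt lam x := ⟨_, fun _ => rfl⟩
  obtain ⟨B, hBd⟩ : ∃ f : κ → ℝ, ∀ k, f k = ∫ x in C' k, wgt lam x := ⟨_, fun _ => rfl⟩
  obtain ⟨H, hHd⟩ : ∃ f : κ → ℝ, ∀ k, f k = ∫ x in C' k, |h x| := ⟨_, fun _ => rfl⟩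
  have hone : ∀ S, S ⊆ K → ∫ x in S, (1 : ℝ) = volume.real S := fun S _ => by
    rw [setIntegral_const, smul_eq_mul, mul_one]
  have hMM : ∀ k, M k = M' k + ∫ x in C' k, h x := fun k => by
    rw [← hC' k, integral_add (hint _ (fun _ => (1 : ℝ)) (hcK' k) continuous_const)
      (hint _ h (hcK' k) hh), hone _ (hcK' k), hM'd]
  have habs : ∀ k, |∫ x in C' k, h x| ≤ H k := fun k => by
    rw [hHd]; exact abs_integral_le_integral_abs
  have hHle : ∀ k, H k ≤ 1 / 2 * M' k := fun k => by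
    rw [hHd, hM'd, ← hone _ (hcK' k), ← integral_const_mul]
    refine setIntegral_mono_on (hint _ _ (hcK' k) hh.abs)
      (hint _ _ (hcK' k) continuous_const) (hmC' k) fun x hx => ?_
    simpa using hhb x (hcK' k hx)
  have hM'lo : ∀ k, 2 / 3 * M k ≤ M' k ∧ M' k ≤ 2 * M k := fun k => by
    have := hMM k
    have := abs_le.1 (habs k)
    have := hHle k
    constructor <;> linarith
  have hM'0 : ∀ k, 0 < M' k := fun k => by linarith [hM k, (hM'lo k).1]
  have hWb : ∀ S, MeasurableSet S → S ⊆ K →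
      127 / 128 * volume.real S ≤ ∫ x in S, wgt lam x ∧
        ∫ x in S, wgt lam x ≤ volume.real S := by
    intro S hmS hS
    constructor
    · rw [← hone S hS, ← integral_const_mul]
      exact setIntegral_mono_on (hint _ _ hS continuous_const) (hint _ _ hS hW) hmS fun x hx => by
        simpa using (inv_wgt_bounds hR heta (hn x (hS hx))).1
    · rw [← hone S hS]
      exact setIntegral_mono_on (hint _ _ hS hW) (hint _ _ hS continuous_const) hmS fun x hx =>
        (inv_wgt_bounds hR heta (hn x (hS hx))).2.1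
  have hA : ∀ k, 127 / 128 * M k ≤ A k ∧ A k ≤ M k := fun k => by
    rw [hAd, ← hC k]; exact hWb _ (hmC k) (hcK k)
  have hB : ∀ k, 127 / 128 * M' k ≤ B k ∧ B k ≤ M' k := fun k => by
    rw [hBd, hM'd]; exact hWb _ (hmC' k) (hcK' k)
  have hA0 : ∀ k, 0 < A k := fun k => by linarith [hM k, (hA k).1]
  have hB0 : ∀ k, 0 < B k := fun k => by linarith [hM'0 k, (hB k).1]
  have hsA : ∑ k, A k = ∫ x in K, wgt lam x := by
    simp only [hAd]
    exact sum_setIntegral_cell hK hy a (hint K _ le_rfl hW)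
  have hsB : ∑ k, B k = ∫ x in K, wgt lam x := by
    simp only [hBd]
    exact sum_setIntegral_cell hK hy a' (hint K _ le_rfl hW)
  have gain : ∀ (l : ℝ) (u : κ → EuclideanSpace ℝ (Fin d) → ℝ), 0 < l →
      (∀ k, Continuous (u k)) →
      (∀ k, ∀ x ∈ K, ∀ x' ∈ K, |u k x - u k x'| ≤ l * ‖x - x'‖) →
      ∑ k, Real.sqrt (A k * B k) * (lam / (8 * l ^ 2) *
          ((∫ x in C k, u k x * wgt lam x) / A k
            - (∫ x in C' k, u k x * wgt lam x) / B k) ^ 2)
        ≤ ∑ k, A k - ∑ k, Real.sqrt (A k * B k) := by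
    intro l u hl hu hlip
    have hsum : ∑ k, Real.sqrt (A k * B k) * (1 + lam / (8 * l ^ 2) *
        ((∫ x in C k, u k x * wgt lam x) / A k
          - (∫ x in C' k, u k x * wgt lam x) / B k) ^ 2) ≤ ∑ k, A k := by
      rw [hsA, ← sum_setIntegral_cell hK hy (fun l => (a l + a' l) / 2) (hint K _ le_rfl hW)]
      refine sum_le_sum fun k _ => ?_
      rw [hAd, hBd]
      exact cell_gain hK (hmC k) (hmC' k) (hmZ k) (hcK k) (hcK' k) inter_subset_right (hmid k)
        hlam0 hl (hu k) (hlip k) (hAd k ▸ hA0 k) (hBd k ▸ hB0 k)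
    simp only [mul_add, mul_one, sum_add_distrib] at hsum
    linarith
  -- first test function
  have hu1 : ∀ S, S ⊆ K → ∫ x in S, (wgt lam x)⁻¹ * wgt lam x = volume.real S := fun S hS => by
    rw [← hone S hS]
    exact integral_congr_ae (ae_of_all _ fun x => inv_mul_cancel₀ (wgt_pos lam x).ne')
  have g1 := gain (128 / 127 * (lam * R)) (fun _ x => (wgt lam x)⁻¹) (by positivity)
    (fun _ => hWi) (fun _ x hx x' hx' => lip_inv_wgt hR heta (hn x hx) (hn x' hx'))
  simp only [hu1 _ (hcK _), hu1 _ (hcK' _), ← hM'd] at g1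
  simp only [C, hC] at g1
  obtain ⟨hI, hII⟩ := aggregate M M' A B hM (fun k => (hM'lo k).1) hA hB
    (c := lam / (8 * (128 / 127 * (lam * R)) ^ 2)) (by
      rw [show lam / (8 * (128 / 127 * (lam * R)) ^ 2)
        = (127 / 128) ^ 2 / (8 * (lam * R ^ 2)) by field_simp, heta]
      norm_num) (hsA.trans hsB.symm) g1
  -- second test function
  let e : κ → EuclideanSpace ℝ (Fin d) := fun k => ‖v k‖⁻¹ • v k
  have he : ∀ k, ‖e k‖ ≤ 1 := fun k => by
    simp only [e, norm_smul, norm_inv, norm_norm]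
    exact inv_mul_le_one
  have hve : ∀ k x, inner ℝ x (v k) = ‖v k‖ * inner ℝ x (e k) := fun k x => by
    rcases eq_or_ne (v k) 0 with h0 | h0
    · simp [h0]
    · simp only [e, real_inner_smul_right]
      rw [mul_inv_cancel_left₀ (norm_ne_zero_iff.2 h0)]
  have hin : ∀ k, Continuous fun x : EuclideanSpace ℝ (Fin d) => inner ℝ x (e k) := fun k =>
    continuous_id.inner continuous_const
  have hu2 : ∀ S k, ∫ x in S, inner ℝ x (e k) * (wgt lam x)⁻¹ * wgt lam x
      = ∫ x in S, inner ℝ x (e k) := fun S k => by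
    refine integral_congr_ae (ae_of_all _ fun x => ?_)
    simp only
    rw [mul_assoc, inv_mul_cancel₀ (wgt_pos lam x).ne', mul_one]
  have g2 := gain 2 (fun k x => inner ℝ x (e k) * (wgt lam x)⁻¹) two_pos
    (fun k => (hin k).mul hWi)
    (fun k x hx x' hx' => lip_lin_wgt hR heta (he k) (hn x hx) (hn x' hx'))
  simp only [hu2] at g2
  obtain ⟨p, hp⟩ : ∃ f : κ → ℝ, ∀ k, f k = ∫ x in C k, inner ℝ x (e k) := ⟨_, fun _ => rfl⟩
  obtain ⟨p', hp'⟩ : ∃ f : κ → ℝ, ∀ k, f k = ∫ x in C' k, inner ℝ x (e k) := ⟨_, fun _ => rfl⟩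
  obtain ⟨D, hD⟩ : ∃ f : κ → ℝ, ∀ k,
      f k = (∫ x in C' k, inner ℝ x (e k) * (1 + h x)) - ∫ x in C k, inner ℝ x (e k) :=
    ⟨_, fun _ => rfl⟩
  simp only [← hp, ← hp'] at g2
  have hib : ∀ k x, x ∈ K → |inner ℝ x (e k)| ≤ R := fun k x hx =>
    (abs_real_inner_le_norm x (e k)).trans
      ((mul_le_of_le_one_right (norm_nonneg _) (he k)).trans (hn x hx))
  have hDb : ∀ k, |D k| ≤ M k * |p k / A k - p' k / B k|
      + 2 * R * (M k * |A k / M k - B k / M' k|) + 4 * R * H k := by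
    intro k
    have hr : |∫ x in C' k, inner ℝ x (e k) * h x| ≤ R * H k := by
      rw [hHd, ← integral_const_mul]
      refine abs_integral_le_integral_abs.trans
        (setIntegral_mono_on (hint _ _ (hcK' k) ((hin k).mul hh).abs)
          (hint _ _ (hcK' k) (continuous_const.mul hh.abs)) (hmC' k) fun x hx => ?_)
      rw [abs_mul]
      exact mul_le_mul_of_nonneg_right (hib k x (hcK' k hx)) (abs_nonneg _)
    have hp'b : |p' k| ≤ R * M' k := by
      rw [hp', hM'd, ← hone _ (hcK' k), ← integral_const_mul]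
      refine abs_integral_le_integral_abs.trans
        (setIntegral_mono_on (hint _ _ (hcK' k) (hin k).abs)
          (hint _ _ (hcK' k) continuous_const) (hmC' k) fun x hx => ?_)
      simpa using hib k x (hcK' k hx)
    have eD : D k = -(A k * (p k / A k - p' k / B k))
        + p' k * ((B k - A k) / B k) + ∫ x in C' k, inner ℝ x (e k) * h x := by
      rw [hD]
      simp only [mul_add, mul_one]
      rw [integral_add (hint _ _ (hcK' k) (hin k))
        (hint _ (fun x => inner ℝ x (e k) * h x) (hcK' k) ((hin k).mul hh)), ← hp, ← hp']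
      field_simp [(hA0 k).ne', (hB0 k).ne']
      ring
    have h1 : |B k - A k| ≤ M k * |A k / M k - B k / M' k| + H k := by
      have ed : B k - A k = -(M k * (A k / M k - B k / M' k))
          + B k / M' k * (M' k - M k) := by
        field_simp [(hM k).ne', (hM'0 k).ne']
        ring
      rw [ed]
      refine (abs_add_le _ _).trans (add_le_add ?_ ?_)
      · rw [abs_neg, abs_mul, abs_of_pos (hM k)]
      · rw [abs_mul, abs_of_pos (div_pos (hB0 k) (hM'0 k))]
        refine (mul_le_of_le_one_left (abs_nonneg _) ((div_le_one (hM'0 k)).2 (hB k).2)).trans ?_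
        rw [abs_sub_comm, hMM k]
        simpa using habs k
    have h2 : |p' k * ((B k - A k) / B k)| ≤ 2 * R * |B k - A k| := by
      rw [← mul_div_assoc, abs_div, abs_mul, abs_of_pos (hB0 k), div_le_iff₀ (hB0 k)]
      calc |p' k| * |B k - A k| ≤ R * M' k * |B k - A k| :=
            mul_le_mul_of_nonneg_right hp'b (abs_nonneg _)
        _ ≤ R * (2 * B k) * |B k - A k| := by
            gcongr
            linarith [(hB k).1, hM'0 k]
        _ = _ := by ring
    have h3 : |-(A k * (p k / A k - p' k / B k))| ≤ M k * |p k / A k - p' k / B k| := by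
      rw [abs_neg, abs_mul, abs_of_pos (hA0 k)]
      exact mul_le_mul_of_nonneg_right (hA k).2 (abs_nonneg _)
    have h4 : 2 * R * |B k - A k| ≤ 2 * R * (M k * |A k / M k - B k / M' k| + H k) :=
      mul_le_mul_of_nonneg_left h1 (by linarith)
    have hH0 : 0 ≤ H k := (abs_nonneg _).trans (habs k)
    rw [eD]
    have h5 := abs_add_three (-(A k * (p k / A k - p' k / B k)))
      (p' k * ((B k - A k) / B k)) (∫ x in C' k, inner ℝ x (e k) * h x)
    nlinarith [mul_nonneg hR.le hH0]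
  -- sums
  have hH2 : ∀ k, H k ^ 2 / M k ≤ 2 * ∫ x in C' k, h x ^ 2 := fun k => by
    rw [div_le_iff₀ (hM k), hHd]
    refine (sq_setIntegral_abs_le (hfin _ (hcK' k)) (hM'd k ▸ hM'0 k)
      (hint _ _ (hcK' k) hh.abs) (hint _ _ (hcK' k) (hh.pow 2))).trans ?_
    rw [← hM'd]
    nlinarith [(hM'lo k).2, integral_nonneg (μ := volume.restrict (C' k))
      (f := fun x => h x ^ 2) fun x => sq_nonneg (h x)]
  obtain ⟨Q, hQ⟩ : ∃ Q, Q = ∫ x in K, h x ^ 2 := ⟨_, rfl⟩
  have hQ0 : 0 ≤ Q := hQ ▸ integral_nonneg fun x => sq_nonneg _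
  have hHs : ∑ k, H k ^ 2 / M k ≤ 2 * Q := by
    refine (sum_le_sum fun k _ => hH2 k).trans_eq ?_
    rw [← mul_sum, hQ, ← sum_setIntegral_cell (f := fun x => h x ^ 2) hK hy a'
      (hint K _ le_rfl (hh.pow 2))]
  have hPQ : ∑ k, (M k - M' k) ^ 2 / M k ≤ 2 * Q := by
    refine (sum_le_sum fun k _ => ?_).trans hHs
    refine (div_le_div_iff_of_pos_right (hM k)).2 ?_
    rw [← sq_abs, hMM k, add_sub_cancel_left]
    exact pow_le_pow_left₀ (abs_nonneg _) (habs k) 2
  have hdel : lam / 32 * (3 / 4) * ∑ k, M k * (p k / A k - p' k / B k) ^ 2 ≤ 4 * Q := by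
    rw [mul_sum]
    refine ((sum_le_sum fun k _ => ?_).trans g2).trans (hII.trans (by linarith))
    have : 3 / 4 * M k ≤ Real.sqrt (A k * B k) := by
      refine Real.le_sqrt_of_sq_le ?_
      have h3 : (127 / 128 * M k) * (127 / 128 * (2 / 3 * M k)) ≤ A k * B k :=
        mul_le_mul (hA k).1 (le_trans (by linarith [(hM'lo k).1]) (hB k).1)
          (by linarith [hM k]) (hA0 k).le
      nlinarith [sq_nonneg (M k)]
    have h0 : 0 ≤ lam / (8 * 2 ^ 2) * (p k / A k - p' k / B k) ^ 2 :=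
      mul_nonneg (by positivity) (sq_nonneg _)
    calc lam / 32 * (3 / 4) * (M k * (p k / A k - p' k / B k) ^ 2)
        = 3 / 4 * M k * (lam / (8 * 2 ^ 2) * (p k / A k - p' k / B k) ^ 2) := by ring
      _ ≤ _ := mul_le_mul_of_nonneg_right this h0
  have hDs : ∑ k, D k ^ 2 / M k ≤ (200 * R) ^ 2 * Q := by
    have hk : ∀ k, D k ^ 2 / M k ≤ 3 * (M k * (p k / A k - p' k / B k) ^ 2)
        + 12 * R ^ 2 * (M k * (A k / M k - B k / M' k) ^ 2) + 48 * R ^ 2 * (H k ^ 2 / M k) := by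
      intro k
      rw [div_le_iff₀ (hM k)]
      obtain ⟨X, hX⟩ : ∃ X, X = M k * |p k / A k - p' k / B k| := ⟨_, rfl⟩
      obtain ⟨Y, hY⟩ : ∃ Y, Y = 2 * R * (M k * |A k / M k - B k / M' k|) := ⟨_, rfl⟩
      obtain ⟨W, hW'⟩ : ∃ W, W = 4 * R * H k := ⟨_, rfl⟩
      have hb := hDb k
      rw [← hX, ← hY, ← hW'] at hb
      have h1 : D k ^ 2 ≤ 3 * (X ^ 2 + Y ^ 2 + W ^ 2) := by
        have h0 : D k ^ 2 ≤ (X + Y + W) ^ 2 :=
          sq_abs (D k) ▸ pow_le_pow_left₀ (abs_nonneg _) hb 2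
        nlinarith [sq_nonneg (X - Y), sq_nonneg (Y - W), sq_nonneg (X - W)]
      refine h1.trans_eq ?_
      rw [hX, hY, hW']
      simp only [mul_pow, sq_abs]
      field_simp [(hM k).ne']
      ring
    refine (sum_le_sum fun k _ => hk k).trans ?_
    rw [sum_add_distrib, sum_add_distrib, ← mul_sum, ← mul_sum, ← mul_sum]
    have e1 : ∑ k, M k * (p k / A k - p' k / B k) ^ 2 ≤ 11000 * R ^ 2 * Q := by
      have hl : lam / 32 * (3 / 4) = 3 / (8192 * R ^ 2) := by rw [hlam]; field_simp; ring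
      rw [hl, div_mul_eq_mul_div, div_le_iff₀ (by positivity)] at hdel
      nlinarith [mul_nonneg (sq_nonneg R) hQ0]
    have e2 := mul_le_mul_of_nonneg_left (hI.trans hPQ) (show (0 : ℝ) ≤ 12 * R ^ 2 by positivity)
    have e3 := mul_le_mul_of_nonneg_left hHs (show (0 : ℝ) ≤ 48 * R ^ 2 by positivity)
    nlinarith [mul_nonneg (sq_nonneg R) hQ0]
  have efin : ∑ k, ((∫ x in C' k, inner ℝ x (v k) * (1 + h x)) - ∫ x in C k, inner ℝ x (v k))
      = ∑ k, (Real.sqrt (M k) * ‖v k‖) * (D k / Real.sqrt (M k)) := by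
    refine sum_congr rfl fun k _ => ?_
    simp only [hve k, mul_assoc, integral_const_mul, hD, ← mul_sub]
    field_simp [(Real.sqrt_pos.2 (hM k)).ne']
  rw [efin]
  refine abs_le.2 (abs_le.1 ?_)
  have hcs := Finset.sum_mul_sq_le_sq_mul_sq Finset.univ
    (fun k => Real.sqrt (M k) * ‖v k‖) (fun k => D k / Real.sqrt (M k))
  simp only [mul_pow, div_pow, Real.sq_sqrt (hM _).le] at hcs
  have hV0 : 0 ≤ ∑ k, M k * ‖v k‖ ^ 2 :=
    sum_nonneg fun k _ => mul_nonneg (hM k).le (sq_nonneg _)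
  rw [← hQ]
  refine abs_le_of_sq_le_sq (hcs.trans ?_) (by positivity)
  rw [mul_pow, mul_pow _ (Real.sqrt Q), Real.sq_sqrt hQ0, Real.sq_sqrt hV0,
    mul_comm ((200 * R) ^ 2 * Q)]
  exact mul_le_mul_of_nonneg_left hDs hV0

end Vale.Agent.P074
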