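import Vale.Agent.P074.Basic

namespace Vale.Agent.P074

open MeasureTheory Filter Topology Set Finset
open scoped ENNReal

variable {d : ℕ} {κ : Type} [Fintype κ]

/-- The dual objective. -/
noncomputable def obj (σ : Measure (EuclideanSpace ℝ (Fin d)))
    (y : κ → EuclideanSpace ℝ (Fin d)) (m : κ → ℝ) (a : κ → ℝ) : ℝ :=
  (∫ x, pot y a x ∂σ) + ∑ k, m k * a k

theorem abs_score_sub_le (y : κ → EuclideanSpace ℝ (Fin d)) (a : κ → ℝ)
    (x : EuclideanSpace ℝ (Fin d)) {R : ℝ} (hR : ‖x‖ ≤ R) (k : κ) :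
    |score y a k x| ≤ R * ∑ l, ‖y l‖ + ∑ l, |a l| := by
  have h1 : |inner ℝ x (y k)| ≤ R * ∑ l, ‖y l‖ :=
    (abs_real_inner_le_norm x (y k)).trans (mul_le_mul hR
      (single_le_sum (f := fun l => ‖y l‖) (fun l _ => norm_nonneg _) (mem_univ k))
      (norm_nonneg _) ((norm_nonneg x).trans hR))
  have h2 : |a k| ≤ ∑ l, |a l| :=
    single_le_sum (f := fun l => |a l|) (fun l _ => abs_nonneg _) (mem_univ k)
  exact (abs_sub _ _).trans (add_le_add h1 h2)

variable [Nonempty κ]

theorem abs_pot_le (y : κ → EuclideanSpace ℝ (Fin d)) (a : κ → ℝ)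
    (x : EuclideanSpace ℝ (Fin d)) {R : ℝ} (hR : ‖x‖ ≤ R) :
    |pot y a x| ≤ R * ∑ l, ‖y l‖ + ∑ l, |a l| := by
  obtain ⟨k, hk⟩ := exists_pot_eq y a x
  exact hk ▸ abs_score_sub_le y a x hR k

theorem integrable_bounded_support {σ : Measure (EuclideanSpace ℝ (Fin d))} [IsFiniteMeasure σ]
    {R : ℝ} (hR : ∀ᵐ x ∂σ, ‖x‖ ≤ R) {f : EuclideanSpace ℝ (Fin d) → ℝ} (hf : Continuous f) :
    Integrable f σ := by
  obtain ⟨C, hC⟩ := (isCompact_closedBall (0 : EuclideanSpace ℝ (Fin d)) R).exists_bound_of_continuousOn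
    hf.continuousOn
  refine Integrable.of_bound hf.aestronglyMeasurable C ?_
  filter_upwards [hR] with x hx
  exact hC x (mem_closedBall_zero_iff.2 hx)

theorem sum_integral_cell {σ : Measure (EuclideanSpace ℝ (Fin d))} (hσ : σ ≪ volume)
    {y : κ → EuclideanSpace ℝ (Fin d)} (hy : Function.Injective y) (a : κ → ℝ)
    {f : EuclideanSpace ℝ (Fin d) → ℝ} (hf : Integrable f σ) :
    ∑ k, ∫ x in cell y a k, f x ∂σ = ∫ x, f x ∂σ := by
  rw [← integral_iUnion_fintype (fun k => measurableSet_cell y a k)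
    (fun i j hij => cell_disjoint y a hij) (fun k => hf.integrableOn)]
  rw [← setIntegral_univ (μ := σ) (f := f)]
  refine setIntegral_congr_set ?_
  filter_upwards [ae_exists_cell hσ hy a] with x hx
  exact propext ⟨fun _ => trivial, fun _ => Set.mem_iUnion.2 hx⟩

variable {σ : Measure (EuclideanSpace ℝ (Fin d))} [IsProbabilityMeasure σ]
  {y : κ → EuclideanSpace ℝ (Fin d)} {m : κ → ℝ} {R : ℝ}

/-- The value of the objective at balanced offsets. -/
theorem obj_eq_of_SD (hσ : σ ≪ volume) (hR : ∀ᵐ x ∂σ, ‖x‖ ≤ R) (hy : Function.Injective y)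
    {a : κ → ℝ} (h : SD σ y m a) :
    obj σ y m a = ∑ k, ∫ x in cell y a k, inner ℝ x (y k) ∂σ := by
  rw [obj, ← sum_integral_cell hσ hy a (integrable_bounded_support hR (continuous_pot y a)),
    ← sum_add_distrib]
  refine sum_congr rfl fun k _ => ?_
  rw [setIntegral_congr_fun (measurableSet_cell y a k) (fun x hx => pot_eq_of_mem_cell hx)]
  simp only [score]
  have i1 : Integrable (fun x => inner ℝ x (y k)) σ :=
    integrable_bounded_support hR (continuous_id.inner continuous_const)
  rw [integral_sub i1.integrableOn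
    (integrable_const _), setIntegral_const, smul_eq_mul, h k]
  simp

/-- Any offsets lie above the pairing over balanced cells, for any sites. -/
theorem le_obj_of_SD (hσ : σ ≪ volume) (hR : ∀ᵐ x ∂σ, ‖x‖ ≤ R) (hy : Function.Injective y)
    {a : κ → ℝ} (h : SD σ y m a) (z : κ → EuclideanSpace ℝ (Fin d)) (b : κ → ℝ) :
    ∑ k, ∫ x in cell y a k, inner ℝ x (z k) ∂σ ≤ obj σ z m b := by
  have hi : ∀ k, IntegrableOn (fun x => inner ℝ x (z k)) (cell y a k) σ := fun k =>
    (integrable_bounded_support hR (continuous_id.inner continuous_const)).integrableOn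
  rw [obj, ← sum_integral_cell hσ hy a (integrable_bounded_support hR (continuous_pot z b)),
    ← sum_add_distrib]
  refine sum_le_sum fun k _ => ?_
  have h1 : ∫ x in cell y a k, (inner ℝ x (z k) - b k) ∂σ ≤ ∫ x in cell y a k, pot z b x ∂σ :=
    integral_mono ((hi k).sub (integrable_const _))
      (integrable_bounded_support hR (continuous_pot z b)).integrableOn
      (fun x => score_le_pot z b k x)
  rw [integral_sub (hi k) (integrable_const _), setIntegral_const, smul_eq_mul, h k] at h1
  linarith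

/-- Balanced offsets minimise the objective. -/
theorem obj_min_of_SD (hσ : σ ≪ volume) (hR : ∀ᵐ x ∂σ, ‖x‖ ≤ R) (hy : Function.Injective y)
    {a : κ → ℝ} (h : SD σ y m a) (b : κ → ℝ) : obj σ y m a ≤ obj σ y m b :=
  (obj_eq_of_SD hσ hR hy h).trans_le (le_obj_of_SD hσ hR hy h y b)

theorem obj_add_const (hR : ∀ᵐ x ∂σ, ‖x‖ ≤ R) (hm1 : ∑ k, m k = 1) (a : κ → ℝ) (c : ℝ) :
    obj σ y m (fun k => a k + c) = obj σ y m a := by
  simp only [obj, pot_add_const, mul_add, sum_add_distrib, ← sum_mul, hm1]
  rw [integral_sub (integrable_bounded_support hR (continuous_pot y a)) (integrable_const _),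
    integral_const]
  simp

omit [Fintype κ] [Nonempty κ] in
theorem abs_pot_sub_offsets [Fintype κ] [Nonempty κ] (y : κ → EuclideanSpace ℝ (Fin d))
    (a b : κ → ℝ) (x : EuclideanSpace ℝ (Fin d)) : |pot y a x - pot y b x| ≤ ‖a - b‖ := by
  refine abs_pot_sub_le fun k => ?_
  simp only [score]
  rw [sub_sub_sub_cancel_left, abs_sub_comm]
  simpa using norm_le_pi_norm (a - b) k

theorem continuous_obj (hR : ∀ᵐ x ∂σ, ‖x‖ ≤ R) : Continuous (obj σ y m) := by
  refine Continuous.add ?_ (continuous_finset_sum _ fun k _ =>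
    continuous_const.mul (continuous_apply k))
  refine (LipschitzWith.of_dist_le_mul (K := 1) fun a b => ?_).continuous
  rw [Real.dist_eq, NNReal.coe_one, one_mul, dist_eq_norm,
    ← integral_sub (integrable_bounded_support hR (continuous_pot y a))
      (integrable_bounded_support hR (continuous_pot y b))]
  refine abs_integral_le_integral_abs.trans ?_
  refine (integral_mono ((integrable_bounded_support hR (continuous_pot y a)).sub
    (integrable_bounded_support hR (continuous_pot y b))).abs (integrable_const ‖a - b‖)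
    fun x => abs_pot_sub_offsets y a b x).trans ?_
  simp

/-- Normalised offsets are controlled by the objective. -/
theorem offset_bound (hR : ∀ᵐ x ∂σ, ‖x‖ ≤ R) (hm : ∀ k, 0 < m k) (hm1 : ∑ k, m k = 1)
    {a : κ → ℝ} (ha : ∑ k, m k * a k = 0) {B : ℝ} (hB : obj σ y m a ≤ B) (k : κ) :
    |a k| ≤ max (B + R * ∑ l, ‖y l‖) 0 * (1 + (m k)⁻¹) := by
  obtain ⟨S, hS⟩ : ∃ S, S = max (B + R * ∑ l, ‖y l‖) 0 := ⟨_, rfl⟩
  have hlow : ∀ l, -S ≤ a l := by
    intro l
    have h1 : ∫ _x, (-(R * ∑ j, ‖y j‖) - a l) ∂σ ≤ ∫ x, pot y a x ∂σ := by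
      refine integral_mono_ae (integrable_const _)
        (integrable_bounded_support hR (continuous_pot y a)) ?_
      filter_upwards [hR] with x hx
      refine le_trans ?_ (score_le_pot y a l x)
      have h1 : |inner ℝ x (y l)| ≤ R * ∑ j, ‖y j‖ :=
        (abs_real_inner_le_norm x (y l)).trans (mul_le_mul hx
          (single_le_sum (f := fun j => ‖y j‖) (fun j _ => norm_nonneg _) (mem_univ l))
          (norm_nonneg _) ((norm_nonneg x).trans hx))
      simp only [score]
      linarith [(abs_le.1 h1).1]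
    rw [integral_const, smul_eq_mul, probReal_univ, one_mul] at h1
    rw [obj, ha, add_zero] at hB
    have := le_max_left (B + R * ∑ l, ‖y l‖) 0
    rw [← hS] at this
    linarith
  have hS0 : 0 ≤ S := hS ▸ le_max_right _ _
  have hup : m k * (a k + S) ≤ S := by
    have h2 : m k * (a k + S) ≤ ∑ l, m l * (a l + S) :=
      single_le_sum (f := fun l => m l * (a l + S))
        (fun l _ => mul_nonneg (hm l).le (by linarith [hlow l])) (mem_univ k)
    simpa [mul_add, sum_add_distrib, ha, ← sum_mul, hm1] using h2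
  rw [← hS, abs_le]
  have h3 : a k + S ≤ S * (m k)⁻¹ := by
    rw [← div_eq_mul_inv, le_div_iff₀ (hm k)]
    linarith
  have h4 : 0 ≤ S * (m k)⁻¹ := mul_nonneg hS0 (inv_pos.2 (hm k)).le
  constructor <;> nlinarith [hlow k]

theorem exists_min_obj (hR : ∀ᵐ x ∂σ, ‖x‖ ≤ R) (hm : ∀ k, 0 < m k) (hm1 : ∑ k, m k = 1) :
    ∃ a, (∑ k, m k * a k = 0) ∧ ∀ b, obj σ y m a ≤ obj σ y m b := by
  obtain ⟨T, hT⟩ : ∃ T, T = ∑ k, max (obj σ y m 0 + R * ∑ l, ‖y l‖) 0 * (1 + (m k)⁻¹) := ⟨_, rfl⟩
  have hS : IsCompact {a : κ → ℝ | ‖a‖ ≤ T ∧ ∑ k, m k * a k = 0} := by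
    have h1 : IsClosed {a : κ → ℝ | ∑ k, m k * a k = 0} :=
      isClosed_eq (continuous_finset_sum _ fun k _ => continuous_const.mul (continuous_apply k))
        continuous_const
    have h2 := (isCompact_closedBall (0 : κ → ℝ) T).inter_right h1
    have e : {a : κ → ℝ | ‖a‖ ≤ T ∧ ∑ k, m k * a k = 0}
        = Metric.closedBall 0 T ∩ {a | ∑ k, m k * a k = 0} := Set.ext fun a => by simp
    rw [e]
    exact h2
  have hterm : ∀ k, 0 ≤ max (obj σ y m 0 + R * ∑ l, ‖y l‖) 0 * (1 + (m k)⁻¹) := fun k =>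
    mul_nonneg (le_max_right _ _) (by linarith [inv_pos.2 (hm k)])
  have hT0 : 0 ≤ T := hT ▸ sum_nonneg fun k _ => hterm k
  obtain ⟨a, ha, hmin⟩ := hS.exists_isMinOn ⟨0, by simp [hT0]⟩ (continuous_obj hR).continuousOn
  refine ⟨a, ha.2, fun b => ?_⟩
  obtain ⟨c, hc⟩ : ∃ c, c = ∑ k, m k * b k := ⟨_, rfl⟩
  rw [← obj_add_const hR hm1 b (-c)]
  have hb0 : ∑ k, m k * (b k + -c) = 0 := by
    simp only [mul_add, sum_add_distrib, ← sum_mul, hm1, ← hc]
    ring
  by_cases hle : obj σ y m (fun k => b k + -c) ≤ obj σ y m 0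
  · refine hmin ⟨(pi_norm_le_iff_of_nonneg hT0).2 fun k => ?_, hb0⟩
    rw [hT]
    exact (offset_bound hR hm hm1 hb0 hle k).trans
      (single_le_sum (f := fun l => max (obj σ y m 0 + R * ∑ j, ‖y j‖) 0 * (1 + (m l)⁻¹))
        (fun l _ => hterm l) (mem_univ k))
  · exact (hmin (show (0 : κ → ℝ) ∈ _ by simp [hT0])).trans (not_le.1 hle).le

/-- Minimisers are balanced. -/
theorem SD_of_min (hσ : σ ≪ volume) (hR : ∀ᵐ x ∂σ, ‖x‖ ≤ R) (hy : Function.Injective y)
    (hm1 : ∑ k, m k = 1) {a : κ → ℝ} (hmin : ∀ b, obj σ y m a ≤ obj σ y m b) : SD σ y m a := by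
  classical
  have hle : ∀ k, σ.real (cell y a k) ≤ m k := by
    intro k
    let S : ℕ → Set (EuclideanSpace ℝ (Fin d)) := fun n =>
      {x | ∀ l, l ≠ k → score y a l x + 1 / ((n : ℝ) + 1) ≤ score y a k x}
    have hSn : ∀ n, σ.real (S n) ≤ m k := by
      intro n
      obtain ⟨t, ht⟩ : ∃ t, t = 1 / ((n : ℝ) + 1) := ⟨_, rfl⟩
      have ht0 : 0 < t := ht ▸ by positivity
      let b : κ → ℝ := fun l => a l + if l = k then t else 0
      have hmono : ∀ x, pot y b x ≤ pot y a x := fun x => pot_le fun l => by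
        refine le_trans ?_ (score_le_pot y a l x)
        simp only [score, b]
        split_ifs <;> linarith
      have hdrop : ∀ x ∈ S n, pot y b x ≤ pot y a x - t := fun x hx => pot_le fun l => by
        have hk := score_le_pot y a k x
        by_cases hl : l = k
        · subst hl
          simp only [score, b, ↓reduceIte] at *
          linarith
        · have := hx l hl
          simp only [score, b, if_neg hl] at *
          linarith
      have hSm : MeasurableSet (S n) := by
        have : S n = ⋂ l, ⋂ (_ : l ≠ k),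
            {x | score y a l x + 1 / ((n : ℝ) + 1) ≤ score y a k x} := by
          ext x
          simp [S]
        rw [this]
        exact MeasurableSet.iInter fun l => MeasurableSet.iInter fun _ =>
          (isClosed_le ((continuous_score y a l).add continuous_const)
            (continuous_score y a k)).measurableSet
      have ia := integrable_bounded_support hR (continuous_pot y a)
      have ib := integrable_bounded_support hR (continuous_pot y b)
      have h1 : ∫ x, pot y b x ∂σ ≤ (∫ x, pot y a x ∂σ) - t * σ.real (S n) := by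
        have h2 : ∫ x, pot y b x ∂σ
            ≤ ∫ x, (pot y a x - (S n).indicator (fun _ => t) x) ∂σ := by
          refine integral_mono ib (ia.sub ((integrable_const t).indicator hSm)) fun x => ?_
          by_cases hx : x ∈ S n
          · simpa [indicator_of_mem hx] using hdrop x hx
          · simpa [indicator_of_notMem hx] using hmono x
        rwa [integral_sub ia ((integrable_const t).indicator hSm),
          integral_indicator_const t hSm, smul_eq_mul, mul_comm] at h2
      have h3 := hmin b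
      have h4 : ∑ l, m l * b l = (∑ l, m l * a l) + m k * t := by
        simp [b, mul_add, sum_add_distrib]
      simp only [obj, h4] at h3
      refine le_of_mul_le_mul_left ?_ ht0
      linarith
    have hU : cell y a k = ⋃ n, S n := by
      ext x
      simp only [cell, S, Set.mem_iUnion, mem_setOf_eq]
      constructor
      · intro hx
        have : ∀ᶠ n : ℕ in atTop, ∀ l, l ≠ k →
            score y a l x + 1 / ((n : ℝ) + 1) ≤ score y a k x := by
          rw [eventually_all]
          intro l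
          by_cases hl : l = k
          · exact Eventually.of_forall fun n h => absurd hl h
          have h0 : Tendsto (fun n : ℕ => score y a l x + 1 / ((n : ℝ) + 1)) atTop
              (𝓝 (score y a l x + 0)) :=
            tendsto_const_nhds.add tendsto_one_div_add_atTop_nhds_zero_nat
          rw [add_zero] at h0
          exact (h0.eventually (eventually_le_nhds (hx l hl))).mono fun n h _ => h
        exact this.exists
      · rintro ⟨n, hn⟩ l hl
        refine lt_of_lt_of_le ?_ (hn l hl)
        exact lt_add_of_pos_right _ (by positivity)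
    have hmono' : Monotone S := by
      intro i j hij x hx l hl
      refine le_trans ?_ (hx l hl)
      gcongr
    have hlim := tendsto_measure_iUnion_atTop (μ := σ) hmono'
    rw [← hU] at hlim
    have hlim' := ((ENNReal.tendsto_toReal (measure_ne_top σ _)).comp hlim)
    exact le_of_tendsto hlim' (Eventually.of_forall fun n => hSn n)
  intro k
  refine (sum_eq_sum_iff_of_le fun l _ => hle l).1 ?_ k (mem_univ k)
  rw [sum_real_cell hσ hy a, probReal_univ, hm1]

theorem exists_SD {d : ℕ} {κ : Type} [Fintype κ] [Nonempty κ]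
    {σ : Measure (EuclideanSpace ℝ (Fin d))} [IsProbabilityMeasure σ] (hs : σ ≪ volume)
    (hint : ∃ R, ∀ᵐ x ∂σ, ‖x‖ ≤ R) {y : κ → EuclideanSpace ℝ (Fin d)}
    (hy : Function.Injective y) {m : κ → ℝ} (hm : ∀ k, 0 < m k) (hm1 : ∑ k, m k = 1) :
    ∃ a, SD σ y m a := by
  obtain ⟨R, hR⟩ := hint
  obtain ⟨a, -, ha⟩ := exists_min_obj (y := y) hR hm hm1
  exact ⟨a, SD_of_min hs hR hy hm1 ha⟩

end Vale.Agent.P074
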