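import Mathlib

namespace Vale.Agent.P074

open MeasureTheory Set
open scoped NNReal

/-- The difference quotient with step `h`. -/
noncomputable def dq (f : ℝ → ℝ) (h t : ℝ) : ℝ := (f (t + h) - f t) / h

variable {L : ℝ} {φ ψ : ℝ → ℝ}

theorem dq_mono (hφ : ConvexOn ℝ univ φ) {h : ℝ} (hh : 0 < h) {s t : ℝ} (hst : s ≤ t) :
    dq φ h s ≤ dq φ h t := by
  have h1 : (φ (s + h) - φ s) / (s + h - s) ≤ (φ (t + h) - φ s) / (t + h - s) :=
    hφ.secant_mono (mem_univ s) (mem_univ _) (mem_univ _) (by linarith) (by linarith) (by linarith)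
  have h2 : (φ s - φ (t + h)) / (s - (t + h)) ≤ (φ t - φ (t + h)) / (t - (t + h)) :=
    hφ.secant_mono (mem_univ (t + h)) (mem_univ _) (mem_univ _) (by linarith) (by linarith) hst
  rw [add_sub_cancel_left] at h1
  have e1 : (φ s - φ (t + h)) / (s - (t + h)) = (φ (t + h) - φ s) / (t + h - s) := by
    rw [← neg_div_neg_eq, neg_sub, neg_sub]
  have e2 : (φ t - φ (t + h)) / (t - (t + h)) = (φ (t + h) - φ t) / h := by
    rw [← neg_div_neg_eq, neg_sub, neg_sub, add_sub_cancel_left]
  rw [e1, e2] at h2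
  exact h1.trans h2

theorem abs_dq_le (hφ : ∀ s t, |φ s - φ t| ≤ L * |s - t|) {h : ℝ} (hh : 0 < h) (t : ℝ) :
    |dq φ h t| ≤ L := by
  rw [dq, abs_div, abs_of_pos hh, div_le_iff₀ hh]
  have := hφ (t + h) t
  rwa [add_sub_cancel_left, abs_of_pos hh] at this

theorem continuous_of_lip (hφ : ∀ s t, |φ s - φ t| ≤ L * |s - t|) : Continuous φ :=
  (LipschitzWith.of_dist_le_mul (K := Real.toNNReal L) fun s t => by
    rw [Real.dist_eq, Real.dist_eq]
    exact (hφ s t).trans (mul_le_mul_of_nonneg_right (Real.le_coe_toNNReal L)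
      (abs_nonneg _))).continuous

theorem continuous_dq (hφ : Continuous φ) (h : ℝ) : Continuous (dq φ h) :=
  ((hφ.comp (continuous_id.add continuous_const)).sub hφ).div_const h

/-- The integral of the increase of the slope is at most the step. -/
theorem integral_slope_incr (hφ : Continuous φ) (hb : ∀ h > 0, ∀ t, |dq φ h t| ≤ L) {h : ℝ}
    (hh : 0 < h) (a b : ℝ) :
    ∫ t in a..b, (dq φ h t - dq φ h (t - h)) ≤ 2 * L * h := by
  have hc := continuous_dq hφ h
  have hc' : Continuous fun t => dq φ h (t - h) := hc.comp (continuous_id.sub continuous_const)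
  rw [intervalIntegral.integral_sub (hc.intervalIntegrable a b) (hc'.intervalIntegrable a b),
    intervalIntegral.integral_comp_sub_right (fun t => dq φ h t) h,
    intervalIntegral.integral_interval_sub_interval_comm' (hc.intervalIntegrable a b)
      (hc.intervalIntegrable (a - h) (b - h)) (hc.intervalIntegrable a (a - h))]
  have h1 := intervalIntegral.norm_integral_le_of_norm_le_const (a := b - h) (b := b)
    (f := fun t => dq φ h t) (C := L) fun t _ => hb h hh t
  have h2 := intervalIntegral.norm_integral_le_of_norm_le_const (a := a - h) (b := a)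
    (f := fun t => dq φ h t) (C := L) fun t _ => hb h hh t
  rw [Real.norm_eq_abs, sub_sub_cancel, abs_of_pos hh] at h1 h2
  linarith [(abs_le.1 h1).2, (abs_le.1 h2).1]

/-- Summation by parts. -/
theorem abs_integral_mul_slope_le (hφc : ConvexOn ℝ univ φ)
    (hφ : ∀ s t, |φ s - φ t| ≤ L * |s - t|) {g : ℝ → ℝ} (hg : Continuous g) {S a b h : ℝ}
    (hh : 0 < h) (hab : a + h ≤ b) (hS : ∀ t ∈ Icc a (b + h), |g t| ≤ S) :
    |∫ t in a..b, dq g h t * dq φ h t| ≤ 4 * L * S := by
  have hc := continuous_dq (continuous_of_lip hφ) h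
  have hbd : ∀ t, |dq φ h t| ≤ L := abs_dq_le hφ hh
  have hL : 0 ≤ L := (abs_nonneg _).trans (hbd 0)
  have hS0 : 0 ≤ S := (abs_nonneg _).trans (hS a ⟨le_rfl, by linarith⟩)
  let P : ℝ → ℝ := fun t => g t * dq φ h (t - h)
  let Q : ℝ → ℝ := fun t => g t * dq φ h t
  have hPc : Continuous P := hg.mul (hc.comp (continuous_id.sub continuous_const))
  have hQc : Continuous Q := hg.mul hc
  have iP : ∀ u v, IntervalIntegrable P volume u v := fun u v => hPc.intervalIntegrable u v
  have iQ : ∀ u v, IntervalIntegrable Q volume u v := fun u v => hQc.intervalIntegrable u v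
  have hPb : ∀ t ∈ Icc a (b + h), |P t| ≤ S * L := fun t ht => by
    rw [abs_mul]; exact mul_le_mul (hS t ht) (hbd _) (abs_nonneg _) hS0
  have hQb : ∀ t ∈ Icc a (b + h), |Q t| ≤ S * L := fun t ht => by
    rw [abs_mul]; exact mul_le_mul (hS t ht) (hbd _) (abs_nonneg _) hS0
  have e : ∫ t in a..b, dq g h t * dq φ h t = h⁻¹ * ((∫ t in (a + h)..b, (P t - Q t))
      + (∫ t in b..(b + h), P t) - ∫ t in a..(a + h), Q t) := by
    rw [intervalIntegral.integral_sub (iP _ _) (iQ _ _)]
    have e1 : ∫ t in a..b, dq g h t * dq φ h t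
        = h⁻¹ * ((∫ t in a..b, P (t + h)) - ∫ t in a..b, Q t) := by
      have iP' : IntervalIntegrable (fun t => P (t + h)) volume a b :=
        (hPc.comp (continuous_id.add continuous_const)).intervalIntegrable a b
      rw [← intervalIntegral.integral_sub iP' (iQ a b),
        ← intervalIntegral.integral_const_mul]
      refine intervalIntegral.integral_congr fun t _ => ?_
      simp only [P, Q, add_sub_cancel_right]
      unfold dq
      ring
    rw [e1, intervalIntegral.integral_comp_add_right P h,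
      ← intervalIntegral.integral_add_adjacent_intervals (iP (a + h) b) (iP b (b + h)),
      ← intervalIntegral.integral_add_adjacent_intervals (iQ a (a + h)) (iQ (a + h) b)]
    ring
  have h1 : |∫ t in (a + h)..b, (P t - Q t)| ≤ S * (2 * L * h) := by
    refine (intervalIntegral.abs_integral_le_integral_abs hab).trans ?_
    refine (intervalIntegral.integral_mono_on (f := fun t => |P t - Q t|)
      (g := fun t => S * (dq φ h t - dq φ h (t - h))) hab ((hPc.sub hQc).abs.intervalIntegrable _ _)
      (((hc.sub (hc.comp (continuous_id.sub continuous_const))).const_mul S).intervalIntegrable _ _)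
      fun t ht => ?_).trans ?_
    · show |P t - Q t| ≤ S * (dq φ h t - dq φ h (t - h))
      simp only [P, Q]
      rw [← mul_sub, abs_mul, abs_sub_comm,
        abs_of_nonneg (sub_nonneg.2 (dq_mono hφc hh (by linarith)))]
      exact mul_le_mul_of_nonneg_right (hS t ⟨by linarith [ht.1], by linarith [ht.2]⟩)
        (sub_nonneg.2 (dq_mono hφc hh (by linarith)))
    · show (∫ t in (a + h)..b, S * (dq φ h t - dq φ h (t - h))) ≤ _
      rw [intervalIntegral.integral_const_mul]
      exact mul_le_mul_of_nonneg_left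
        (integral_slope_incr (continuous_of_lip hφ) (fun h' hh' => abs_dq_le hφ hh') hh _ _) hS0
  have h2 := intervalIntegral.norm_integral_le_of_norm_le_const (a := b) (b := b + h) (f := P)
    (C := S * L) fun t ht => by
      rw [uIoc_of_le (by linarith)] at ht
      exact hPb t ⟨by linarith [ht.1], ht.2⟩
  have h3 := intervalIntegral.norm_integral_le_of_norm_le_const (a := a) (b := a + h) (f := Q)
    (C := S * L) fun t ht => by
      rw [uIoc_of_le (by linarith)] at ht
      exact hQb t ⟨ht.1.le, by linarith [ht.2]⟩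
  rw [Real.norm_eq_abs, add_sub_cancel_left, abs_of_pos hh] at h2 h3
  rw [e, abs_mul, abs_inv, abs_of_pos hh, inv_mul_le_iff₀ hh]
  calc _ ≤ |∫ t in (a + h)..b, (P t - Q t)| + |∫ t in b..(b + h), P t|
        + |∫ t in a..(a + h), Q t| :=
        (abs_sub _ _).trans (add_le_add (abs_add_le _ _) le_rfl)
    _ ≤ S * (2 * L * h) + S * L * h + S * L * h := add_le_add (add_le_add h1 h2) h3
    _ = _ := by ring

/-- Interpolation on an interval between the slope and the values. -/
theorem sq_dq_interval (hφc : ConvexOn ℝ univ φ) (hψc : ConvexOn ℝ univ ψ)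
    (hφ : ∀ s t, |φ s - φ t| ≤ L * |s - t|) (hψ : ∀ s t, |ψ s - ψ t| ≤ L * |s - t|)
    (hL : 0 < L) {a b h lam : ℝ} (hab : a ≤ b) (hh : 0 < h) (hlam : 0 < lam) :
    ∫ t in a..b, dq (fun s => φ s - ψ s) h t ^ 2
      ≤ 8 * L ^ 2 * lam + 16 * L ^ 2 * h + 128 / lam ^ 2 * ∫ t in a..b, (φ t - ψ t) ^ 2 := by
  have hφ0 := continuous_of_lip hφ
  have hψ0 := continuous_of_lip hψ
  have hg : Continuous fun s => φ s - ψ s := hφ0.sub hψ0
  obtain ⟨g, hgdef⟩ : ∃ g, g = fun s => φ s - ψ s := ⟨_, rfl⟩
  rw [← hgdef] at hg ⊢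
  have hgl : ∀ s t, |g s - g t| ≤ 2 * L * |s - t| := fun s t => by
    rw [hgdef]
    calc |φ s - ψ s - (φ t - ψ t)| = |(φ s - φ t) - (ψ s - ψ t)| := by ring_nf
      _ ≤ |φ s - φ t| + |ψ s - ψ t| := abs_sub _ _
      _ ≤ _ := by linarith [hφ s t, hψ s t]
  have e : ∀ t, dq g h t = dq φ h t - dq ψ h t := fun t => by
    rw [hgdef]; unfold dq; ring
  have hG : ∫ t in a..b, (φ t - ψ t) ^ 2 = ∫ t in a..b, g t ^ 2 := by rw [hgdef]
  rw [hG]
  have hG0 : 0 ≤ 128 / lam ^ 2 * ∫ t in a..b, g t ^ 2 :=
    mul_nonneg (by positivity) (intervalIntegral.integral_nonneg hab fun t _ => sq_nonneg _)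
  by_cases hshort : b - a ≤ lam + h
  · have hb := intervalIntegral.norm_integral_le_of_norm_le_const (a := a) (b := b)
      (f := fun t => dq g h t ^ 2) (C := (2 * L) ^ 2) fun t _ => by
        rw [Real.norm_eq_abs, abs_pow, e]
        exact pow_le_pow_left₀ (abs_nonneg _) ((abs_sub _ _).trans
          (by linarith [abs_dq_le hφ hh t, abs_dq_le hψ hh t])) 2
    rw [Real.norm_eq_abs, abs_of_nonneg (sub_nonneg.2 hab)] at hb
    nlinarith [(abs_le.1 hb).2, mul_le_mul_of_nonneg_left hshort (sq_nonneg L),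
      mul_nonneg (sq_nonneg L) hlam.le, mul_nonneg (sq_nonneg L) hh.le]
  push Not at hshort
  obtain ⟨t0, ht0, hmax⟩ := isCompact_Icc.exists_isMaxOn (nonempty_Icc.2 hab)
    (continuous_abs.comp hg).continuousOn
  obtain ⟨S, hSdef⟩ : ∃ S, S = |g t0| := ⟨_, rfl⟩
  have hS : ∀ t ∈ Icc a (b + h), |g t| ≤ S + 2 * L * h := by
    intro t ht
    obtain ⟨t', ht', hd⟩ : ∃ t' ∈ Icc a b, |t - t'| ≤ h := by
      refine ⟨min t b, ⟨le_min ht.1 hab, min_le_right _ _⟩, ?_⟩
      rcases le_total t b with h' | h'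
      · rw [min_eq_left h', sub_self, abs_zero]; exact hh.le
      · rw [min_eq_right h', abs_of_nonneg (by linarith)]; linarith [ht.2]
    have h1 : |g t'| ≤ S := hSdef ▸ hmax ht'
    have h2 := hgl t t'
    have h3 := abs_sub_abs_le_abs_sub (g t) (g t')
    nlinarith
  have hc := continuous_dq hg h
  have hq : ∫ t in a..b, dq g h t ^ 2 ≤ 8 * L * (S + 2 * L * h) := by
    have h1 := abs_integral_mul_slope_le hφc hφ hg hh (by linarith) hS
    have h2 := abs_integral_mul_slope_le hψc hψ hg hh (by linarith) hS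
    have e2 : ∫ t in a..b, dq g h t ^ 2
        = (∫ t in a..b, dq g h t * dq φ h t) - ∫ t in a..b, dq g h t * dq ψ h t := by
      have i1 : IntervalIntegrable (fun t => dq g h t * dq φ h t) volume a b :=
        (hc.mul (continuous_dq hφ0 h)).intervalIntegrable a b
      have i2 : IntervalIntegrable (fun t => dq g h t * dq ψ h t) volume a b :=
        (hc.mul (continuous_dq hψ0 h)).intervalIntegrable a b
      rw [← intervalIntegral.integral_sub i1 i2]
      refine intervalIntegral.integral_congr fun t _ => ?_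
      show dq g h t ^ 2 = dq g h t * dq φ h t - dq g h t * dq ψ h t
      rw [sq, ← mul_sub, ← e]
    rw [e2]
    linarith [(abs_le.1 h1).2, (abs_le.1 h2).1]
  refine hq.trans ?_
  by_cases hsmall : S ≤ L * lam
  · nlinarith
  push Not at hsmall
  obtain ⟨c, hc'⟩ : ∃ c, c = min t0 (b - lam / 4) := ⟨_, rfl⟩
  have hca : a ≤ c := hc' ▸ le_min ht0.1 (by linarith)
  have hcb : c + lam / 4 ≤ b := by
    have := hc' ▸ min_le_right t0 (b - lam / 4)
    linarith
  have hlow : lam / 4 * (S / 2) ^ 2 ≤ ∫ t in a..b, g t ^ 2 := by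
    have i : ∀ u v, IntervalIntegrable (fun t => g t ^ 2) volume u v := fun u v =>
      (hg.pow 2).intervalIntegrable u v
    refine le_trans ?_ (intervalIntegral.integral_mono_interval hca (by linarith) hcb
      (Filter.Eventually.of_forall fun t => sq_nonneg (g t)) (i a b))
    refine le_trans (le_of_eq (by simp)) (intervalIntegral.integral_mono_on (by linarith)
      intervalIntegrable_const (i c (c + lam / 4)) (f := fun _ => (S / 2) ^ 2)
      fun t ht => ?_)
    rw [← sq_abs (g t)]
    refine pow_le_pow_left₀ (hSdef ▸ by positivity) ?_ 2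
    have h2 := abs_sub_abs_le_abs_sub (g t0) (g t)
    have h3 := hgl t0 t
    have h4 : |t0 - t| ≤ lam / 4 := by
      rw [abs_le]
      have h5 : c ≤ t0 := hc' ▸ min_le_left _ _
      rcases le_total t0 (b - lam / 4) with h6 | h6
      · rw [hc', min_eq_left h6] at ht
        constructor <;> linarith [ht.1, ht.2]
      · rw [hc', min_eq_right h6] at ht
        constructor <;> linarith [ht.1, ht.2, ht0.2]
    rw [← hSdef] at h2
    nlinarith
  have h7 : 8 * L * S ≤ 128 / lam ^ 2 * ∫ t in a..b, g t ^ 2 := by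
    refine le_trans ?_ (mul_le_mul_of_nonneg_left hlow (by positivity))
    rw [div_mul_eq_mul_div, le_div_iff₀ (by positivity)]
    have hS0 : 0 ≤ S := hSdef ▸ abs_nonneg _
    nlinarith [mul_le_mul_of_nonneg_left hsmall.le (mul_nonneg hS0 hlam.le)]
  nlinarith

end Vale.Agent.P074
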