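import Mathlib

namespace Vale.Agent.P074

open MeasureTheory Set
open scoped ENNReal

variable {n : ℕ}

/-- The line in direction of the coordinate `i` with remaining coordinates `v`. -/
noncomputable def lineAt (i : Fin (n + 1)) (v : Fin n → ℝ) (s : ℝ) :
    EuclideanSpace ℝ (Fin (n + 1)) :=
  WithLp.toLp 2 (Fin.insertNth i s v : Fin (n + 1) → ℝ)

theorem lineAt_eq (i : Fin (n + 1)) (v : Fin n → ℝ) (s : ℝ) :
    lineAt i v s = lineAt i v 0 + s • EuclideanSpace.single i (1 : ℝ) := by
  ext j
  rcases Fin.eq_self_or_eq_succAbove i j with rfl | ⟨k, rfl⟩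
  · simp [lineAt]
  · simp [lineAt]

theorem continuous_lineAt (i : Fin (n + 1)) (v : Fin n → ℝ) : Continuous (lineAt i v) := by
  have h : lineAt i v = fun s => lineAt i v 0 + s • EuclideanSpace.single i (1 : ℝ) :=
    funext (lineAt_eq i v)
  rw [h]
  exact continuous_const.add (continuous_id.smul continuous_const)

theorem measurable_lineAt₂ (i : Fin (n + 1)) :
    Measurable fun p : ℝ × (Fin n → ℝ) => lineAt i p.2 p.1 :=
  (PiLp.volume_preserving_toLp (Fin (n + 1))).measurable.comp
    (MeasurableEquiv.piFinSuccAbove (fun _ : Fin (n + 1) => ℝ) i).symm.measurable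

theorem lintegral_lineAt (i : Fin (n + 1)) {f : EuclideanSpace ℝ (Fin (n + 1)) → ℝ≥0∞}
    (hf : Measurable f) : ∫⁻ x, f x = ∫⁻ v : Fin n → ℝ, ∫⁻ s : ℝ, f (lineAt i v s) := by
  have e1 := PiLp.volume_preserving_toLp (Fin (n + 1))
  have e2 := (volume_preserving_piFinSuccAbove (fun _ : Fin (n + 1) => ℝ) i).symm
  have hm : AEMeasurable (fun p : ℝ × (Fin n → ℝ) => f (lineAt i p.2 p.1)) (volume.prod volume) :=
    (hf.comp (measurable_lineAt₂ i)).aemeasurable
  have hf' : Measurable fun a : Fin (n + 1) → ℝ => f (WithLp.toLp 2 a) := hf.comp e1.measurable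
  rw [← e1.lintegral_comp hf, ← e2.lintegral_comp hf']
  exact lintegral_prod_symm (fun p : ℝ × (Fin n → ℝ) => f (lineAt i p.2 p.1)) hm

/-- A bound along all coordinate segments integrates to a bound on a convex body. -/
theorem slice_bound (i : Fin (n + 1)) {K : Set (EuclideanSpace ℝ (Fin (n + 1)))} (hK : IsCompact K)
    (hc : Convex ℝ K) {R : ℝ} (hR : 0 ≤ R) (hKR : K ⊆ Metric.closedBall 0 R)
    {F G : EuclideanSpace ℝ (Fin (n + 1)) → ℝ} (hF : Continuous F) (hG : Continuous G)
    (hF0 : ∀ x, 0 ≤ F x) (hG0 : ∀ x, 0 ≤ G x) {A B : ℝ} (hA : 0 ≤ A) (hB : 0 ≤ B)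
    (h : ∀ v a b, a ≤ b →
      ∫ s in a..b, F (lineAt i v s) ≤ A + B * ∫ s in a..b, G (lineAt i v s)) :
    ∫ x in K, F x ≤ A * (2 * R) ^ n + B * ∫ x in K, G x := by
  obtain ⟨Q, hQ⟩ : ∃ Q : Set (Fin n → ℝ), Q = Icc (fun _ => -R) (fun _ => R) := ⟨_, rfl⟩
  have hQv : volume Q = ENNReal.ofReal ((2 * R) ^ n) := by
    rw [hQ, Real.volume_Icc_pi]
    simp only [Finset.prod_const, Finset.card_univ, Fintype.card_fin, sub_neg_eq_add, ← two_mul]
    rw [ENNReal.ofReal_pow (by linarith)]
  have hkey : ∀ v, ∫⁻ s, K.indicator (fun x => ENNReal.ofReal (F x)) (lineAt i v s)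
      ≤ Q.indicator (fun _ => ENNReal.ofReal A) v
        + ENNReal.ofReal B * ∫⁻ s, K.indicator (fun x => ENNReal.ofReal (G x)) (lineAt i v s) := by
    intro v
    let T : Set ℝ := lineAt i v ⁻¹' K
    have hTm : MeasurableSet T := (hK.isClosed.preimage (continuous_lineAt i v)).measurableSet
    have hind : ∀ W : EuclideanSpace ℝ (Fin (n + 1)) → ℝ,
        ∫⁻ s, K.indicator (fun x => ENNReal.ofReal (W x)) (lineAt i v s)
          = ∫⁻ s in T, ENNReal.ofReal (W (lineAt i v s)) := fun W => by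
      rw [← lintegral_indicator hTm]
      rfl
    rw [hind, hind]
    rcases T.eq_empty_or_nonempty with hT | hT
    · simp [hT]
    obtain ⟨s0, hs0⟩ := hT
    have hcoord : ∀ s ∈ T, |s| ≤ R ∧ ∀ j, |v j| ≤ R := by
      intro s hs
      have hn : ‖lineAt i v s‖ ≤ R := mem_closedBall_zero_iff.1 (hKR hs)
      refine ⟨?_, fun j => ?_⟩
      · have := (PiLp.norm_apply_le (lineAt i v s) i).trans hn
        simpa [lineAt] using this
      · have := (PiLp.norm_apply_le (lineAt i v s) (i.succAbove j)).trans hn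
        simpa [lineAt] using this
    have hv : v ∈ Q := hQ ▸ ⟨fun j => (abs_le.1 ((hcoord s0 hs0).2 j)).1,
      fun j => (abs_le.1 ((hcoord s0 hs0).2 j)).2⟩
    have hTc : IsCompact T :=
      IsCompact.of_isClosed_subset isCompact_Icc (hK.isClosed.preimage (continuous_lineAt i v))
        (show T ⊆ Icc (-R) R from fun s hs => abs_le.1 (hcoord s hs).1)
    have hTconv : Convex ℝ T := by
      intro s hs t ht p q hp hq hpq
      show lineAt i v (p • s + q • t) ∈ K
      have : lineAt i v (p • s + q • t) = p • lineAt i v s + q • lineAt i v t := by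
        rw [lineAt_eq i v (p • s + q • t), lineAt_eq i v s, lineAt_eq i v t, smul_add, smul_add,
          smul_eq_mul, smul_eq_mul, add_smul, mul_smul, mul_smul]
        nth_rewrite 1 [← one_smul ℝ (lineAt i v 0)]
        rw [← hpq, add_smul]
        abel
      rw [this]
      exact hc hs ht hp hq hpq
    have hTI : T = Icc (sInf T) (sSup T) :=
      eq_Icc_of_connected_compact ⟨⟨s0, hs0⟩, hTconv.isPreconnected⟩ hTc
    have hab : sInf T ≤ sSup T := by
      rw [hTI] at hs0
      exact hs0.1.trans hs0.2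
    have hval : ∀ W : EuclideanSpace ℝ (Fin (n + 1)) → ℝ, Continuous W → (∀ x, 0 ≤ W x) →
        ∫⁻ s in T, ENNReal.ofReal (W (lineAt i v s))
          = ENNReal.ofReal (∫ s in sInf T..sSup T, W (lineAt i v s)) := by
      intro W hW hW0
      have hint : IntegrableOn (fun s => W (lineAt i v s)) (Icc (sInf T) (sSup T)) :=
        (hW.comp (continuous_lineAt i v)).continuousOn.integrableOn_Icc
      rw [intervalIntegral.integral_of_le hab, ← integral_Icc_eq_integral_Ioc,
        ofReal_integral_eq_lintegral_ofReal hint (ae_of_all _ fun s => hW0 _), ← hTI]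
    rw [indicator_of_mem hv, hval F hF hF0, hval G hG hG0, ← ENNReal.ofReal_mul hB,
      ← ENNReal.ofReal_add hA (mul_nonneg hB (intervalIntegral.integral_nonneg hab fun s _ => hG0 _))]
    exact ENNReal.ofReal_le_ofReal (h v _ _ hab)
  have hm : ∀ W : EuclideanSpace ℝ (Fin (n + 1)) → ℝ, Continuous W →
      Measurable (K.indicator fun x => ENNReal.ofReal (W x)) := fun W hW =>
    hW.measurable.ennreal_ofReal.indicator hK.measurableSet
  have hi : ∀ W : EuclideanSpace ℝ (Fin (n + 1)) → ℝ, Continuous W → (∀ x, 0 ≤ W x) →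
      ∫⁻ v, ∫⁻ s, K.indicator (fun x => ENNReal.ofReal (W x)) (lineAt i v s)
        = ENNReal.ofReal (∫ x in K, W x) := by
    intro W hW hW0
    rw [← lintegral_lineAt i (hm W hW), lintegral_indicator hK.measurableSet,
      ofReal_integral_eq_lintegral_ofReal (hW.continuousOn.integrableOn_compact hK)
        (ae_of_all _ hW0)]
  have hQm : Measurable (Q.indicator fun _ => ENNReal.ofReal A) :=
    measurable_const.indicator (hQ ▸ measurableSet_Icc)
  have hfin := lintegral_mono (μ := (volume : Measure (Fin n → ℝ))) hkey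
  rw [hi F hF hF0, lintegral_add_left hQm, lintegral_const_mul' _ _ ENNReal.ofReal_ne_top,
    hi G hG hG0, lintegral_indicator_const (hQ ▸ measurableSet_Icc), hQv,
    ← ENNReal.ofReal_mul hA, ← ENNReal.ofReal_mul hB,
    ← ENNReal.ofReal_add (mul_nonneg hA (by positivity))
      (mul_nonneg hB (setIntegral_nonneg hK.measurableSet fun x _ => hG0 x))] at hfin
  exact (ENNReal.ofReal_le_ofReal_iff (add_nonneg (mul_nonneg hA (by positivity))
    (mul_nonneg hB (setIntegral_nonneg hK.measurableSet fun x _ => hG0 x)))).1 hfin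

end Vale.Agent.P074
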