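import Vale.Agent.P074.Tilt

namespace Vale.Agent.P074

open MeasureTheory Filter Topology Set Finset

variable {d : ℕ}

/-- Minimisers of the same objective differ by a constant, inside the domain. -/
theorem pot_unique {κ : Type} [Fintype κ] [Nonempty κ] {K : Set (EuclideanSpace ℝ (Fin d))}
    (hK : IsCompact K) (hc : Convex ℝ K) (hne : (interior K).Nonempty)
    {y : κ → EuclideanSpace ℝ (Fin d)} (hy : Function.Injective y) {m : κ → ℝ} {b b' : κ → ℝ}
    (hb : SD (unif K) y m b) (hmin : obj (unif K) y m b' ≤ obj (unif K) y m b) :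
    ∃ c, ∀ᵐ x ∂(unif K), pot y b' x - pot y b x = c := by
  classical
  have := isProbabilityMeasure_unif hK hne
  obtain ⟨R, hKR⟩ := hK.isBounded.subset_closedBall 0
  have hR := ae_norm_unif hK hKR
  have hac := unif_absolutelyContinuous K
  have i1 : ∀ u : EuclideanSpace ℝ (Fin d), Integrable (fun x => inner ℝ x u) (unif K) := fun u =>
    integrable_bounded_support hR (continuous_id.inner continuous_const)
  have ip := integrable_bounded_support hR (continuous_pot y b')
  have hpos : ∀ k, 0 ≤ ∫ x in cell y b k, (pot y b' x - score y b' k x) ∂(unif K) := fun k =>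
    integral_nonneg fun x => sub_nonneg.2 (score_le_pot y b' k x)
  have is : ∀ k, Integrable (fun x => score y b' k x) (unif K) := fun k =>
    (i1 (y k)).sub (integrable_const _)
  have hsum : ∑ k, ∫ x in cell y b k, (pot y b' x - score y b' k x) ∂(unif K) ≤ 0 := by
    have e : ∀ k, ∫ x in cell y b k, (pot y b' x - score y b' k x) ∂(unif K)
        = (∫ x in cell y b k, pot y b' x ∂(unif K)) + m k * b' k
          - ∫ x in cell y b k, inner ℝ x (y k) ∂(unif K) := by
      intro k
      rw [integral_sub ip.integrableOn (is k).integrableOn]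
      simp only [score]
      rw [integral_sub (i1 (y k)).integrableOn (integrable_const _), setIntegral_const,
        smul_eq_mul, hb k]
      ring
    rw [sum_congr rfl fun k _ => e k, sum_sub_distrib, sum_add_distrib,
      sum_integral_cell hac hy b ip, ← obj_eq_of_SD hac hR hy hb]
    simpa [obj] using hmin
  have hzero : ∀ k, ∀ᵐ x ∂(unif K), x ∈ cell y b k → pot y b' x - pot y b x = b k - b' k := by
    intro k
    have h0 : ∫ x in cell y b k, (pot y b' x - score y b' k x) ∂(unif K) = 0 :=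
      (sum_eq_zero_iff_of_nonneg fun l _ => hpos l).1
        (le_antisymm hsum (sum_nonneg fun l _ => hpos l)) k (Finset.mem_univ k)
    have h1 := (integral_eq_zero_iff_of_nonneg (fun x => sub_nonneg.2 (score_le_pot y b' k x))
      (ip.sub (is k)).integrableOn).1 h0
    filter_upwards [(ae_restrict_iff' (measurableSet_cell y b k)).1 h1] with x hx hxc
    rw [pot_eq_of_mem_cell hxc]
    have := hx hxc
    simp only [Pi.zero_apply] at this
    simp only [score] at this ⊢
    linarith
  let g : EuclideanSpace ℝ (Fin d) → ℝ := fun x => pot y b' x - pot y b x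
  have hg : Continuous g := (continuous_pot y b').sub (continuous_pot y b)
  obtain ⟨T, hT⟩ : ∃ T : Set ℝ, T = Set.range fun k => b k - b' k := ⟨_, rfl⟩
  have hTfin : T.Finite := hT ▸ Set.finite_range _
  have hae : ∀ᵐ x ∂(unif K), g x ∈ T := by
    filter_upwards [ae_exists_cell hac hy b, ae_all_iff.2 hzero] with x hx h
    obtain ⟨k, hk⟩ := hx
    exact hT ▸ ⟨k, (h k hk).symm⟩
  have hI : ∀ x ∈ interior K, g x ∈ T := by
    have hopen : IsOpen (interior K ∩ (g ⁻¹' T)ᶜ) :=
      isOpen_interior.inter (hTfin.isClosed.preimage hg).isOpen_compl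
    have hnull : volume (interior K ∩ (g ⁻¹' T)ᶜ) = 0 := by
      have h1 : unif K (g ⁻¹' T)ᶜ = 0 := ae_iff.1 hae
      rw [unif, Measure.smul_apply, Measure.restrict_apply
        (hTfin.isClosed.preimage hg).isOpen_compl.measurableSet, smul_eq_mul, mul_eq_zero,
        ENNReal.inv_eq_zero] at h1
      refine measure_mono_null ?_ (h1.resolve_left (volume_pos_lt_top hK hne).2.ne)
      exact fun x hx => ⟨hx.2, interior_subset hx.1⟩
    intro x hx
    by_contra hcon
    exact (hopen.measure_pos volume ⟨x, hx, hcon⟩).ne' hnull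
  obtain ⟨x0, hx0⟩ := hne
  refine ⟨g x0, ?_⟩
  have hconn : (g '' interior K).Subsingleton := by
    intro p hp q hq
    by_contra hne'
    have hpc : IsPreconnected (g '' interior K) :=
      hc.interior.isPreconnected.image _ hg.continuousOn
    have hinf : (g '' interior K).Infinite := by
      rcases lt_or_gt_of_ne hne' with h | h
      · exact (Set.Icc_infinite h).mono (hpc.Icc_subset hp hq)
      · exact (Set.Icc_infinite h).mono (hpc.Icc_subset hq hp)
    exact hinf (hTfin.subset fun r ⟨x, hx, hr⟩ => hr ▸ hI x hx)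
  have hint : ∀ᵐ x ∂(unif K), x ∈ interior K := by
    have hfr : ∀ᵐ x ∂(unif K), x ∉ frontier K :=
      measure_eq_zero_iff_ae_notMem.1 (hac (hc.addHaar_frontier volume))
    filter_upwards [hfr, ae_mem_unif hK] with x h1 h2
    by_contra h3
    exact h1 ⟨subset_closure h2, h3⟩
  filter_upwards [hint] with x hx
  exact hconn ⟨x, hx, rfl⟩ ⟨x0, hx0, rfl⟩

theorem obj_tilt {κ : Type} [Fintype κ] [Nonempty κ] {K : Set (EuclideanSpace ℝ (Fin d))}
    (hK : IsCompact K) (hne : (interior K).Nonempty) {h : EuclideanSpace ℝ (Fin d) → ℝ}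
    (hh : Continuous h) (hhb : ∀ x ∈ K, |h x| ≤ 1 / 2) (y : κ → EuclideanSpace ℝ (Fin d))
    (m a : κ → ℝ) :
    obj (tilt K h) y m a = obj (unif K) y m a + ∫ x, h x * pot y a x ∂(unif K) := by
  have := isProbabilityMeasure_unif hK hne
  obtain ⟨R, hKR⟩ := hK.isBounded.subset_closedBall 0
  have i1 : Integrable (fun x => pot y a x) (unif K) :=
    integrable_bounded_support (ae_norm_unif hK hKR) (continuous_pot y a)
  have i2 : Integrable (fun x => h x * pot y a x) (unif K) :=
    integrable_bounded_support (ae_norm_unif hK hKR) (hh.mul (continuous_pot y a))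
  simp only [obj, integral_tilt hK hh hhb, add_mul, one_mul]
  rw [integral_add i1 i2]
  ring

theorem stability_pos {K : Set (EuclideanSpace ℝ (Fin d))} (hK : IsCompact K) (hc : Convex ℝ K)
    (hne : (interior K).Nonempty) {R : ℝ} (hR : 0 < R) (hKR : K ⊆ Metric.closedBall 0 R)
    {κ ι : Type} [Fintype κ] [Fintype ι] [Nonempty κ] [Nonempty ι]
    {y : κ → EuclideanSpace ℝ (Fin d)} {z : ι → EuclideanSpace ℝ (Fin d)}
    (hy : Function.Injective y) (hz : Function.Injective z) {m : κ → ℝ} {n : ι → ℝ}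
    (hm : ∀ k, 0 < m k) (hn : ∀ l, 0 < n l) {a : κ → ℝ} {b : ι → ℝ}
    (ha : SD (unif K) y m a) (hb : SD (unif K) z n b) {w : κ → ι → ℝ} (hw : ∀ k l, 0 ≤ w k l)
    (hwm : ∀ k, ∑ l, w k l = m k) (hwn : ∀ l, ∑ k, w k l = n l) :
    ∫ x, ((pot y a x - pot z b x) - ∫ u, (pot y a u - pot z b u) ∂(unif K)) ^ 2 ∂(unif K)
      ≤ 40000 * R ^ 2 * ∑ k, ∑ l, w k l * ‖y k - z l‖ ^ 2 := by
  classical
  have := isProbabilityMeasure_unif hK hne
  have hRu := ae_norm_unif hK hKR
  have hac := unif_absolutelyContinuous K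
  have hm1 : ∑ k, m k = 1 := by
    rw [← sum_congr rfl fun k _ => ha k, sum_real_cell hac hy a, probReal_univ]
  have hn1 : ∑ l, n l = 1 := by
    rw [← sum_congr rfl fun l _ => hb l, sum_real_cell hac hz b, probReal_univ]
  obtain ⟨c0, hc0⟩ : ∃ c0, c0 = ∫ u, (pot z b u - pot y a u) ∂(unif K) := ⟨_, rfl⟩
  let f : EuclideanSpace ℝ (Fin d) → ℝ := fun x => pot z b x - pot y a x - c0
  have hf : Continuous f := ((continuous_pot z b).sub (continuous_pot y a)).sub continuous_const
  have ii : ∀ q : EuclideanSpace ℝ (Fin d) → ℝ, Continuous q → Integrable q (unif K) := fun q hq =>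
    integrable_bounded_support hRu hq
  have hf0 : ∫ x, f x ∂(unif K) = 0 := by
    simp only [f]
    rw [integral_sub (ii (fun x => pot z b x - pot y a x)
      ((continuous_pot z b).sub (continuous_pot y a))) (integrable_const _), integral_const,
      probReal_univ, one_smul, ← hc0, sub_self]
  have hgoal : ∫ x, ((pot y a x - pot z b x) - ∫ u, (pot y a u - pot z b u) ∂(unif K)) ^ 2
      ∂(unif K) = ∫ x, f x ^ 2 ∂(unif K) := by
    have e : ∫ u, (pot y a u - pot z b u) ∂(unif K) = -c0 := by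
      rw [hc0, ← integral_neg]
      exact integral_congr_ae (ae_of_all _ fun x => by ring)
    rw [e]
    exact integral_congr_ae (ae_of_all _ fun x => by simp only [f]; ring)
  rw [hgoal]
  obtain ⟨B0, hB0⟩ := hK.exists_bound_of_continuousOn hf.continuousOn
  obtain ⟨W, hW⟩ : ∃ W, W = ∑ k, ∑ l, w k l * ‖y k - z l‖ ^ 2 := ⟨_, rfl⟩
  obtain ⟨Q, hQ⟩ : ∃ Q, Q = ∫ x, f x ^ 2 ∂(unif K) := ⟨_, rfl⟩
  rw [← hW, ← hQ]
  let s : ℕ → ℝ := fun i => 1 / (2 * (|B0| + 1) * ((i : ℝ) + 1))
  have hs0 : ∀ i, 0 < s i := fun i => by simp only [s]; positivity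
  let h : ℕ → EuclideanSpace ℝ (Fin d) → ℝ := fun i x => s i * f x
  have hh : ∀ i, Continuous (h i) := fun i => continuous_const.mul hf
  have hhb : ∀ i, ∀ x ∈ K, |h i x| ≤ 1 / 2 := by
    intro i x hx
    have h1 : |f x| ≤ |B0| + 1 :=
      ((hB0 x hx).trans (le_abs_self B0)).trans (by linarith)
    simp only [h, abs_mul, abs_of_pos (hs0 i)]
    refine (mul_le_mul_of_nonneg_left h1 (hs0 i).le).trans ?_
    simp only [s]
    rw [div_mul_eq_mul_div, div_le_iff₀ (by positivity)]
    nlinarith [abs_nonneg B0, mul_nonneg (add_nonneg (abs_nonneg B0) zero_le_one)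
      (show (0 : ℝ) ≤ (i : ℝ) from Nat.cast_nonneg i)]
  have hh0 : ∀ i, ∫ x, h i x ∂(unif K) = 0 := fun i => by
    simp only [h, integral_const_mul, hf0, mul_zero]
  have hprob : ∀ i, IsProbabilityMeasure (tilt K (h i)) := fun i =>
    isProbabilityMeasure_tilt hK hne (hh i) (hhb i) (hh0 i)
  have hbs : ∀ i, ∃ c : ι → ℝ, (∑ l, n l * c l = 0) ∧
      ∀ e, obj (tilt K (h i)) z n c ≤ obj (tilt K (h i)) z n e := fun i =>
    have := hprob i
    exists_min_obj (ae_norm_tilt hK hKR) hn hn1
  choose bs hbs0 hbsmin using hbs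
  have hstep : ∀ i, ∫ x, f x * (pot z (bs i) x - pot y a x) ∂(unif K)
      ≤ 200 * R * Real.sqrt Q * Real.sqrt W := by
    intro i
    have := hprob i
    have hRt : ∀ᵐ x ∂(tilt K (h i)), ‖x‖ ≤ R := ae_norm_tilt hK hKR
    have h1 : val (tilt K (h i)) z n = obj (tilt K (h i)) z n (bs i) :=
      le_antisymm (val_le hRt hn hn1 _) (le_val (hbsmin i))
    have h2 := val_le hRu hn hn1 (y := z) (bs i)
    have h3 := val_le hRt hm hm1 (y := y) a
    rw [obj_tilt hK hne (hh i) (hhb i)] at h3 h1
    have h4 := val_eq_of_SD hac hRu hy hm hm1 ha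
    have key := val_gap hK hc hne hR hKR (hh i) (hhb i) (hh0 i) hy hz hm hn hm1 hn1 hw hwm hwn
    have e : ∀ q : EuclideanSpace ℝ (Fin d) → ℝ,
        ∫ x, h i x * q x ∂(unif K) = s i * ∫ x, f x * q x ∂(unif K) := fun q => by
      rw [← integral_const_mul]
      exact integral_congr_ae (ae_of_all _ fun x => by simp only [h]; ring)
    have e2 : ∫ x, h i x ^ 2 ∂(unif K) = s i ^ 2 * Q := by
      rw [hQ, ← integral_const_mul]
      exact integral_congr_ae (ae_of_all _ fun x => by simp only [h]; ring)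
    rw [e] at h1 h3
    rw [e2, Real.sqrt_mul (sq_nonneg _), Real.sqrt_sq (hs0 i).le, ← hW] at key
    have e3 : ∫ x, f x * (pot z (bs i) x - pot y a x) ∂(unif K)
        = (∫ x, f x * pot z (bs i) x ∂(unif K)) - ∫ x, f x * pot y a x ∂(unif K) := by
      rw [← integral_sub (ii (fun x => f x * pot z (bs i) x) (hf.mul (continuous_pot _ _)))
        (ii (fun x => f x * pot y a x) (hf.mul (continuous_pot _ _)))]
      exact integral_congr_ae (ae_of_all _ fun x => by ring)
    refine le_of_mul_le_mul_left ?_ (hs0 i)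
    rw [e3]
    linarith
  -- compactness
  obtain ⟨Bz, hBz⟩ : ∃ Bz, Bz = R * ∑ l, ‖z l‖ := ⟨_, rfl⟩
  obtain ⟨T, hT⟩ : ∃ T, T = ∑ l, max (Bz + R * ∑ j, ‖z j‖) 0 * (1 + (n l)⁻¹) := ⟨_, rfl⟩
  have hterm : ∀ l, 0 ≤ max (Bz + R * ∑ j, ‖z j‖) 0 * (1 + (n l)⁻¹) := fun l =>
    mul_nonneg (le_max_right _ _) (by linarith [inv_pos.2 (hn l)])
  have hbd : ∀ i, bs i ∈ Metric.closedBall (0 : ι → ℝ) T := by
    intro i
    have := hprob i
    have hRt : ∀ᵐ x ∂(tilt K (h i)), ‖x‖ ≤ R := ae_norm_tilt hK hKR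
    have hle : obj (tilt K (h i)) z n 0 ≤ Bz := by
      simp only [obj, Pi.zero_apply, mul_zero, sum_const_zero, add_zero]
      refine (integral_mono_ae (integrable_bounded_support hRt (continuous_pot z 0))
        (integrable_const Bz) ?_).trans_eq (by simp)
      filter_upwards [hRt] with x hx
      have := abs_pot_le z 0 x hx
      simp only [Pi.zero_apply, abs_zero, sum_const_zero, add_zero, ← hBz] at this
      exact (abs_le.1 this).2
    rw [mem_closedBall_zero_iff, pi_norm_le_iff_of_nonneg (hT ▸ sum_nonneg fun l _ => hterm l)]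
    intro l
    rw [hT]
    exact (offset_bound hRt hn hn1 (hbs0 i) ((hbsmin i 0).trans hle) l).trans
      (single_le_sum (f := fun l => max (Bz + R * ∑ j, ‖z j‖) 0 * (1 + (n l)⁻¹))
        (fun l _ => hterm l) (Finset.mem_univ l))
  obtain ⟨bstar, -, φ, hφ, hlim⟩ := (isCompact_closedBall (0 : ι → ℝ) T).tendsto_subseq hbd
  have hG : ∀ q : EuclideanSpace ℝ (Fin d) → ℝ, Continuous q →
      Continuous fun e : ι → ℝ => ∫ x, q x * pot z e x ∂(unif K) := by
    intro q hq
    refine (LipschitzWith.of_dist_le_mul (K := Real.toNNReal (∫ x, |q x| ∂(unif K)))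
      fun e e' => ?_).continuous
    rw [Real.dist_eq, dist_eq_norm, Real.coe_toNNReal _ (integral_nonneg fun x => abs_nonneg _),
      ← integral_sub (ii (fun x => q x * pot z e x) (hq.mul (continuous_pot z e)))
        (ii (fun x => q x * pot z e' x) (hq.mul (continuous_pot z e'))), ← integral_mul_const]
    refine abs_integral_le_integral_abs.trans (integral_mono
      (ii (fun x => |q x * pot z e x - q x * pot z e' x|)
        ((hq.mul (continuous_pot z e)).sub (hq.mul (continuous_pot z e'))).abs)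
      (ii (fun x => |q x| * ‖e - e'‖) (hq.abs.mul continuous_const)) fun x => ?_)
    show |q x * pot z e x - q x * pot z e' x| ≤ |q x| * ‖e - e'‖
    rw [← mul_sub, abs_mul]
    exact mul_le_mul_of_nonneg_left (abs_pot_sub_offsets z e e' x) (abs_nonneg _)
  have hsl : Tendsto (fun i => s (φ i)) atTop (𝓝 0) := by
    have h1 : Tendsto (fun i : ℕ => 1 / (2 * (|B0| + 1)) * (1 / ((i : ℝ) + 1))) atTop
        (𝓝 (1 / (2 * (|B0| + 1)) * 0)) :=
      tendsto_one_div_add_atTop_nhds_zero_nat.const_mul _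
    rw [mul_zero] at h1
    refine (h1.comp hφ.tendsto_atTop).congr fun i => ?_
    simp only [s, Function.comp_apply, one_div_mul_one_div]
  have hexp : ∀ i e, obj (tilt K (h i)) z n e
      = obj (unif K) z n e + s i * ∫ x, f x * pot z e x ∂(unif K) := fun i e => by
    rw [obj_tilt hK hne (hh i) (hhb i), ← integral_const_mul]
    refine congrArg (obj (unif K) z n e + ·) (integral_congr_ae (ae_of_all _ fun x => ?_))
    simp only [h]
    ring
  have hmin : obj (unif K) z n bstar ≤ obj (unif K) z n b := by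
    have l1 : Tendsto (fun i => obj (tilt K (h (φ i))) z n (bs (φ i))) atTop
        (𝓝 (obj (unif K) z n bstar + 0 * ∫ x, f x * pot z bstar x ∂(unif K))) := by
      simp only [hexp]
      exact (((continuous_obj hRu).tendsto bstar).comp hlim).add
        (hsl.mul (((hG f hf).tendsto bstar).comp hlim))
    have l2 : Tendsto (fun i => obj (tilt K (h (φ i))) z n b) atTop
        (𝓝 (obj (unif K) z n b + 0 * ∫ x, f x * pot z b x ∂(unif K))) := by
      simp only [hexp]
      exact tendsto_const_nhds.add (hsl.mul tendsto_const_nhds)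
    simpa using le_of_tendsto_of_tendsto' l1 l2 fun i => hbsmin (φ i) b
  obtain ⟨c, hcst⟩ := pot_unique hK hc hne hz hb hmin
  have hlim2 : ∫ x, f x * (pot z bstar x - pot y a x) ∂(unif K) ≤ 200 * R * Real.sqrt Q * Real.sqrt W := by
    have l : Tendsto (fun i => ∫ x, f x * (pot z (bs (φ i)) x - pot y a x) ∂(unif K)) atTop
        (𝓝 (∫ x, f x * (pot z bstar x - pot y a x) ∂(unif K))) := by
      have e : ∀ e' : ι → ℝ, ∫ x, f x * (pot z e' x - pot y a x) ∂(unif K)
          = (∫ x, f x * pot z e' x ∂(unif K)) - ∫ x, f x * pot y a x ∂(unif K) := fun e' => by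
        rw [← integral_sub (ii (fun x => f x * pot z e' x) (hf.mul (continuous_pot _ _)))
          (ii (fun x => f x * pot y a x) (hf.mul (continuous_pot _ _)))]
        exact integral_congr_ae (ae_of_all _ fun x => by ring)
      simp only [e]
      exact (((hG f hf).tendsto bstar).comp hlim).sub_const _
    exact le_of_tendsto l (Eventually.of_forall fun i => hstep (φ i))
  have hQe : ∫ x, f x * (pot z bstar x - pot y a x) ∂(unif K) = Q := by
    have e : ∀ᵐ x ∂(unif K), f x * (pot z bstar x - pot y a x) = f x ^ 2 + (c + c0) * f x := by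
      filter_upwards [hcst] with x hx
      rw [← hx]
      simp only [f]
      ring
    rw [integral_congr_ae e, integral_add (ii (fun x => f x ^ 2) (hf.pow 2))
      (ii (fun x => (c + c0) * f x) (continuous_const.mul hf)), integral_const_mul, hf0, mul_zero,
      add_zero, hQ]
  rw [hQe] at hlim2
  have hQ0 : 0 ≤ Q := hQ ▸ integral_nonneg fun x => sq_nonneg _
  have hW0 : 0 ≤ W := hW ▸ sum_nonneg fun k _ => sum_nonneg fun l _ =>
    mul_nonneg (hw k l) (sq_nonneg _)
  rcases hQ0.eq_or_lt with hQ1 | hQ1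
  · rw [← hQ1]
    positivity
  · have hs := Real.sqrt_pos.2 hQ1
    have h1 : Real.sqrt Q ≤ 200 * R * Real.sqrt W := by
      refine le_of_mul_le_mul_left ?_ hs
      calc Real.sqrt Q * Real.sqrt Q = Q := Real.mul_self_sqrt hQ0
        _ ≤ _ := hlim2
        _ = _ := by ring
    calc Q = Real.sqrt Q ^ 2 := (Real.sq_sqrt hQ0).symm
      _ ≤ (200 * R * Real.sqrt W) ^ 2 := pow_le_pow_left₀ hs.le h1 2
      _ = _ := by rw [mul_pow, Real.sq_sqrt hW0]; ring

/-- Potentials of finitely supported targets are stable in transport cost. -/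
theorem potential_stability (d : ℕ) : ∃ C : ℝ, 0 ≤ C ∧
    ∀ (K : Set (EuclideanSpace ℝ (Fin d))), IsCompact K → Convex ℝ K → (interior K).Nonempty →
    ∀ R : ℝ, K ⊆ Metric.closedBall 0 R →
    ∀ {κ ι : Type} [Fintype κ] [Fintype ι] [Nonempty κ] [Nonempty ι]
      (y : κ → EuclideanSpace ℝ (Fin d)) (z : ι → EuclideanSpace ℝ (Fin d)),
      Function.Injective y → Function.Injective z →
      ∀ (m : κ → ℝ) (n : ι → ℝ), (∀ k, 0 < m k) → (∀ l, 0 < n l) →
      ∀ (a : κ → ℝ) (b : ι → ℝ), SD (unif K) y m a → SD (unif K) z n b →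
      ∀ w : κ → ι → ℝ, (∀ k l, 0 ≤ w k l) → (∀ k, ∑ l, w k l = m k) →
        (∀ l, ∑ k, w k l = n l) →
        ∫ x, ((pot y a x - pot z b x) - ∫ u, (pot y a u - pot z b u) ∂(unif K)) ^ 2 ∂(unif K)
          ≤ C * R ^ 2 * ∑ k, ∑ l, w k l * ‖y k - z l‖ ^ 2 := by
  refine ⟨40000, by norm_num, ?_⟩
  intro K hK hc hne R hKR κ ι _ _ _ _ y z hy hz m n hm hn a b ha hb w hw hwm hwn
  have hR0 : 0 ≤ R := by
    obtain ⟨x, hx⟩ := hne
    exact (norm_nonneg x).trans (mem_closedBall_zero_iff.1 (hKR (interior_subset hx)))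
  have htend : Tendsto (fun e : ℝ => 40000 * (R + e) ^ 2 * ∑ k, ∑ l, w k l * ‖y k - z l‖ ^ 2)
      (𝓝[>] 0) (𝓝 (40000 * R ^ 2 * ∑ k, ∑ l, w k l * ‖y k - z l‖ ^ 2)) := by
    refine Tendsto.mono_left ?_ nhdsWithin_le_nhds
    exact (((continuous_const.mul ((continuous_const.add continuous_id).pow 2)).mul
      continuous_const).tendsto' 0 _ (by simp))
  refine ge_of_tendsto htend (eventually_nhdsWithin_of_forall fun e (he : 0 < e) => ?_)
  exact stability_pos hK hc hne (by linarith)
    (hKR.trans (Metric.closedBall_subset_closedBall (by linarith))) hy hz hm hn ha hb hw hwm hwn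

end Vale.Agent.P074
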