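import Vale.Agent.P074.Opt
import Vale.Agent.P074.OneDim
import Vale.Agent.P074.Slice
import Vale.Agent.P074.Stability

namespace Vale.Agent.P074

open MeasureTheory Filter Topology Set Finset

section General

variable {d : ℕ} {κ : Type} [Fintype κ] [Nonempty κ] {y : κ → EuclideanSpace ℝ (Fin d)} {L : ℝ}

theorem pot_lip (hy : ∀ k, ‖y k‖ ≤ L) (a : κ → ℝ) (x x' : EuclideanSpace ℝ (Fin d)) :
    |pot y a x - pot y a x'| ≤ L * ‖x - x'‖ := by
  refine abs_pot_sub_le fun k => ?_
  simp only [score]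
  rw [sub_sub_sub_cancel_right, ← inner_sub_left]
  exact (abs_real_inner_le_norm _ _).trans
    ((mul_le_mul_of_nonneg_left (hy k) (norm_nonneg _)).trans (le_of_eq (mul_comm _ _)))

theorem pot_line_convex (y : κ → EuclideanSpace ℝ (Fin d)) (a : κ → ℝ)
    (p e : EuclideanSpace ℝ (Fin d)) : ConvexOn ℝ Set.univ fun s : ℝ => pot y a (p + s • e) := by
  refine ⟨convex_univ, fun s _ t _ u w hu hw huw => pot_le fun k => ?_⟩
  have h1 := score_le_pot y a k (p + s • e)
  have h2 := score_le_pot y a k (p + t • e)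
  refine le_trans (le_of_eq ?_)
    (add_le_add (mul_le_mul_of_nonneg_left h1 hu) (mul_le_mul_of_nonneg_left h2 hw))
  simp only [score, inner_add_left, real_inner_smul_left, smul_eq_mul]
  linear_combination (a k - inner ℝ p (y k)) * huw

theorem pot_line_lip (hy : ∀ k, ‖y k‖ ≤ L) (a : κ → ℝ) (p : EuclideanSpace ℝ (Fin d))
    {e : EuclideanSpace ℝ (Fin d)} (he : ‖e‖ = 1) (s t : ℝ) :
    |pot y a (p + s • e) - pot y a (p + t • e)| ≤ L * |s - t| := by
  refine (pot_lip hy a _ _).trans_eq ?_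
  rw [add_sub_add_left_eq_sub, ← sub_smul, norm_smul, he, mul_one, Real.norm_eq_abs]

theorem pot_subgradient {a : κ → ℝ} {k : κ} {x : EuclideanSpace ℝ (Fin d)} (hx : x ∈ cell y a k)
    (z : EuclideanSpace ℝ (Fin d)) :
    pot y a x + inner ℝ (z - x) (y k) ≤ pot y a z := by
  refine le_trans (le_of_eq ?_) (score_le_pot y a k z)
  rw [pot_eq_of_mem_cell hx]
  simp only [score, inner_sub_left]
  ring

theorem tendsto_slope_pot {a : κ → ℝ} {k : κ} {x : EuclideanSpace ℝ (Fin d)} (hx : x ∈ cell y a k)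
    (e : EuclideanSpace ℝ (Fin d)) :
    Tendsto (fun j : ℕ => (pot y a (x + (1 / ((j : ℝ) + 1)) • e) - pot y a x) / (1 / ((j : ℝ) + 1)))
      atTop (𝓝 (inner ℝ e (y k))) := by
  have h0 : Tendsto (fun j : ℕ => x + (1 / ((j : ℝ) + 1)) • e) atTop (𝓝 x) := by
    simpa using (tendsto_const_nhds (x := x)).add
      ((tendsto_one_div_add_atTop_nhds_zero_nat (𝕜 := ℝ)).smul_const e)
  refine tendsto_const_nhds.congr' ?_
  filter_upwards [h0.eventually ((isOpen_cell y a k).mem_nhds hx)] with j hj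
  rw [pot_eq_of_mem_cell hj, pot_eq_of_mem_cell hx]
  simp only [score, inner_add_left, real_inner_smul_left]
  have : (0 : ℝ) < 1 / ((j : ℝ) + 1) := by positivity
  field_simp
  ring

end General

variable {n : ℕ}

/-- The slope bound in one coordinate direction. -/
theorem slope_coord_bound (i : Fin (n + 1)) {K : Set (EuclideanSpace ℝ (Fin (n + 1)))}
    (hK : IsCompact K) (hc : Convex ℝ K) {R L lam h : ℝ} (hR : 0 ≤ R)
    (hKR : K ⊆ Metric.closedBall 0 R) (hL : 0 < L) (hlam : 0 < lam) (hh : 0 < h)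
    {κ ι : Type} [Fintype κ] [Nonempty κ] [Fintype ι] [Nonempty ι]
    {y : κ → EuclideanSpace ℝ (Fin (n + 1))} {z : ι → EuclideanSpace ℝ (Fin (n + 1))}
    (hy : ∀ k, ‖y k‖ ≤ L) (hz : ∀ l, ‖z l‖ ≤ L) (a : κ → ℝ) (b : ι → ℝ) :
    ∫ x in K, ((pot y a (x + h • EuclideanSpace.single i 1) - pot y a x) / h
        - (pot z b (x + h • EuclideanSpace.single i 1) - pot z b x) / h) ^ 2
      ≤ (8 * L ^ 2 * lam + 16 * L ^ 2 * h) * (2 * R) ^ n
        + 128 / lam ^ 2 * ∫ x in K, (pot y a x - pot z b x) ^ 2 := by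
  have he : ‖EuclideanSpace.single i (1 : ℝ)‖ = 1 := by simp
  have cy := continuous_pot y a
  have cz := continuous_pot z b
  refine slice_bound i hK hc hR hKR
    ((((cy.comp (continuous_id.add continuous_const)).sub cy).div_const h).sub
      (((cz.comp (continuous_id.add continuous_const)).sub cz).div_const h) |>.pow 2)
    ((cy.sub cz).pow 2) (fun x => sq_nonneg _) (fun x => sq_nonneg _) (by positivity)
    (by positivity) fun v p q hpq => ?_
  have key := sq_dq_interval (pot_line_convex y a (lineAt i v 0) (EuclideanSpace.single i 1))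
    (pot_line_convex z b (lineAt i v 0) (EuclideanSpace.single i 1))
    (pot_line_lip hy a _ he) (pot_line_lip hz b _ he) hL hpq hh hlam
  simp only [← lineAt_eq] at key
  refine le_trans (le_of_eq (intervalIntegral.integral_congr fun s _ => ?_)) key
  show ((pot y a (lineAt i v s + h • EuclideanSpace.single i 1) - pot y a (lineAt i v s)) / h
      - (pot z b (lineAt i v s + h • EuclideanSpace.single i 1) - pot z b (lineAt i v s)) / h) ^ 2 = _
  rw [show lineAt i v s + h • EuclideanSpace.single i (1 : ℝ) = lineAt i v (s + h) by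
    rw [lineAt_eq i v s, lineAt_eq i v (s + h), add_smul, add_assoc]]
  unfold dq
  ring

/-- The maps of two finite targets are close when the potentials are. -/
theorem maps_le_potentials {K : Set (EuclideanSpace ℝ (Fin (n + 1)))} (hK : IsCompact K)
    (hc : Convex ℝ K) {R L lam : ℝ} (hR : 0 ≤ R) (hKR : K ⊆ Metric.closedBall 0 R) (hL : 0 < L)
    (hlam : 0 < lam) {κ ι : Type} [Fintype κ] [Nonempty κ] [Fintype ι] [Nonempty ι]
    {y : κ → EuclideanSpace ℝ (Fin (n + 1))} {z : ι → EuclideanSpace ℝ (Fin (n + 1))}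
    (hyi : Function.Injective y) (hzi : Function.Injective z)
    (hy : ∀ k, ‖y k‖ ≤ L) (hz : ∀ l, ‖z l‖ ≤ L) (a : κ → ℝ) (b : ι → ℝ) :
    ∫ x in K, ‖cellMap y a x - cellMap z b x‖ ^ 2
      ≤ ((n : ℝ) + 1) * (8 * L ^ 2 * lam * (2 * R) ^ n
        + 128 / lam ^ 2 * ∫ x in K, (pot y a x - pot z b x) ^ 2) := by
  have : IsFiniteMeasure (volume.restrict K) := isFiniteMeasure_restrict.2 hK.measure_lt_top.ne
  have hae : ∀ᵐ x ∂(volume.restrict K), (∃ k, x ∈ cell y a k) ∧ ∃ l, x ∈ cell z b l :=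
    (ae_exists_cell (Measure.restrict_le_self.absolutelyContinuous) hyi a).and
      (ae_exists_cell (Measure.restrict_le_self.absolutelyContinuous) hzi b)
  let F : Fin (n + 1) → ℕ → EuclideanSpace ℝ (Fin (n + 1)) → ℝ := fun i j x =>
    ((pot y a (x + (1 / ((j : ℝ) + 1)) • EuclideanSpace.single i 1) - pot y a x) / (1 / ((j : ℝ) + 1))
      - (pot z b (x + (1 / ((j : ℝ) + 1)) • EuclideanSpace.single i 1) - pot z b x)
        / (1 / ((j : ℝ) + 1))) ^ 2
  have hi : ∀ i, ∫ x in K, ((cellMap y a x - cellMap z b x) i) ^ 2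
      ≤ 8 * L ^ 2 * lam * (2 * R) ^ n + 128 / lam ^ 2 * ∫ x in K, (pot y a x - pot z b x) ^ 2 := by
    intro i
    have hcont : ∀ j, Continuous (F i j) := fun j =>
      ((((continuous_pot y a).comp (continuous_id.add continuous_const)).sub
        (continuous_pot y a)).div_const _ |>.sub
        ((((continuous_pot z b).comp (continuous_id.add continuous_const)).sub
          (continuous_pot z b)).div_const _)).pow 2
    have hlim : Tendsto (fun j => ∫ x in K, F i j x) atTop
        (𝓝 (∫ x in K, ((cellMap y a x - cellMap z b x) i) ^ 2)) := by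
      refine tendsto_integral_of_dominated_convergence (fun _ => (2 * L) ^ 2)
        (fun j => (hcont j).aestronglyMeasurable) (integrable_const _) (fun j => ae_of_all _ fun x => ?_)
        ?_
      · simp only [F, Real.norm_eq_abs, abs_pow]
        refine pow_le_pow_left₀ (abs_nonneg _) ((abs_sub _ _).trans ?_) 2
        have hp : (0 : ℝ) < 1 / ((j : ℝ) + 1) := by positivity
        have hstep : ∀ u : EuclideanSpace ℝ (Fin (n + 1)),
            ‖x + (1 / ((j : ℝ) + 1)) • EuclideanSpace.single i (1 : ℝ) - x‖ = 1 / ((j : ℝ) + 1) :=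
          fun _ => by
            rw [add_sub_cancel_left, norm_smul, Real.norm_of_nonneg hp.le]
            simp
        have hd : ∀ q t : ℝ, 0 < t → |q| ≤ L * t → |q / t| ≤ L := fun q t ht hq => by
          rw [abs_div, abs_of_pos ht, div_le_iff₀ ht]
          exact hq
        rw [two_mul]
        exact add_le_add (hd _ _ hp ((pot_lip hy a _ _).trans_eq (by rw [hstep x])))
          (hd _ _ hp ((pot_lip hz b _ _).trans_eq (by rw [hstep x])))
      · filter_upwards [hae] with x hx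
        obtain ⟨⟨k, hk⟩, l, hl⟩ := hx
        have := ((tendsto_slope_pot hk (EuclideanSpace.single i (1 : ℝ))).sub
          (tendsto_slope_pot hl (EuclideanSpace.single i (1 : ℝ)))).pow 2
        simpa [F, cellMap_of_mem hk, cellMap_of_mem hl, EuclideanSpace.inner_single_left] using this
    have hup : Tendsto (fun j : ℕ => (8 * L ^ 2 * lam + 16 * L ^ 2 * (1 / ((j : ℝ) + 1))) * (2 * R) ^ n
        + 128 / lam ^ 2 * ∫ x in K, (pot y a x - pot z b x) ^ 2) atTop
        (𝓝 ((8 * L ^ 2 * lam + 16 * L ^ 2 * 0) * (2 * R) ^ n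
          + 128 / lam ^ 2 * ∫ x in K, (pot y a x - pot z b x) ^ 2)) :=
      (((tendsto_one_div_add_atTop_nhds_zero_nat.const_mul _).const_add _).mul_const _).add_const _
    rw [mul_zero, add_zero] at hup
    exact le_of_tendsto_of_tendsto' hlim hup fun j =>
      slope_coord_bound i hK hc hR hKR hL hlam (by positivity) hy hz a b
  have hm : ∀ i, Integrable (fun x => ((cellMap y a x - cellMap z b x) i) ^ 2)
      (volume.restrict K) := by
    intro i
    refine Integrable.of_bound ?_ ((∑ k, ‖y k‖ + ∑ l, ‖z l‖) ^ 2) (ae_of_all _ fun x => ?_)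
    · exact (((measurable_pi_apply i).comp ((PiLp.volume_preserving_ofLp (Fin (n + 1))).measurable.comp
        ((measurable_cellMap y a).sub (measurable_cellMap z b)))).pow_const 2).aestronglyMeasurable
    · rw [norm_pow]
      refine pow_le_pow_left₀ (norm_nonneg _) ((PiLp.norm_apply_le _ i).trans
        ((norm_sub_le _ _).trans (add_le_add ?_ ?_))) 2 <;>
      · exact (norm_sum_le _ _).trans (Finset.sum_le_sum fun k _ => norm_indicator_le_norm_self _ _)
  simp only [EuclideanSpace.real_norm_sq_eq]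
  rw [integral_finsetSum _ fun i _ => hm i]
  refine (Finset.sum_le_sum fun i _ => hi i).trans_eq ?_
  simp
  ring

/-- Stability of maps for finitely supported targets, exponent one third. -/
theorem finite_stability {K : Set (EuclideanSpace ℝ (Fin (n + 1)))} (hK : IsCompact K)
    (hc : Convex ℝ K) (hne : (interior K).Nonempty) (L : ℝ) (hL : 0 < L) :
    ∃ C : ℝ, 0 ≤ C ∧ ∀ {κ ι : Type} [Fintype κ] [Fintype ι] [Nonempty κ] [Nonempty ι]
      (y : κ → EuclideanSpace ℝ (Fin (n + 1))) (z : ι → EuclideanSpace ℝ (Fin (n + 1))),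
      Function.Injective y → Function.Injective z → (∀ k, ‖y k‖ ≤ L) → (∀ l, ‖z l‖ ≤ L) →
      ∀ (m : κ → ℝ) (m' : ι → ℝ), (∀ k, 0 < m k) → (∀ l, 0 < m' l) →
      ∀ (a : κ → ℝ) (b : ι → ℝ), SD (unif K) y m a → SD (unif K) z m' b →
      ∀ w : κ → ι → ℝ, (∀ k l, 0 ≤ w k l) → (∀ k, ∑ l, w k l = m k) →
        (∀ l, ∑ k, w k l = m' l) →
        ∫ x, ‖cellMap y a x - cellMap z b x‖ ^ 2 ∂(unif K)
          ≤ C * (∑ k, ∑ l, w k l * ‖y k - z l‖ ^ 2) ^ (1 / 3 : ℝ) := by
  obtain ⟨C0, hC0, hstab⟩ := potential_stability (n + 1)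
  obtain ⟨R, hKR⟩ := hK.isBounded.subset_closedBall 0
  have hR : 0 ≤ R := by
    obtain ⟨x, hx⟩ := hne
    exact (norm_nonneg x).trans (mem_closedBall_zero_iff.1 (hKR (interior_subset hx)))
  obtain ⟨V, hV⟩ : ∃ V, V = volume.real K := ⟨_, rfl⟩
  have hV0 : 0 < V := by
    obtain ⟨h1, h2⟩ := volume_pos_lt_top hK hne
    rw [hV, measureReal_def]
    exact ENNReal.toReal_pos h1.ne' h2.ne
  obtain ⟨A, hA⟩ : ∃ A, A = V⁻¹ * (((n : ℝ) + 1) * (8 * L ^ 2 * (2 * R) ^ n)) := ⟨_, rfl⟩
  obtain ⟨B, hB⟩ : ∃ B, B = ((n : ℝ) + 1) * 128 * (C0 * R ^ 2) := ⟨_, rfl⟩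
  have hA0 : 0 ≤ A := by rw [hA]; positivity
  have hB0 : 0 ≤ B := by rw [hB]; positivity
  refine ⟨A + B, add_nonneg hA0 hB0, ?_⟩
  intro κ ι _ _ _ _ y z hy hz hyL hzL m m' hm hm' a b ha hb w hw hwm hwn
  have := isProbabilityMeasure_unif hK hne
  obtain ⟨W, hW⟩ : ∃ W, W = ∑ k, ∑ l, w k l * ‖y k - z l‖ ^ 2 := ⟨_, rfl⟩
  have hW0 : 0 ≤ W := hW ▸ Finset.sum_nonneg fun k _ => Finset.sum_nonneg fun l _ =>
    mul_nonneg (hw k l) (sq_nonneg _)
  have hst := hstab K hK hc hne R hKR y z hy hz m m' hm hm' a b ha hb w hw hwm hwn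
  rw [← hW] at hst ⊢
  obtain ⟨c, hcdef⟩ : ∃ c, c = ∫ u, (pot y a u - pot z b u) ∂(unif K) := ⟨_, rfl⟩
  rw [← hcdef] at hst
  have hcell : cellMap z (fun l => b l - c) = cellMap z b := by
    funext x
    simp only [cellMap, cell, score, sub_sub_eq_add_sub]
    congr 1
    funext l
    congr 1
    ext u
    simp only [Set.mem_setOf_eq]
    exact forall₂_congr fun k _ => ⟨fun h => by linarith, fun h => by linarith⟩
  have hshift : ∀ x, pot y a x - pot z (fun l => b l - c) x = pot y a x - pot z b x - c := fun x => by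
    rw [show (fun l => b l - c) = fun l => b l + -c by funext l; ring, pot_add_const]
    ring
  have key : ∀ lam, 0 < lam → ∫ x, ‖cellMap y a x - cellMap z b x‖ ^ 2 ∂(unif K)
      ≤ A * lam + B * (W / lam ^ 2) := by
    intro lam hlam
    have h1 := maps_le_potentials hK hc hR hKR hL hlam hy hz hyL hzL a (fun l => b l - c)
    rw [hcell] at h1
    simp only [hshift] at h1
    have h2 : ∫ x in K, (pot y a x - pot z b x - c) ^ 2 ≤ V * (C0 * R ^ 2 * W) := by
      rw [integral_unif, ← hV, inv_mul_le_iff₀ hV0] at hst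
      exact hst
    rw [integral_unif, ← hV, inv_mul_le_iff₀ hV0]
    refine h1.trans ?_
    rw [hA, hB, mul_add, mul_add]
    refine add_le_add (le_of_eq ?_) ?_
    · field_simp
    · calc ((n : ℝ) + 1) * (128 / lam ^ 2 * ∫ x in K, (pot y a x - pot z b x - c) ^ 2)
          ≤ ((n : ℝ) + 1) * (128 / lam ^ 2 * (V * (C0 * R ^ 2 * W))) := by gcongr
        _ = _ := by ring
  rcases hW0.eq_or_lt with hW1 | hW1
  · rw [← hW1, Real.zero_rpow (by norm_num), mul_zero]
    refine le_of_forall_pos_le_add fun ε hε => ?_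
    have := key (ε / (A + 1)) (by positivity)
    rw [← hW1, zero_div, mul_zero, add_zero] at this
    refine this.trans ?_
    rw [zero_add, mul_div_assoc', div_le_iff₀ (by positivity)]
    nlinarith
  · have hp : 0 < W ^ (1 / 3 : ℝ) := Real.rpow_pos_of_pos hW1 _
    refine (key _ hp).trans (le_of_eq ?_)
    have e : W = (W ^ (1 / 3 : ℝ)) ^ 3 := by
      rw [← Real.rpow_natCast, ← Real.rpow_mul hW0]
      norm_num
    have e2 : W / (W ^ (1 / 3 : ℝ)) ^ 2 = W ^ (1 / 3 : ℝ) := by
      rw [div_eq_iff (pow_pos hp 2).ne']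
      nth_rewrite 1 [e]
      ring
    rw [e2]
    ring

end Vale.Agent.P074
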