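import Vale.Agent.P074.Opt
import Vale.Agent.P074.PL

namespace Vale.Agent.P074

open MeasureTheory Filter Topology Set Finset
open scoped ENNReal

/-- The volume of a set with a symmetric fibre length. -/
theorem volume_fibred {n : ℕ} {S : Set (Fin (n + 1) → ℝ)} (hS : MeasurableSet S)
    {g : (Fin n → ℝ) → ℝ} {L : ℝ}
    (hg : Measurable g) (hg0 : ∀ v ∈ Icc (fun _ => (-1 : ℝ)) (fun _ => 1), 0 ≤ g v)
    (hsym : ∀ v, g v + g (-v) = 2 * L)
    (hfib : ∀ v, volume {s : ℝ | (Fin.cons s v : Fin (n + 1) → ℝ) ∈ S}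
      = (Icc (fun _ => (-1 : ℝ)) (fun _ => 1)).indicator (fun v => ENNReal.ofReal (g v)) v) :
    volume S = ENNReal.ofReal (L * 2 ^ n) := by
  obtain ⟨B, hB⟩ : ∃ B : Set (Fin n → ℝ), B = Icc (fun _ => (-1 : ℝ)) (fun _ => 1) := ⟨_, rfl⟩
  have hBm : MeasurableSet B := hB ▸ measurableSet_Icc
  rw [← hB] at hfib hg0
  have hone : Measurable (S.indicator (fun _ => (1 : ℝ≥0∞))) := measurable_const.indicator hS
  have hF : Measurable (B.indicator fun v => ENNReal.ofReal (g v)) := hg.ennreal_ofReal.indicator hBm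
  have h1 : volume S = ∫⁻ v, B.indicator (fun v => ENNReal.ofReal (g v)) v := by
    have h0 : ∫⁻ x, S.indicator (fun _ => (1 : ℝ≥0∞)) x = volume S := by
      rw [lintegral_indicator_const hS, one_mul]
    have hm2 : AEMeasurable (Function.uncurry fun (s : ℝ) (v : Fin n → ℝ) =>
        S.indicator (fun _ => (1 : ℝ≥0∞)) (Fin.cons s v)) (volume.prod volume) :=
      (hone.comp (measurable_cons n)).aemeasurable
    rw [← h0, lintegral_cons hone, lintegral_lintegral_swap hm2]
    refine lintegral_congr fun v => ?_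
    rw [← hfib v]
    have hm : MeasurableSet {s : ℝ | (Fin.cons s v : Fin (n + 1) → ℝ) ∈ S} :=
      hS.preimage ((measurable_cons n).comp measurable_prodMk_right)
    conv_rhs => rw [← one_mul (volume {s : ℝ | (Fin.cons s v : Fin (n + 1) → ℝ) ∈ S}),
      ← lintegral_indicator_const hm]
    rfl
  have hneg : ∀ v, -v ∈ B ↔ v ∈ B := fun v => by
    simp only [hB, Set.mem_Icc, Pi.le_def, Pi.neg_apply]
    exact ⟨fun h => ⟨fun i => by linarith [h.2 i], fun i => by linarith [h.1 i]⟩,
      fun h => ⟨fun i => by linarith [h.2 i], fun i => by linarith [h.1 i]⟩⟩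
  have h2 : ∫⁻ v, B.indicator (fun v => ENNReal.ofReal (g v)) (-v)
      = ∫⁻ v, B.indicator (fun v => ENNReal.ofReal (g v)) v :=
    (Measure.measurePreserving_neg (volume : Measure (Fin n → ℝ))).lintegral_comp hF
  have hBv : volume B = ENNReal.ofReal (2 ^ n) := by
    rw [hB, Real.volume_Icc_pi]
    norm_num
  have h3 : volume S + volume S = ENNReal.ofReal (2 * L) * ENNReal.ofReal (2 ^ n) := by
    conv_lhs => rw [h1]
    conv_lhs => arg 2; rw [← h2]
    rw [← lintegral_add_left hF, ← hBv, ← lintegral_indicator_const hBm]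
    refine lintegral_congr fun v => ?_
    by_cases hv : v ∈ B
    · rw [indicator_of_mem hv, indicator_of_mem ((hneg v).2 hv), indicator_of_mem hv,
        ← ENNReal.ofReal_add (hg0 v hv) (hg0 _ ((hneg v).2 hv)), hsym]
    · rw [indicator_of_notMem hv, indicator_of_notMem (fun h => hv ((hneg v).1 h)),
        indicator_of_notMem hv, add_zero]
  rw [← two_mul, ENNReal.ofReal_mul (by norm_num : (0 : ℝ) ≤ 2), mul_assoc,
    ENNReal.ofReal_ofNat] at h3
  rw [(ENNReal.mul_right_inj (by norm_num) (by norm_num)).1 h3,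
    ENNReal.ofReal_mul' (by positivity)]

variable {n : ℕ}

/-- The cube. -/
def cube (d : ℕ) : Set (EuclideanSpace ℝ (Fin d)) := {x | ∀ i, x i ∈ Set.Icc (-1 : ℝ) 1}

theorem cube_props (d : ℕ) : IsCompact (cube d) ∧ Convex ℝ (cube d) ∧ (interior (cube d)).Nonempty
    ∧ volume (cube d) = ENNReal.ofReal (2 ^ d) := by
  have e : cube d = (WithLp.ofLp : EuclideanSpace ℝ (Fin d) → Fin d → ℝ) ⁻¹'
      Icc (fun _ => (-1 : ℝ)) (fun _ => 1) := by
    ext x
    simp only [cube, Set.mem_setOf_eq, Set.mem_preimage, Set.mem_Icc, Pi.le_def]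
    exact ⟨fun h => ⟨fun i => (h i).1, fun i => (h i).2⟩, fun h i => ⟨h.1 i, h.2 i⟩⟩
  refine ⟨?_, ?_, ?_, ?_⟩
  · rw [e]
    exact (PiLp.homeomorph 2 (fun _ : Fin d => ℝ)).isCompact_preimage.2 isCompact_Icc
  · intro x hx y hy a b ha hb hab i
    have := convex_Icc (-1 : ℝ) 1 (hx i) (hy i) ha hb hab
    simpa using this
  · refine ⟨0, mem_interior.2 ⟨Metric.ball 0 1, fun x hx i => ?_, Metric.isOpen_ball, by simp⟩⟩
    have h := (PiLp.norm_apply_le x i).trans (mem_ball_zero_iff.1 hx).le
    rw [Real.norm_eq_abs, abs_le] at h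
    exact h
  · rw [e]
    have hmp := PiLp.volume_preserving_ofLp (Fin d)
    rw [hmp.measure_preimage measurableSet_Icc.nullMeasurableSet, Real.volume_Icc_pi]
    norm_num

/-- The three atoms. -/
noncomputable def site (n : ℕ) (c : ℝ) : Fin 3 → EuclideanSpace ℝ (Fin (n + 2)) :=
  ![EuclideanSpace.single 0 (1 / 2), EuclideanSpace.single 0 (-1 / 2), EuclideanSpace.single 1 c]

/-- The three offsets. -/
noncomputable def off (w : ℝ) : Fin 3 → ℝ := ![0, 0, -(w / 2)]

theorem score_site (c w : ℝ) (x : EuclideanSpace ℝ (Fin (n + 2))) :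
    score (site n c) (off w) 0 x = x 0 / 2 ∧ score (site n c) (off w) 1 x = -(x 0) / 2 ∧
      score (site n c) (off w) 2 x = c * x 1 + w / 2 := by
  simp only [score, site, off, Matrix.cons_val_zero, Matrix.cons_val_one, Matrix.cons_val,
    EuclideanSpace.inner_single_right, conj_trivial]
  refine ⟨by ring, by ring, by ring⟩

theorem mem_cell_site (c w : ℝ) (x : EuclideanSpace ℝ (Fin (n + 2))) :
    (x ∈ cell (site n c) (off w) 0 ↔ 0 < x 0 ∧ w + 2 * c * x 1 < x 0) ∧
      (x ∈ cell (site n c) (off w) 2 ↔ x 0 < w + 2 * c * x 1 ∧ -(w + 2 * c * x 1) < x 0) := by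
  obtain ⟨h0, h1, h2⟩ := score_site c w x
  constructor
  · simp only [cell, Set.mem_setOf_eq]
    refine ⟨fun h => ?_, fun h l hl => ?_⟩
    · have e1 := h 1 (by decide)
      have e2 := h 2 (by decide)
      rw [h0, h1] at e1
      rw [h0, h2] at e2
      constructor <;> linarith
    · fin_cases l
      · exact absurd rfl hl
      · show score (site n c) (off w) 1 x < _
        rw [h0, h1]; linarith
      · show score (site n c) (off w) 2 x < _
        rw [h0, h2]; linarith
  · simp only [cell, Set.mem_setOf_eq]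
    refine ⟨fun h => ?_, fun h l hl => ?_⟩
    · have e1 := h 0 (by decide)
      have e2 := h 1 (by decide)
      rw [h0, h2] at e1
      rw [h1, h2] at e2
      constructor <;> linarith
    · fin_cases l
      · show score (site n c) (off w) 0 x < _
        rw [h0, h2]; linarith
      · show score (site n c) (off w) 1 x < _
        rw [h1, h2]; linarith
      · exact absurd rfl hl

theorem site_injective (c : ℝ) : Function.Injective (site n c) := by
  intro i j h
  have h0 := congrArg (fun v : EuclideanSpace ℝ (Fin (n + 2)) => v 0) h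
  fin_cases i <;> fin_cases j <;>
    simp [site, PiLp.single_apply, (Fin.zero_ne_one : (0 : Fin (n + 2)) ≠ 1)] at h0 ⊢ <;>
    linarith

theorem SD_site {c w : ℝ} (hw0 : 0 < w) (hw1 : w ≤ 1 / 2) (hc : |c| ≤ w / 4) :
    SD (unif (cube (n + 2))) (site n c) ![(1 - w) / 2, (1 - w) / 2, w] (off w) := by
  obtain ⟨hK, -, hne, hvol⟩ := cube_props (n + 2)
  have := isProbabilityMeasure_unif hK hne
  have hcb : ∀ t : ℝ, t ∈ Set.Icc (-1 : ℝ) 1 → |2 * c * t| ≤ w / 2 := by
    intro t ht
    rw [abs_mul, abs_mul, abs_two]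
    have : |t| ≤ 1 := abs_le.2 ht
    nlinarith [abs_nonneg c, abs_nonneg t]
  have hcoord : ∀ (k : Fin 3) (g : (Fin (n + 1) → ℝ) → ℝ) (L : ℝ), Measurable g → 0 ≤ L →
      (∀ v ∈ Icc (fun _ => (-1 : ℝ)) (fun _ => 1), 0 ≤ g v) →
      (∀ v, g v + g (-v) = 2 * L) →
      (∀ v ∈ Icc (fun _ => (-1 : ℝ)) (fun _ => (1 : ℝ)),
        volume {s : ℝ | WithLp.toLp 2 (Fin.cons s v : Fin (n + 2) → ℝ)
          ∈ cell (site n c) (off w) k ∧ s ∈ Set.Icc (-1 : ℝ) 1} = ENNReal.ofReal (g v)) →
      (unif (cube (n + 2))).real (cell (site n c) (off w) k) = L * 2 ^ (n + 1) / 2 ^ (n + 2) := by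
    intro k g L hgm hL hg0 hsym hfib
    have hm := (measurableSet_cell (site n c) (off w) k).inter hK.measurableSet
    have hv : volume (cell (site n c) (off w) k ∩ cube (n + 2)) = ENNReal.ofReal (L * 2 ^ (n + 1)) := by
      rw [← (PiLp.volume_preserving_toLp (Fin (n + 2))).measure_preimage hm.nullMeasurableSet]
      refine volume_fibred (hm.preimage (PiLp.volume_preserving_toLp (Fin (n + 2))).measurable)
        hgm hg0 hsym fun v => ?_
      by_cases hv : v ∈ Icc (fun _ => (-1 : ℝ)) (fun _ => (1 : ℝ))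
      · rw [indicator_of_mem hv, ← hfib v hv]
        refine congrArg volume (Set.ext fun s => ?_)
        simp only [Set.mem_setOf_eq, Set.mem_preimage, Set.mem_inter_iff, cube]
        refine and_congr_right fun _ => ⟨fun h => by simpa using h 0, fun h i => ?_⟩
        refine Fin.cases ?_ (fun j => ?_) i
        · simpa using h
        · simpa using And.intro (hv.1 j) (hv.2 j)
      · rw [indicator_of_notMem hv]
        convert measure_empty (μ := (volume : Measure ℝ))
        refine Set.eq_empty_iff_forall_notMem.2 fun s hs => hv ?_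
        have h := (hs : _ ∧ _).2
        exact ⟨fun j => by simpa using (h j.succ).1, fun j => by simpa using (h j.succ).2⟩
    have hset : (unif (cube (n + 2))) (cell (site n c) (off w) k)
        = (volume (cube (n + 2)))⁻¹ * volume (cell (site n c) (off w) k ∩ cube (n + 2)) := by
      rw [unif, Measure.smul_apply, Measure.restrict_apply (measurableSet_cell _ _ _), smul_eq_mul]
    rw [measureReal_def, hset, hv, hvol, ENNReal.toReal_mul, ENNReal.toReal_inv,
      ENNReal.toReal_ofReal (by positivity), ENNReal.toReal_ofReal (by positivity)]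
    ring
  have hv0 : Measurable fun v : Fin (n + 1) → ℝ => v 0 := measurable_pi_apply 0
  have hmem : ∀ (k : Fin 3) (s : ℝ) (v : Fin (n + 1) → ℝ),
      (WithLp.toLp 2 (Fin.cons s v : Fin (n + 2) → ℝ)) 0 = s ∧
      (WithLp.toLp 2 (Fin.cons s v : Fin (n + 2) → ℝ)) 1 = v 0 := fun _ s v => by
    refine ⟨rfl, ?_⟩
    show (Fin.cons s v : Fin (n + 2) → ℝ) 1 = v 0
    rw [show (1 : Fin (n + 2)) = (0 : Fin (n + 1)).succ from rfl, Fin.cons_succ]
  have m0 : (unif (cube (n + 2))).real (cell (site n c) (off w) 0) = (1 - w) / 2 := by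
    rw [hcoord 0 (fun v => 1 - w - 2 * c * v 0) (1 - w)
      ((measurable_const).sub (hv0.const_mul (2 * c))) (by linarith)
      (fun v hv => by linarith [abs_le.1 (hcb _ ⟨hv.1 0, hv.2 0⟩)])
      (fun v => by simp; ring) (fun v hv => ?_)]
    · field_simp
      ring
    · have hb := abs_le.1 (hcb _ ⟨hv.1 0, hv.2 0⟩)
      rw [show 1 - w - 2 * c * v 0 = 1 - (w + 2 * c * v 0) by ring, ← Real.volume_Ioc]
      refine congrArg volume (Set.ext fun s => ?_)
      simp only [Set.mem_setOf_eq, (mem_cell_site c w _).1, (hmem 0 s v).1, (hmem 0 s v).2, Fin.cons_zero,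
        Set.mem_Icc, Set.mem_Ioc]
      refine ⟨fun h => ⟨h.1.2, h.2.2⟩, fun h => ⟨⟨?_, h.1⟩, ?_, h.2⟩⟩ <;> linarith [h.1]
  have m2 : (unif (cube (n + 2))).real (cell (site n c) (off w) 2) = w := by
    rw [hcoord 2 (fun v => 2 * (w + 2 * c * v 0)) (2 * w)
      ((measurable_const.add (hv0.const_mul (2 * c))).const_mul 2)
      (by linarith) (fun v hv => by linarith [abs_le.1 (hcb _ ⟨hv.1 0, hv.2 0⟩)])
      (fun v => by simp; ring) (fun v hv => ?_)]
    · field_simp
      ring
    · have hb := abs_le.1 (hcb _ ⟨hv.1 0, hv.2 0⟩)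
      rw [show 2 * (w + 2 * c * v 0) = (w + 2 * c * v 0) - -(w + 2 * c * v 0) by ring,
        ← Real.volume_Ioo]
      refine congrArg volume (Set.ext fun s => ?_)
      simp only [Set.mem_setOf_eq, (mem_cell_site c w _).2, (hmem 0 s v).1, (hmem 0 s v).2,
        Set.mem_Icc, Set.mem_Ioo]
      refine ⟨fun h => ⟨h.1.2, h.1.1⟩, fun h => ⟨⟨h.2, h.1⟩, ?_, ?_⟩⟩ <;>
        linarith [h.1, h.2]
  have m1 : (unif (cube (n + 2))).real (cell (site n c) (off w) 1) = (1 - w) / 2 := by
    have h := sum_real_cell (unif_absolutelyContinuous (cube (n + 2))) (site_injective (n := n) c)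
      (off w)
    rw [Fin.sum_univ_three, probReal_univ] at h
    linarith
  intro k
  fin_cases k
  exacts [m0, m1, m2]

/-- Exponents above one third are not admissible. -/
theorem not_admissible {d : ℕ} (hd : 2 ≤ d) {α : ℝ} (hα : 1 / 3 < α) : ¬ Admissible d α := by
  obtain ⟨n, rfl⟩ : ∃ n, d = n + 2 := ⟨d - 2, by omega⟩
  intro hadm
  obtain ⟨hK, hc, hne, hvol⟩ := cube_props (n + 2)
  obtain ⟨C, hC⟩ := hadm (cube (n + 2)) hK hc hne (Metric.closedBall 0 1)
    (isCompact_closedBall _ _) ⟨0, by simp⟩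
  have := isProbabilityMeasure_unif hK hne
  obtain ⟨e, he⟩ : ∃ e, e = 3 * α / 2 - 1 / 2 := ⟨_, rfl⟩
  have he0 : 0 < e := by linarith
  obtain ⟨q, hq⟩ : ∃ q, q = Real.sqrt 128 * (|C| + 1) := ⟨_, rfl⟩
  have hq0 : 0 < q := by rw [hq]; positivity
  obtain ⟨w, hw⟩ : ∃ w, w = min (1 / 2) ((1 / q) ^ (1 / e)) := ⟨_, rfl⟩
  have hw0 : 0 < w := hw ▸ lt_min (by norm_num) (Real.rpow_pos_of_pos (by positivity) _)
  have hw1 : w ≤ 1 / 2 := hw ▸ min_le_left _ _
  obtain ⟨δ, hδ⟩ : ∃ δ, δ = w / 4 := ⟨_, rfl⟩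
  have hδ0 : 0 < δ := by linarith
  let m : Fin 3 → ℝ := ![(1 - w) / 2, (1 - w) / 2, w]
  have hm : ∀ k, 0 ≤ m k := fun k => by fin_cases k <;> simp [m] <;> linarith
  have hm1 : ∑ k, m k = 1 := by simp [m, Fin.sum_univ_three]
  have s0 : SD (unif (cube (n + 2))) (site n 0) m (off w) :=
    SD_site hw0 hw1 (by simp; linarith)
  have s1 : SD (unif (cube (n + 2))) (site n δ) m (off w) :=
    SD_site hw0 hw1 (by rw [abs_of_pos hδ0, hδ])
  have hY : ∀ c : ℝ, |c| ≤ 1 → discr (site n c) m (Metric.closedBall 0 1)ᶜ = 0 := by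
    intro c hc1
    rw [discr_apply _ m Metric.isClosed_closedBall.measurableSet.compl]
    refine Finset.sum_eq_zero fun k _ => ?_
    rw [indicator_of_notMem, mul_zero]
    simp only [Set.mem_compl_iff, mem_closedBall_zero_iff, not_not]
    fin_cases k <;> norm_num [site, hc1]
  have h := hC (discr (site n 0) m) (discr (site n δ) m) (isProbabilityMeasure_discr _ hm hm1)
    (isProbabilityMeasure_discr _ hm hm1) (hY 0 (by simp))
    (hY δ (by rw [abs_of_pos hδ0]; linarith)) _ _
    (isOptimalMap_cellMap hK hne (site_injective 0) s0)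
    (isOptimalMap_cellMap hK hne (site_injective δ) s1)
  -- lower bound for the maps
  let A : Set (EuclideanSpace ℝ (Fin (n + 2))) :=
    {x | ∀ i, x i ∈ (if i = 0 then Set.Ioo w (w + δ) else if i = 1 then Set.Icc (1 / 2) 1
      else Set.Icc (-1 : ℝ) 1)}
  let I : Fin (n + 2) → Set ℝ := fun i => if i = 0 then Set.Ioo w (w + δ)
    else if i = 1 then Set.Icc (1 / 2) 1 else Set.Icc (-1 : ℝ) 1
  have hIm : ∀ i, MeasurableSet (I i) := fun i => by
    simp only [I]; split_ifs <;> measurability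
  have hAeq : A = (WithLp.ofLp : EuclideanSpace ℝ (Fin (n + 2)) → Fin (n + 2) → ℝ) ⁻¹'
      Set.pi Set.univ I := by
    ext x; simp [A, I]
  have hAv : volume A = ENNReal.ofReal (δ / 2 * 2 ^ n) := by
    rw [hAeq, (PiLp.volume_preserving_ofLp (Fin (n + 2))).measure_preimage
      (MeasurableSet.univ_pi hIm).nullMeasurableSet, volume_pi_pi, Fin.prod_univ_succ,
      Fin.prod_univ_succ]
    have h10 : (1 : Fin (n + 2)) ≠ 0 := by simp
    have h1 : (Fin.succ 0 : Fin (n + 2)) = 1 := rfl
    have h2 : ∀ j : Fin n, (j.succ.succ : Fin (n + 2)) ≠ 1 := fun j => by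
      simp [Fin.ext_iff]
    simp only [I, h1, h10, if_true, if_false, Fin.succ_ne_zero, h2, Real.volume_Ioo, Real.volume_Icc,
      Finset.prod_const, Finset.card_univ, Fintype.card_fin]
    rw [← ENNReal.ofReal_pow (by norm_num), ← ENNReal.ofReal_mul (by norm_num),
      ← ENNReal.ofReal_mul (by linarith)]
    congr 1
    norm_num
    ring
  have hAsub : A ⊆ cube (n + 2) := by
    intro x hx i
    have := hx i
    split_ifs at this with h1 h2
    · exact ⟨by linarith [this.1], by linarith [this.2]⟩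
    · exact ⟨by linarith [this.1], this.2⟩
    · exact this
  have hdiff : ∀ x ∈ A, (1 / 2 : ℝ) ^ 2
      ≤ ‖cellMap (site n 0) (off w) x - cellMap (site n δ) (off w) x‖ ^ 2 := by
    intro x hx
    have h0 : x 0 ∈ Set.Ioo w (w + δ) := by simpa using hx 0
    have h1 : x 1 ∈ Set.Icc (1 / 2) 1 := by simpa using hx 1
    have c0 : x ∈ cell (site n 0) (off w) 0 :=
      (mem_cell_site 0 w x).1.2 ⟨by linarith [h0.1], by linarith [h0.1]⟩
    have c1 : x ∈ cell (site n δ) (off w) 2 := by
      refine (mem_cell_site δ w x).2.2 ⟨?_, ?_⟩ <;> nlinarith [h0.1, h0.2, h1.1, h1.2]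
    rw [cellMap_of_mem c0, cellMap_of_mem c1]
    refine pow_le_pow_left₀ (by norm_num) (le_trans ?_ (PiLp.norm_apply_le _ 0)) 2
    simp [site, (Fin.zero_ne_one : (0 : Fin (n + 2)) ≠ 1)]
  have hlow : w / 128 ≤ ∫ x, ‖cellMap (site n 0) (off w) x - cellMap (site n δ) (off w) x‖ ^ 2
      ∂(unif (cube (n + 2))) := by
    have hAm : MeasurableSet A := by
      rw [hAeq]
      exact (PiLp.volume_preserving_ofLp (Fin (n + 2))).measurable (MeasurableSet.univ_pi hIm)
    have hint : Integrable (fun x => ‖cellMap (site n 0) (off w) x - cellMap (site n δ) (off w) x‖ ^ 2)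
        (unif (cube (n + 2))) := by
      refine integrable_of_bound (B := ((∑ k, ‖site n 0 k‖) + ∑ k, ‖site n δ k‖) ^ 2)
        (((measurable_cellMap _ _).sub (measurable_cellMap _ _)).norm.pow_const 2)
        (ae_of_all _ fun x => ?_)
      rw [abs_of_nonneg (sq_nonneg _)]
      refine pow_le_pow_left₀ (norm_nonneg _) ((norm_sub_le _ _).trans (add_le_add ?_ ?_)) 2 <;>
      · refine (norm_sum_le _ _).trans (Finset.sum_le_sum fun k _ => ?_)
        exact norm_indicator_le_norm_self _ _
    refine le_trans ?_ (integral_mono ((integrable_const _).indicator hAm) hint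
      (f := A.indicator fun _ => (1 / 2 : ℝ) ^ 2) fun x => ?_)
    · rw [integral_indicator_const _ hAm, measureReal_def, unif, Measure.smul_apply,
        Measure.restrict_apply hAm, Set.inter_eq_left.2 hAsub, hAv, hvol, smul_eq_mul, smul_eq_mul,
        ENNReal.toReal_mul, ENNReal.toReal_inv, ENNReal.toReal_ofReal (by positivity),
        ENNReal.toReal_ofReal (by positivity), hδ]
      rw [pow_add]
      field_simp
      norm_num
    · by_cases hx : x ∈ A
      · rw [indicator_of_mem hx]; exact hdiff x hx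
      · rw [indicator_of_notMem hx]; positivity
  -- upper bound for the distance
  have hW : W2 (discr (site n 0) m) (discr (site n δ) m) ≤ Real.sqrt w * δ := by
    obtain ⟨π, hπ⟩ : ∃ π : Measure (EuclideanSpace ℝ (Fin (n + 2)) × EuclideanSpace ℝ (Fin (n + 2))),
        π = ∑ k, ENNReal.ofReal (m k) • Measure.dirac (site n 0 k, site n δ k) := ⟨_, rfl⟩
    have f1 : π.map Prod.fst = discr (site n 0) m := by
      rw [hπ, discr]
      ext A hA
      rw [Measure.map_apply measurable_fst hA, Measure.finsetSum_apply, Measure.finsetSum_apply]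
      exact Finset.sum_congr rfl fun k _ => by
        rw [Measure.smul_apply, Measure.smul_apply, Measure.dirac_apply' _ (measurable_fst hA),
          Measure.dirac_apply' _ hA]
        rfl
    have f2 : π.map Prod.snd = discr (site n δ) m := by
      rw [hπ, discr]
      ext A hA
      rw [Measure.map_apply measurable_snd hA, Measure.finsetSum_apply, Measure.finsetSum_apply]
      exact Finset.sum_congr rfl fun k _ => by
        rw [Measure.smul_apply, Measure.smul_apply, Measure.dirac_apply' _ (measurable_snd hA),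
          Measure.dirac_apply' _ hA]
        rfl
    have hle : (⨅ (π : Measure (EuclideanSpace ℝ (Fin (n + 2)) × EuclideanSpace ℝ (Fin (n + 2))))
        (_ : π.map Prod.fst = discr (site n 0) m) (_ : π.map Prod.snd = discr (site n δ) m),
          ∫⁻ p, ENNReal.ofReal (‖p.1 - p.2‖ ^ 2) ∂π) ≤ ENNReal.ofReal (w * δ ^ 2) := by
      refine iInf_le_of_le π (iInf_le_of_le f1 (iInf_le_of_le f2 (le_of_eq ?_)))
      rw [hπ, lintegral_finsetSum_measure, Fin.sum_univ_three]
      simp only [lintegral_smul_measure, lintegral_dirac, smul_eq_mul]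
      simp [m, site, hw0.le, ENNReal.ofReal_mul]
      rw [← ofReal_norm, ← ENNReal.ofReal_pow (norm_nonneg _),
        show EuclideanSpace.single (1 : Fin (n + 2)) (0 : ℝ) = 0 by ext j; simp,
        zero_sub, norm_neg, PiLp.norm_single, Real.norm_of_nonneg hδ0.le]
    unfold W2
    refine (Real.sqrt_le_sqrt (ENNReal.toReal_le_of_le_ofReal (by positivity) hle)).trans_eq ?_
    rw [Real.sqrt_mul hw0.le, Real.sqrt_sq hδ0.le]
  -- conclusion
  have hWn : 0 ≤ W2 (discr (site n 0) m) (discr (site n δ) m) := Real.sqrt_nonneg _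
  have h1 : Real.sqrt (w / 128) ≤ |C| * (Real.sqrt w * δ) ^ α :=
    ((Real.sqrt_le_sqrt hlow).trans h).trans (mul_le_mul (le_abs_self C)
      (Real.rpow_le_rpow hWn hW (by linarith)) (Real.rpow_nonneg hWn _) (abs_nonneg _))
  have h2 : (Real.sqrt w * δ) ^ α ≤ w ^ e * Real.sqrt w := by
    rw [Real.sqrt_eq_rpow, ← Real.rpow_add hw0,
      show e + 1 / 2 = (1 / 2 + 1) * α by rw [he]; ring, Real.rpow_mul hw0.le, Real.rpow_add hw0,
      Real.rpow_one]
    refine Real.rpow_le_rpow (by positivity) ?_ (by linarith)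
    exact mul_le_mul_of_nonneg_left (by linarith) (Real.rpow_nonneg hw0.le _)
  have h3 : w ^ e ≤ 1 / q := by
    refine (Real.rpow_le_rpow hw0.le (hw ▸ min_le_right _ _) he0.le).trans_eq ?_
    rw [← Real.rpow_mul (by positivity), one_div_mul_cancel he0.ne', Real.rpow_one]
  rw [Real.sqrt_div hw0.le, div_le_iff₀ (Real.sqrt_pos.2 (by norm_num))] at h1
  have hs : 0 < Real.sqrt w := Real.sqrt_pos.2 hw0
  have h4 : Real.sqrt w ≤ |C| * (1 / q * Real.sqrt w) * Real.sqrt 128 := by
    refine h1.trans ?_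
    gcongr
    exact h2.trans (mul_le_mul_of_nonneg_right h3 hs.le)
  rw [hq] at h4
  have h5 : |C| * (1 / (Real.sqrt 128 * (|C| + 1)) * Real.sqrt w) * Real.sqrt 128
      = |C| / (|C| + 1) * Real.sqrt w := by
    field_simp
  rw [h5] at h4
  have : |C| / (|C| + 1) < 1 := by
    rw [div_lt_one (by positivity)]
    linarith
  nlinarith

end Vale.Agent.P074
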