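import Vale.Agent.P074.Exists

namespace Vale.Agent.P074

open MeasureTheory Filter Topology Set Finset

variable {d : ℕ} {κ : Type} [Fintype κ] [Nonempty κ]
  {σ : Measure (EuclideanSpace ℝ (Fin d))} [IsProbabilityMeasure σ] {R : ℝ}

/-- The optimal value of the dual problem. -/
noncomputable def val (σ : Measure (EuclideanSpace ℝ (Fin d)))
    (y : κ → EuclideanSpace ℝ (Fin d)) (m : κ → ℝ) : ℝ :=
  ⨅ a, obj σ y m a

theorem bddBelow_obj (hR : ∀ᵐ x ∂σ, ‖x‖ ≤ R) {y : κ → EuclideanSpace ℝ (Fin d)} {m : κ → ℝ}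
    (hm : ∀ k, 0 < m k) (hm1 : ∑ k, m k = 1) : BddBelow (range (obj σ y m)) := by
  obtain ⟨a, -, ha⟩ := exists_min_obj (y := y) hR hm hm1
  exact ⟨obj σ y m a, by rintro _ ⟨b, rfl⟩; exact ha b⟩

theorem val_le (hR : ∀ᵐ x ∂σ, ‖x‖ ≤ R) {y : κ → EuclideanSpace ℝ (Fin d)} {m : κ → ℝ}
    (hm : ∀ k, 0 < m k) (hm1 : ∑ k, m k = 1) (a : κ → ℝ) : val σ y m ≤ obj σ y m a :=
  ciInf_le (bddBelow_obj hR hm hm1) a

omit [Nonempty κ] [IsProbabilityMeasure σ] in
theorem le_val {y : κ → EuclideanSpace ℝ (Fin d)} {m : κ → ℝ} {c : ℝ}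
    (h : ∀ a, c ≤ obj σ y m a) : c ≤ val σ y m :=
  le_ciInf h

theorem val_eq_of_SD (hσ : σ ≪ volume) (hR : ∀ᵐ x ∂σ, ‖x‖ ≤ R)
    {y : κ → EuclideanSpace ℝ (Fin d)} (hy : Function.Injective y) {m : κ → ℝ}
    (hm : ∀ k, 0 < m k) (hm1 : ∑ k, m k = 1) {a : κ → ℝ} (h : SD σ y m a) :
    val σ y m = obj σ y m a :=
  le_antisymm (val_le hR hm hm1 a) (le_val (obj_min_of_SD hσ hR hy h))

/-- Duplicated sites do not change the value. -/
theorem val_merge {ι : Type} [Fintype ι] [Nonempty ι] [DecidableEq ι]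
    (hR : ∀ᵐ x ∂σ, ‖x‖ ≤ R) (f : κ → ι) (y : ι → EuclideanSpace ℝ (Fin d)) {w : κ → ℝ}
    {m : ι → ℝ} (hw : ∀ p, 0 < w p) (hm : ∀ k, 0 < m k) (hm1 : ∑ k, m k = 1)
    (hfib : ∀ k, ∑ p with f p = k, w p = m k) : val σ (y ∘ f) w = val σ y m := by
  have hw1 : ∑ p, w p = 1 := by
    rw [← sum_fiberwise univ f w, sum_congr rfl (fun k _ => hfib k), hm1]
  have hsum : ∀ c : ι → ℝ, ∑ p, w p * c (f p) = ∑ k, m k * c k := by
    intro c
    rw [← sum_fiberwise univ f (fun p => w p * c (f p))]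
    refine sum_congr rfl fun k _ => ?_
    rw [← hfib k, sum_mul]
    exact sum_congr rfl fun p hp => by rw [(mem_filter.1 hp).2]
  have hne : ∀ k, ∃ p, f p = k := by
    intro k
    by_contra hc
    push Not at hc
    have := hfib k
    rw [filter_eq_empty_iff.2 (fun p _ => hc p), sum_empty] at this
    exact (hm k).ne this
  refine le_antisymm (le_val fun a => ?_) (le_val fun α => ?_)
  · refine (val_le hR hw hw1 (a ∘ f)).trans (le_of_eq ?_)
    have hpot : ∀ x, pot (y ∘ f) (a ∘ f) x = pot y a x := fun x => by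
      refine le_antisymm (pot_le fun p => score_le_pot y a (f p) x) (pot_le fun k => ?_)
      obtain ⟨p, rfl⟩ := hne k
      exact score_le_pot (y ∘ f) (a ∘ f) p x
    simp only [obj, hpot, Function.comp_apply, hsum a]
  · refine (val_le hR hm hm1 (fun k => (∑ p with f p = k, w p * α p) / m k)).trans ?_
    simp only [obj]
    have e : ∑ k, m k * ((∑ p with f p = k, w p * α p) / m k) = ∑ p, w p * α p := by
      rw [← sum_fiberwise univ f (fun p => w p * α p)]
      exact sum_congr rfl fun k _ => by rw [mul_div_cancel₀ _ (hm k).ne']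
    rw [e]
    refine add_le_add_left (integral_mono (integrable_bounded_support hR (continuous_pot _ _))
      (integrable_bounded_support hR (continuous_pot _ _)) fun x => pot_le fun k => ?_) _
    obtain ⟨p, hp, hle⟩ : ∃ p ∈ univ.filter (fun p => f p = k),
        α p ≤ (∑ p with f p = k, w p * α p) / m k := by
      obtain ⟨p0, hp0⟩ := hne k
      refine exists_le_of_sum_le ⟨p0, by simp [hp0]⟩ ?_ |>.imp fun p hp =>
        ⟨hp.1, le_of_mul_le_mul_left hp.2 (hw p)⟩
      rw [← sum_mul, hfib k, mul_div_cancel₀ _ (hm k).ne']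
    refine le_trans ?_ (score_le_pot (y ∘ f) α p x)
    simp only [score, Function.comp_apply, (mem_filter.1 hp).2]
    linarith

end Vale.Agent.P074
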