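import Vale.Agent.P074.Merge

namespace Vale.Agent.P074

open MeasureTheory Filter Topology Set Finset

/-- Two functions with ordered sub-slopes that are close have differences of bounded increase. -/
theorem gap_of_slopes {J₁ J₂ A₁ A₂ : ℝ → ℝ} {good : Set ℝ} (hbad : goodᶜ.Finite)
    (hc₁ : Continuous J₁) (hc₂ : Continuous J₂)
    (h₁ : ∀ t ∈ good, ∀ s, J₁ t + (s - t) * A₁ t ≤ J₁ s)
    (h₂ : ∀ t ∈ good, ∀ s, J₂ t + (s - t) * A₂ t ≤ J₂ s)
    {B V : ℝ} (hV : ∀ t ∈ good, |A₂ t| ≤ V)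
    (hB : ∀ t ∈ good, 0 < t → t < 1 → A₁ t - A₂ t ≤ B) :
    (J₁ 1 - J₂ 1) - (J₁ 0 - J₂ 0) ≤ B := by
  have hpick : ∀ n i : ℕ, ∃ t, t ∈ good ∧ (i : ℝ) / ((n : ℝ) + 2) < t ∧
      t < ((i : ℝ) + 1) / ((n : ℝ) + 2) := by
    intro n i
    obtain ⟨t, ht, hg⟩ := ((Set.Ioo_infinite
      (show (i : ℝ) / ((n : ℝ) + 2) < ((i : ℝ) + 1) / ((n : ℝ) + 2) by
        gcongr; linarith)).diff hbad).nonempty
    exact ⟨t, by simpa using hg, ht.1, ht.2⟩
  choose τ hτg hτlo hτhi using hpick
  have hmain : ∀ n : ℕ, (J₁ (τ n (n + 1)) - J₂ (τ n (n + 1))) - (J₁ (τ n 0) - J₂ (τ n 0))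
      ≤ (τ n (n + 1) - τ n 0) * B + 4 * V / ((n : ℝ) + 2) := by
    intro n
    have hn : (0 : ℝ) < (n : ℝ) + 2 := by positivity
    have hmon : ∀ i, τ n i < τ n (i + 1) := fun i => by
      refine (hτhi n i).trans ?_
      have := hτlo n (i + 1)
      push_cast at this
      exact this
    have hstep : ∀ i ∈ Finset.range (n + 1),
        ((J₁ (τ n (i + 1)) - J₂ (τ n (i + 1))) - (J₁ (τ n i) - J₂ (τ n i)))
          ≤ (τ n (i + 1) - τ n i) * B + 2 / ((n : ℝ) + 2) * (A₂ (τ n (i + 1)) - A₂ (τ n i)) := by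
      intro i hi
      rw [Finset.mem_range] at hi
      have a1 := h₁ _ (hτg n (i + 1)) (τ n i)
      have a2 := h₂ _ (hτg n i) (τ n (i + 1))
      have a3 := h₂ _ (hτg n (i + 1)) (τ n i)
      have hd : τ n (i + 1) - τ n i ≤ 2 / ((n : ℝ) + 2) := by
        have h5 := hτhi n (i + 1)
        have h6 := hτlo n i
        push_cast at h5
        have : ((i : ℝ) + 1 + 1) / ((n : ℝ) + 2) - (i : ℝ) / ((n : ℝ) + 2) = 2 / ((n : ℝ) + 2) := by
          ring
        linarith
      have hA2 : A₂ (τ n i) ≤ A₂ (τ n (i + 1)) := by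
        have h5 : 0 ≤ (τ n (i + 1) - τ n i) * (A₂ (τ n (i + 1)) - A₂ (τ n i)) := by nlinarith
        by_contra hcon
        nlinarith [mul_pos (sub_pos.2 (hmon i)) (sub_pos.2 (not_le.1 hcon))]
      have h01 : 0 < τ n (i + 1) ∧ τ n (i + 1) < 1 := by
        refine ⟨lt_of_le_of_lt (by positivity) (hτlo n (i + 1)), (hτhi n (i + 1)).trans_le ?_⟩
        rw [div_le_one hn]
        push_cast
        have : (i : ℝ) + 1 ≤ (n : ℝ) + 1 := by exact_mod_cast hi
        linarith
      have hAB := hB _ (hτg n (i + 1)) h01.1 h01.2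
      nlinarith [mul_le_mul_of_nonneg_left hAB (sub_nonneg.2 (hmon i).le),
        mul_le_mul_of_nonneg_right hd (sub_nonneg.2 hA2)]
    have h := Finset.sum_le_sum hstep
    rw [Finset.sum_range_sub (fun i => J₁ (τ n i) - J₂ (τ n i)), Finset.sum_add_distrib,
      ← Finset.sum_mul, Finset.sum_range_sub (fun i => τ n i), ← Finset.mul_sum,
      Finset.sum_range_sub (fun i => A₂ (τ n i))] at h
    have hV2 : A₂ (τ n (n + 1)) - A₂ (τ n 0) ≤ 2 * V := by
      linarith [(abs_le.1 (hV _ (hτg n (n + 1)))).2, (abs_le.1 (hV _ (hτg n 0))).1]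
    refine h.trans (add_le_add le_rfl ?_)
    calc 2 / ((n : ℝ) + 2) * (A₂ (τ n (n + 1)) - A₂ (τ n 0))
        ≤ 2 / ((n : ℝ) + 2) * (2 * V) := mul_le_mul_of_nonneg_left hV2 (by positivity)
      _ = _ := by ring
  have hinv : Tendsto (fun n : ℕ => ((n : ℝ) + 2)⁻¹) atTop (𝓝 0) :=
    tendsto_inv_atTop_zero.comp (tendsto_atTop_add_const_right _ 2 tendsto_natCast_atTop_atTop)
  have hlast : Tendsto (fun n => τ n (n + 1)) atTop (𝓝 1) := by
    have h0 : Tendsto (fun n : ℕ => 1 - ((n : ℝ) + 2)⁻¹) atTop (𝓝 1) := by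
      simpa using tendsto_const_nhds.sub hinv
    refine tendsto_of_tendsto_of_tendsto_of_le_of_le h0 tendsto_const_nhds (fun n => ?_)
      (fun n => ?_)
    · refine le_of_eq_of_le ?_ (hτlo n (n + 1)).le
      push_cast
      field_simp
      ring
    · refine (hτhi n (n + 1)).le.trans_eq ?_
      push_cast
      field_simp
      ring
  have hfirst : Tendsto (fun n => τ n 0) atTop (𝓝 0) := by
    refine tendsto_of_tendsto_of_tendsto_of_le_of_le tendsto_const_nhds hinv (fun n => ?_)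
      (fun n => ?_)
    · simpa using (hτlo n 0).le
    · refine (hτhi n 0).le.trans_eq ?_
      simp
  have hl : Tendsto (fun n => (J₁ (τ n (n + 1)) - J₂ (τ n (n + 1))) - (J₁ (τ n 0) - J₂ (τ n 0)))
      atTop (𝓝 ((J₁ 1 - J₂ 1) - (J₁ 0 - J₂ 0))) :=
    (((hc₁.sub hc₂).tendsto 1).comp hlast).sub (((hc₁.sub hc₂).tendsto 0).comp hfirst)
  have hr : Tendsto (fun n => (τ n (n + 1) - τ n 0) * B + 4 * V / ((n : ℝ) + 2)) atTop
      (𝓝 ((1 - 0) * B + 4 * V * 0)) :=
    ((hlast.sub hfirst).mul_const B).add (hinv.const_mul (4 * V))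
  simpa using le_of_tendsto_of_tendsto' hl hr hmain

variable {d : ℕ} {κ : Type} [Fintype κ] [Nonempty κ]
  {σ : Measure (EuclideanSpace ℝ (Fin d))} [IsProbabilityMeasure σ] {R : ℝ}

theorem continuous_val_move (hR : ∀ᵐ x ∂σ, ‖x‖ ≤ R) {w : κ → ℝ} (hw : ∀ p, 0 < w p)
    (hw1 : ∑ p, w p = 1) (y v : κ → EuclideanSpace ℝ (Fin d)) :
    Continuous fun t : ℝ => val σ (fun p => y p + t • v p) w := by
  obtain ⟨V, hV⟩ : ∃ V, V = R * ∑ p, ‖v p‖ := ⟨_, rfl⟩
  refine (LipschitzWith.of_le_add_mul (Real.toNNReal V) fun s t => ?_).continuous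
  obtain ⟨a, -, ha⟩ := exists_min_obj (y := fun p => y p + t • v p) hR hw hw1
  have e : val σ (fun p => y p + t • v p) w = obj σ (fun p => y p + t • v p) w a :=
    le_antisymm (val_le hR hw hw1 a) (le_val ha)
  rw [e]
  refine (val_le hR hw hw1 a).trans ?_
  simp only [obj]
  have h : ∫ x, pot (fun p => y p + s • v p) a x ∂σ
      ≤ ∫ x, (pot (fun p => y p + t • v p) a x + Real.toNNReal V * dist s t) ∂σ := by
    refine integral_mono_ae (integrable_bounded_support hR (continuous_pot _ _))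
      ((integrable_bounded_support hR (continuous_pot _ _)).add (integrable_const _)) ?_
    filter_upwards [hR] with x hx
    have hb : |pot (fun p => y p + s • v p) a x - pot (fun p => y p + t • v p) a x|
        ≤ V * dist s t := by
      refine abs_pot_sub_le fun p => ?_
      simp only [score]
      rw [show inner ℝ x (y p + s • v p) - a p - (inner ℝ x (y p + t • v p) - a p)
        = (s - t) * inner ℝ x (v p) by
          simp only [inner_add_right, real_inner_smul_right]; ring, abs_mul, mul_comm,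
        Real.dist_eq, hV]
      exact mul_le_mul_of_nonneg_right ((abs_real_inner_le_norm x (v p)).trans (mul_le_mul hx
        (single_le_sum (f := fun q => ‖v q‖) (fun q _ => norm_nonneg _) (Finset.mem_univ p))
        (norm_nonneg _) ((norm_nonneg x).trans hx))) (abs_nonneg _)
    have := (abs_le.1 hb).2
    have : V * dist s t ≤ Real.toNNReal V * dist s t :=
      mul_le_mul_of_nonneg_right (Real.le_coe_toNNReal V) dist_nonneg
    linarith
  rw [integral_add (integrable_bounded_support hR (continuous_pot _ _)) (integrable_const _),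
    integral_const, probReal_univ, one_smul] at h
  linarith

/-- The slope of the value at a time with distinct sites. -/
noncomputable def slope (σ : Measure (EuclideanSpace ℝ (Fin d)))
    (y v : κ → EuclideanSpace ℝ (Fin d)) (a : κ → ℝ) (t : ℝ) : ℝ :=
  ∑ p, ∫ x in cell (fun p => y p + t • v p) a p, inner ℝ x (v p) ∂σ

theorem slope_le (hσ : σ ≪ volume) (hR : ∀ᵐ x ∂σ, ‖x‖ ≤ R) {w : κ → ℝ} (hw : ∀ p, 0 < w p)
    (hw1 : ∑ p, w p = 1) (y v : κ → EuclideanSpace ℝ (Fin d)) {t : ℝ}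
    (ht : Function.Injective fun p => y p + t • v p) {a : κ → ℝ}
    (ha : SD σ (fun p => y p + t • v p) w a) (s : ℝ) :
    val σ (fun p => y p + t • v p) w + (s - t) * slope σ y v a t
      ≤ val σ (fun p => y p + s • v p) w := by
  refine le_val fun b => le_of_eq_of_le ?_ (le_obj_of_SD hσ hR ht ha _ b)
  rw [val_eq_of_SD hσ hR ht hw hw1 ha, obj_eq_of_SD hσ hR ht ha, slope, mul_sum,
    ← sum_add_distrib]
  refine sum_congr rfl fun p _ => ?_
  have i1 : ∀ u : EuclideanSpace ℝ (Fin d), Integrable (fun x => inner ℝ x u) σ := fun u =>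
    integrable_bounded_support hR (continuous_id.inner continuous_const)
  rw [← integral_const_mul, ← integral_add (i1 _).integrableOn ((i1 _).const_mul _).integrableOn]
  refine integral_congr_ae (ae_of_all _ fun x => ?_)
  simp only [inner_add_right, real_inner_smul_right]
  ring

theorem abs_slope_le (hσ : σ ≪ volume) (hR : ∀ᵐ x ∂σ, ‖x‖ ≤ R)
    (y v : κ → EuclideanSpace ℝ (Fin d)) {t : ℝ}
    (ht : Function.Injective fun p => y p + t • v p) (a : κ → ℝ) :
    |slope σ y v a t| ≤ R * ∑ p, ‖v p‖ := by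
  refine (Finset.abs_sum_le_sum_abs _ _).trans ?_
  have i2 : Integrable (fun _ : EuclideanSpace ℝ (Fin d) => R * ∑ p, ‖v p‖) σ := integrable_const _
  refine le_of_le_of_eq (sum_le_sum fun p _ => ?_)
    ((sum_integral_cell hσ ht a i2).trans (by simp))
  refine abs_integral_le_integral_abs.trans (integral_mono_ae
    (integrable_bounded_support hR (continuous_id.inner continuous_const).abs).integrableOn
    i2.integrableOn ?_)
  filter_upwards [ae_restrict_of_ae hR] with x hx
  exact (abs_real_inner_le_norm x (v p)).trans (mul_le_mul hx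
    (single_le_sum (f := fun q => ‖v q‖) (fun q _ => norm_nonneg _) (Finset.mem_univ p))
    (norm_nonneg _) ((norm_nonneg x).trans hx))

end Vale.Agent.P074
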