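import Vale.Agent.P074.Admissible
import Vale.Agent.P074.Exists

namespace Vale.Agent.P074

open MeasureTheory Filter Topology Set Finset
open scoped ENNReal

variable {d : ℕ}

/-- The pairing of a map with the identity. -/
noncomputable def pairing (K : Set (EuclideanSpace ℝ (Fin d)))
    (S : EuclideanSpace ℝ (Fin d) → EuclideanSpace ℝ (Fin d)) : ℝ :=
  ∫ x, inner ℝ x (S x) ∂(unif K)

section Finite

variable {κ : Type} [Fintype κ]

/-- The map sending a cell to its atom. -/
noncomputable def cellMap (y : κ → EuclideanSpace ℝ (Fin d)) (a : κ → ℝ)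
    (x : EuclideanSpace ℝ (Fin d)) : EuclideanSpace ℝ (Fin d) :=
  ∑ k, (cell y a k).indicator (fun _ => y k) x

/-- A finitely supported measure. -/
noncomputable def discr (y : κ → EuclideanSpace ℝ (Fin d)) (m : κ → ℝ) :
    Measure (EuclideanSpace ℝ (Fin d)) :=
  ∑ k, ENNReal.ofReal (m k) • Measure.dirac (y k)

theorem cellMap_of_mem {y : κ → EuclideanSpace ℝ (Fin d)} {a : κ → ℝ} {k : κ}
    {x : EuclideanSpace ℝ (Fin d)} (hx : x ∈ cell y a k) : cellMap y a x = y k := by
  rw [cellMap, sum_eq_single k (fun l _ hl => ?_) (fun h => absurd (Finset.mem_univ k) h),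
    indicator_of_mem hx]
  rw [indicator_of_notMem fun h => Set.disjoint_left.1 (cell_disjoint y a hl) h hx]

theorem measurable_cellMap (y : κ → EuclideanSpace ℝ (Fin d)) (a : κ → ℝ) :
    Measurable (cellMap y a) :=
  Finset.measurable_fun_sum _ fun k _ => measurable_const.indicator (measurableSet_cell y a k)

theorem discr_apply (y : κ → EuclideanSpace ℝ (Fin d)) (m : κ → ℝ)
    {A : Set (EuclideanSpace ℝ (Fin d))} (hA : MeasurableSet A) :
    discr y m A = ∑ k, ENNReal.ofReal (m k) * A.indicator 1 (y k) := by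
  rw [discr, Measure.finsetSum_apply]
  exact sum_congr rfl fun k _ => by rw [Measure.smul_apply, Measure.dirac_apply' _ hA, smul_eq_mul]

theorem integrable_discr (y : κ → EuclideanSpace ℝ (Fin d)) (m : κ → ℝ)
    (f : EuclideanSpace ℝ (Fin d) → ℝ) : Integrable f (discr y m) := by
  rw [discr, integrable_finsetSum_measure]
  exact fun k _ => (integrable_dirac (by simp)).smul_measure ENNReal.ofReal_ne_top

theorem integral_discr (y : κ → EuclideanSpace ℝ (Fin d)) {m : κ → ℝ} (hm : ∀ k, 0 ≤ m k)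
    (f : EuclideanSpace ℝ (Fin d) → ℝ) : ∫ x, f x ∂(discr y m) = ∑ k, m k * f (y k) := by
  rw [discr, integral_finsetSum_measure fun k _ =>
    (integrable_dirac (by simp)).smul_measure ENNReal.ofReal_ne_top]
  refine sum_congr rfl fun k _ => ?_
  rw [integral_smul_measure, integral_dirac, ENNReal.toReal_ofReal (hm k), smul_eq_mul]

theorem isProbabilityMeasure_discr (y : κ → EuclideanSpace ℝ (Fin d)) {m : κ → ℝ}
    (hm : ∀ k, 0 ≤ m k) (hm1 : ∑ k, m k = 1) : IsProbabilityMeasure (discr y m) := by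
  refine ⟨?_⟩
  rw [discr_apply y m MeasurableSet.univ]
  simp [← ENNReal.ofReal_sum_of_nonneg (fun k _ => hm k), hm1]

variable [Nonempty κ] {σ : Measure (EuclideanSpace ℝ (Fin d))} [IsProbabilityMeasure σ]

theorem map_cellMap (hσ : σ ≪ volume) {y : κ → EuclideanSpace ℝ (Fin d)}
    (hy : Function.Injective y) {m : κ → ℝ} {a : κ → ℝ} (ha : SD σ y m a) :
    σ.map (cellMap y a) = discr y m := by
  refine Measure.ext fun A hA => ?_
  rw [Measure.map_apply (measurable_cellMap y a) hA, discr_apply y m hA]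
  have e : cellMap y a ⁻¹' A =ᵐ[σ] ⋃ k, (cell y a k ∩ {_x | y k ∈ A}) := by
    filter_upwards [ae_exists_cell hσ hy a] with x hx
    obtain ⟨k, hk⟩ := hx
    refine propext ⟨fun h => Set.mem_iUnion.2 ⟨k, hk, ?_⟩, fun h => ?_⟩
    · have h' : cellMap y a x ∈ A := h
      rwa [cellMap_of_mem hk] at h'
    · obtain ⟨l, hl, hlA⟩ := Set.mem_iUnion.1 h
      show cellMap y a x ∈ A
      rw [cellMap_of_mem hl]
      exact hlA
  rw [measure_congr e, measure_iUnion (fun i j hij => (cell_disjoint y a hij).mono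
    inter_subset_left inter_subset_left)
    (fun k => (measurableSet_cell y a k).inter (MeasurableSet.const _)), tsum_fintype]
  refine sum_congr rfl fun k _ => ?_
  by_cases h : y k ∈ A
  · rw [indicator_of_mem h, ← ha k, ofReal_measureReal]
    simp [h]
  · simp [h]

end Finite

variable {K : Set (EuclideanSpace ℝ (Fin d))}

theorem integrable_of_bound {σ : Measure (EuclideanSpace ℝ (Fin d))} [IsFiniteMeasure σ] {B : ℝ}
    {f : EuclideanSpace ℝ (Fin d) → ℝ} (hf : Measurable f) (hb : ∀ᵐ x ∂σ, |f x| ≤ B) :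
    Integrable f σ :=
  Integrable.of_bound hf.aestronglyMeasurable B hb

theorem integrable_inner_map (hK : IsCompact K) (hne : (interior K).Nonempty)
    {S : EuclideanSpace ℝ (Fin d) → EuclideanSpace ℝ (Fin d)} (hS : Measurable S) {L : ℝ}
    (hSL : ∀ᵐ x ∂(unif K), ‖S x‖ ≤ L) :
    Integrable (fun x => inner ℝ x (S x)) (unif K) := by
  have := isProbabilityMeasure_unif hK hne
  obtain ⟨R, hKR⟩ := hK.isBounded.subset_closedBall 0
  refine integrable_of_bound (B := R * L) (measurable_id.inner hS) ?_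
  filter_upwards [ae_mem_unif hK, hSL] with x hx hs
  have hn : ‖x‖ ≤ R := mem_closedBall_zero_iff.1 (hKR hx)
  exact (abs_real_inner_le_norm x (S x)).trans
    (mul_le_mul hn hs (norm_nonneg _) ((norm_nonneg x).trans hn))

/-- The cost of a map in terms of its pairing. -/
theorem cost_eq (hK : IsCompact K) (hne : (interior K).Nonempty)
    {S : EuclideanSpace ℝ (Fin d) → EuclideanSpace ℝ (Fin d)} (hS : Measurable S) {L : ℝ}
    (hSL : ∀ᵐ x ∂(unif K), ‖S x‖ ≤ L) :
    ∫⁻ x, ENNReal.ofReal (‖x - S x‖ ^ 2) ∂(unif K)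
      = ENNReal.ofReal ((∫ x, ‖x‖ ^ 2 ∂(unif K)) - 2 * pairing K S
          + ∫ z, ‖z‖ ^ 2 ∂((unif K).map S)) := by
  have := isProbabilityMeasure_unif hK hne
  obtain ⟨R, hKR⟩ := hK.isBounded.subset_closedBall 0
  have hn : ∀ᵐ x ∂(unif K), ‖x‖ ≤ R :=
    (ae_mem_unif hK).mono fun x hx => mem_closedBall_zero_iff.1 (hKR hx)
  have i1 : Integrable (fun x => ‖x‖ ^ 2) (unif K) :=
    integrable_bounded_support hn (continuous_norm.pow 2)
  have i2 : Integrable (fun x => 2 * inner ℝ x (S x)) (unif K) :=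
    (integrable_inner_map hK hne hS hSL).const_mul 2
  have i3 : Integrable (fun x => ‖S x‖ ^ 2) (unif K) := by
    refine integrable_of_bound (B := L ^ 2) (hS.norm.pow_const 2) ?_
    filter_upwards [hSL] with x hx
    rw [abs_of_nonneg (sq_nonneg _)]
    exact pow_le_pow_left₀ (norm_nonneg _) hx 2
  have e : ∀ x, ‖x - S x‖ ^ 2 = ‖x‖ ^ 2 - 2 * inner ℝ x (S x) + ‖S x‖ ^ 2 := fun x =>
    norm_sub_sq_real x (S x)
  have i : Integrable (fun x => ‖x‖ ^ 2 - 2 * inner ℝ x (S x) + ‖S x‖ ^ 2) (unif K) :=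
    (i1.sub i2).add i3
  simp only [e]
  rw [← ofReal_integral_eq_lintegral_ofReal i (ae_of_all _ fun x => by
    dsimp only
    rw [← e]
    positivity)]
  have i12 : Integrable (fun x => ‖x‖ ^ 2 - 2 * inner ℝ x (S x)) (unif K) := i1.sub i2
  rw [integral_add i12 i3, integral_sub i1 i2, integral_const_mul,
    integral_map (f := fun z => ‖z‖ ^ 2) hS.aemeasurable
      (continuous_norm.pow 2).aestronglyMeasurable, pairing]

theorem ae_bound_of_map {S : EuclideanSpace ℝ (Fin d) → EuclideanSpace ℝ (Fin d)}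
    (hS : Measurable S) {μ : Measure (EuclideanSpace ℝ (Fin d))} (hμ : (unif K).map S = μ) {L : ℝ}
    (hL : ∀ᵐ z ∂μ, ‖z‖ ≤ L) : ∀ᵐ x ∂(unif K), ‖S x‖ ≤ L :=
  ae_of_ae_map hS.aemeasurable (hμ ▸ hL)

/-- The largest pairing gives optimality. -/
theorem isOptimalMap_of_pairing (hK : IsCompact K) (hne : (interior K).Nonempty)
    {μ : Measure (EuclideanSpace ℝ (Fin d))} {L : ℝ} (hL : ∀ᵐ z ∂μ, ‖z‖ ≤ L)
    {T : EuclideanSpace ℝ (Fin d) → EuclideanSpace ℝ (Fin d)} (hT : Measurable T)
    (hTμ : (unif K).map T = μ)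
    (h : ∀ S, Measurable S → (unif K).map S = μ → pairing K S ≤ pairing K T) :
    IsOptimalMap K μ T := by
  refine ⟨hT, hTμ, fun S hS hSμ => ?_⟩
  rw [cost_eq hK hne hT (ae_bound_of_map hT hTμ hL), cost_eq hK hne hS (ae_bound_of_map hS hSμ hL),
    hTμ, hSμ]
  exact ENNReal.ofReal_le_ofReal (by linarith [h S hS hSμ])

theorem pairing_le_of_isOptimalMap (hK : IsCompact K) (hne : (interior K).Nonempty)
    {μ : Measure (EuclideanSpace ℝ (Fin d))} {L : ℝ} (hL : ∀ᵐ z ∂μ, ‖z‖ ≤ L)
    {T : EuclideanSpace ℝ (Fin d) → EuclideanSpace ℝ (Fin d)} (hT : IsOptimalMap K μ T)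
    {S : EuclideanSpace ℝ (Fin d) → EuclideanSpace ℝ (Fin d)} (hS : Measurable S)
    (hSμ : (unif K).map S = μ) : pairing K S ≤ pairing K T := by
  have := isProbabilityMeasure_unif hK hne
  have h := hT.2.2 S hS hSμ
  have hbT := ae_bound_of_map hT.1 hT.2.1 hL
  have hbS := ae_bound_of_map hS hSμ hL
  have hnn : 0 ≤ (∫ x, ‖x‖ ^ 2 ∂(unif K)) - 2 * pairing K S + ∫ z, ‖z‖ ^ 2 ∂μ := by
    obtain ⟨R, hKR⟩ := hK.isBounded.subset_closedBall 0
    have i : Integrable (fun x => ‖x - S x‖ ^ 2) (unif K) := by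
      refine integrable_of_bound (B := (R + L) ^ 2) ((measurable_id.sub hS).norm.pow_const 2) ?_
      filter_upwards [ae_mem_unif hK, hbS] with x hx hs
      rw [abs_of_nonneg (sq_nonneg _)]
      exact pow_le_pow_left₀ (norm_nonneg _) ((norm_sub_le _ _).trans
        (add_le_add (mem_closedBall_zero_iff.1 (hKR hx)) hs)) 2
    by_contra hneg
    have h0 := cost_eq hK hne hS hbS
    rw [hSμ, ENNReal.ofReal_of_nonpos (not_le.1 hneg).le, ← ofReal_integral_eq_lintegral_ofReal i
      (ae_of_all _ fun x => sq_nonneg _), ENNReal.ofReal_eq_zero] at h0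
    have i1 : Integrable (fun x => ‖x‖ ^ 2) (unif K) := integrable_bounded_support
      ((ae_mem_unif hK).mono fun x hx => mem_closedBall_zero_iff.1 (hKR hx))
      (continuous_norm.pow 2)
    have i2 : Integrable (fun x => 2 * inner ℝ x (S x)) (unif K) :=
      (integrable_inner_map hK hne hS hbS).const_mul 2
    have i3 : Integrable (fun x => ‖S x‖ ^ 2) (unif K) := by
      refine integrable_of_bound (B := L ^ 2) (hS.norm.pow_const 2) ?_
      filter_upwards [hbS] with x hx
      rw [abs_of_nonneg (sq_nonneg _)]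
      exact pow_le_pow_left₀ (norm_nonneg _) hx 2
    have i12 : Integrable (fun x => ‖x‖ ^ 2 - 2 * inner ℝ x (S x)) (unif K) := i1.sub i2
    have e0 : ∫ x, ‖x - S x‖ ^ 2 ∂(unif K)
        = (∫ x, ‖x‖ ^ 2 ∂(unif K)) - 2 * pairing K S + ∫ z, ‖z‖ ^ 2 ∂μ := by
      simp only [norm_sub_sq_real]
      rw [integral_add i12 i3, integral_sub i1 i2, integral_const_mul, ← hSμ,
        integral_map (f := fun z => ‖z‖ ^ 2) hS.aemeasurable
      (continuous_norm.pow 2).aestronglyMeasurable, pairing]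
    exact hneg (e0 ▸ integral_nonneg fun x => sq_nonneg _)
  rw [cost_eq hK hne hT.1 hbT, cost_eq hK hne hS hbS, hT.2.1, hSμ,
    ENNReal.ofReal_le_ofReal_iff hnn] at h
  linarith

variable {κ : Type} [Fintype κ] [Nonempty κ]

/-- No map to a finitely supported law beats the dual objective. -/
theorem pairing_le_obj (hK : IsCompact K) (hne : (interior K).Nonempty)
    {y : κ → EuclideanSpace ℝ (Fin d)} (hy : Function.Injective y) {m : κ → ℝ}
    (hm : ∀ k, 0 ≤ m k) {S : EuclideanSpace ℝ (Fin d) → EuclideanSpace ℝ (Fin d)}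
    (hS : Measurable S) (hSm : (unif K).map S = discr y m) (a : κ → ℝ) :
    pairing K S ≤ obj (unif K) y m a := by
  classical
  have := isProbabilityMeasure_unif hK hne
  obtain ⟨R, hKR⟩ := hK.isBounded.subset_closedBall 0
  have hn : ∀ᵐ x ∂(unif K), ‖x‖ ≤ R :=
    (ae_mem_unif hK).mono fun x hx => mem_closedBall_zero_iff.1 (hKR hx)
  have hrange : ∀ᵐ z ∂(discr y m), ∃ k, y k = z := by
    have hA : MeasurableSet (Set.range y)ᶜ := (Set.finite_range y).measurableSet.compl
    rw [ae_iff, show {z | ¬∃ k, y k = z} = (Set.range y)ᶜ from rfl, discr_apply y m hA]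
    simp
  have hval : ∀ᵐ x ∂(unif K), ∃ k, y k = S x :=
    ae_of_ae_map hS.aemeasurable (hSm ▸ hrange)
  have hbd : ∀ᵐ x ∂(unif K), ‖S x‖ ≤ ∑ k, ‖y k‖ := by
    filter_upwards [hval] with x hx
    obtain ⟨k, hk⟩ := hx
    exact hk ▸ single_le_sum (f := fun k => ‖y k‖) (fun _ _ => norm_nonneg _) (Finset.mem_univ k)
  let A : EuclideanSpace ℝ (Fin d) → ℝ := fun z => ∑ k, if z = y k then a k else 0
  have hA : ∀ k, A (y k) = a k := fun k => by simp [A, hy.eq_iff]
  have hAm : Measurable A := Finset.measurable_fun_sum _ fun k _ =>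
    Measurable.ite (measurableSet_singleton (y k)) measurable_const measurable_const
  have iA : Integrable (fun x => A (S x)) (unif K) := by
    have h0 : Integrable A ((unif K).map S) := hSm ▸ integrable_discr y m A
    exact h0.comp_measurable hS
  have ip := integrable_bounded_support hn (continuous_pot y a)
  have h1 : pairing K S ≤ ∫ x, (pot y a x + A (S x)) ∂(unif K) := by
    refine integral_mono_ae (integrable_inner_map hK hne hS hbd) (ip.add iA) ?_
    filter_upwards [hval] with x hx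
    obtain ⟨k, hk⟩ := hx
    have := score_le_pot y a k x
    simp only [score] at this
    simp only [← hk, hA]
    linarith
  refine h1.trans_eq ?_
  rw [integral_add ip iA, obj, ← integral_map hS.aemeasurable hAm.aestronglyMeasurable, hSm,
    integral_discr y hm]
  simp [hA]

theorem pairing_cellMap (hK : IsCompact K) (hne : (interior K).Nonempty)
    {y : κ → EuclideanSpace ℝ (Fin d)} (hy : Function.Injective y) {m a : κ → ℝ}
    (ha : SD (unif K) y m a) : pairing K (cellMap y a) = obj (unif K) y m a := by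
  have := isProbabilityMeasure_unif hK hne
  obtain ⟨R, hKR⟩ := hK.isBounded.subset_closedBall 0
  have hn : ∀ᵐ x ∂(unif K), ‖x‖ ≤ R :=
    (ae_mem_unif hK).mono fun x hx => mem_closedBall_zero_iff.1 (hKR hx)
  have hac := unif_absolutelyContinuous K
  have hbd : ∀ᵐ x ∂(unif K), ‖cellMap y a x‖ ≤ ∑ k, ‖y k‖ := by
    filter_upwards [ae_exists_cell hac hy a] with x hx
    obtain ⟨k, hk⟩ := hx
    rw [cellMap_of_mem hk]
    exact single_le_sum (f := fun k => ‖y k‖) (fun _ _ => norm_nonneg _) (Finset.mem_univ k)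
  rw [pairing, ← sum_integral_cell hac hy a (integrable_inner_map hK hne (measurable_cellMap y a) hbd),
    obj_eq_of_SD hac hn hy ha]
  refine sum_congr rfl fun k _ => setIntegral_congr_fun (measurableSet_cell y a k) fun x hx => ?_
  simp only [cellMap_of_mem hx]

/-- The cell map is optimal. -/
theorem isOptimalMap_cellMap (hK : IsCompact K) (hne : (interior K).Nonempty)
    {y : κ → EuclideanSpace ℝ (Fin d)} (hy : Function.Injective y) {m a : κ → ℝ}
    (ha : SD (unif K) y m a) : IsOptimalMap K (discr y m) (cellMap y a) := by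
  have := isProbabilityMeasure_unif hK hne
  have hm : ∀ k, 0 ≤ m k := fun k => ha k ▸ measureReal_nonneg
  have hmap := map_cellMap (unif_absolutelyContinuous K) hy ha
  refine isOptimalMap_of_pairing hK hne (L := ∑ k, ‖y k‖) ?_ (measurable_cellMap y a) hmap
    fun S hS hSm => (pairing_le_obj hK hne hy hm hS hSm a).trans_eq
      (pairing_cellMap hK hne hy ha).symm
  have hA : MeasurableSet {z : EuclideanSpace ℝ (Fin d) | ¬‖z‖ ≤ ∑ k, ‖y k‖} :=
    (measurableSet_le measurable_norm measurable_const).compl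
  rw [ae_iff, discr_apply y m hA]
  refine sum_eq_zero fun k _ => ?_
  rw [indicator_of_notMem, mul_zero]
  simpa using single_le_sum (f := fun k => ‖y k‖) (fun _ _ => norm_nonneg _) (Finset.mem_univ k)

end Vale.Agent.P074
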