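import Vale.Agent.P074.Interp

namespace Vale.Agent.P074

open MeasureTheory Filter Topology Set Finset
open scoped ENNReal

variable {d : ℕ}

/-- A measurable rounding with finitely many values. -/
theorem exists_rounding (L : ℝ) (hL : 0 ≤ L) {ε : ℝ} (hε : 0 < ε) :
    ∃ r : EuclideanSpace ℝ (Fin d) → EuclideanSpace ℝ (Fin d), Measurable r ∧
      (Set.range r).Finite ∧ (∀ y, ‖r y‖ ≤ L) ∧ ∀ y, ‖y‖ ≤ L → ‖r y - y‖ ≤ ε := by
  obtain ⟨t, htsub, htfin, htcov⟩ :=
    (isCompact_closedBall (0 : EuclideanSpace ℝ (Fin d)) L).finite_cover_balls hε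
  let l := htfin.toFinset.toList
  let e : ℕ → EuclideanSpace ℝ (Fin d) := fun k => l.getD k 0
  have he : ∀ k, ‖e k‖ ≤ L := by
    intro k
    simp only [e]
    by_cases hk : k < l.length
    · rw [List.getD_eq_getElem _ _ hk]
      have : l[k] ∈ t := htfin.mem_toFinset.1 (Finset.mem_toList.1 (List.getElem_mem hk))
      exact mem_closedBall_zero_iff.1 (htsub this)
    · rw [List.getD_eq_default _ _ (not_lt.1 hk), norm_zero]
      exact hL
  refine ⟨SimpleFunc.nearestPt e l.length, SimpleFunc.measurable _, SimpleFunc.finite_range _,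
    fun y => ?_, fun y hy => ?_⟩
  · rw [SimpleFunc.nearestPt, SimpleFunc.map_apply]
    exact he _
  · have hy' := htcov (mem_closedBall_zero_iff.2 hy)
    simp only [Set.mem_iUnion] at hy'
    obtain ⟨c, hct, hc⟩ := hy'
    obtain ⟨k, hk, hck⟩ := List.getElem_of_mem (Finset.mem_toList.2 (htfin.mem_toFinset.2 hct))
    have h := SimpleFunc.edist_nearestPt_le e y (k := k) (N := l.length) hk.le
    rw [edist_dist, edist_dist, ENNReal.ofReal_le_ofReal_iff dist_nonneg, dist_eq_norm, dist_eq_norm] at h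
    refine h.trans ?_
    simp only [e]
    rw [List.getD_eq_getElem _ _ hk, hck, ← dist_eq_norm, dist_comm]
    exact (Metric.mem_ball.1 hc).le

/-- A finitely supported law as a list of positive atoms. -/
theorem exists_atoms {μ : Measure (EuclideanSpace ℝ (Fin d))} [IsProbabilityMeasure μ]
    {r : EuclideanSpace ℝ (Fin d) → EuclideanSpace ℝ (Fin d)} (hr : Measurable r)
    (hfin : (Set.range r).Finite) :
    ∃ (κ : Type) (_ : Fintype κ) (_ : Nonempty κ) (y : κ → EuclideanSpace ℝ (Fin d)) (m : κ → ℝ),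
      Function.Injective y ∧ (∀ k, 0 < m k) ∧ (∑ k, m k = 1) ∧ (∀ k, y k ∈ Set.range r) ∧
        μ.map r = discr y m := by
  classical
  have := Measure.isProbabilityMeasure_map (μ := μ) hr.aemeasurable
  obtain ⟨ν, hν⟩ : ∃ ν, ν = μ.map r := ⟨_, rfl⟩
  have : IsProbabilityMeasure ν := hν ▸ inferInstance
  let s := hfin.toFinset.filter fun p => 0 < ν.real {p}
  have hinj : Function.Injective (fun k : s => (k : EuclideanSpace ℝ (Fin d))) := Subtype.val_injective
  have hzero : ∀ p ∈ hfin.toFinset, p ∉ s → ν.real {p} = 0 := fun p hp hps =>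
    le_antisymm (not_lt.1 fun h => hps (Finset.mem_filter.2 ⟨hp, h⟩)) measureReal_nonneg
  have hrange : ∀ᵐ p ∂ν, p ∈ hfin.toFinset := by
    rw [hν]
    exact (ae_map_iff hr.aemeasurable hfin.toFinset.measurableSet).2 (ae_of_all _ fun x => by simp)
  have happ : ∀ A, MeasurableSet A →
      ν A = ∑ p ∈ s, ENNReal.ofReal (ν.real {p}) * A.indicator 1 p := by
    intro A hA
    have h1 : ν A = ν ↑(hfin.toFinset.filter fun p => p ∈ A) := by
      refine measure_congr ?_
      filter_upwards [hrange] with p hp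
      refine propext ⟨fun h => Finset.mem_coe.2 (Finset.mem_filter.2 ⟨hp, h⟩),
        fun h => (Finset.mem_filter.1 (Finset.mem_coe.1 h)).2⟩
    rw [h1, ← sum_measure_singleton, Finset.sum_filter,
      ← Finset.sum_subset (Finset.filter_subset (fun p => 0 < ν.real {p}) hfin.toFinset)
        (fun p hp hps => ?_)]
    · refine Finset.sum_congr rfl fun p _ => ?_
      by_cases h : p ∈ A <;> simp [h, ofReal_measureReal]
    · split_ifs
      · rw [← ofReal_measureReal, hzero p hp hps, ENNReal.ofReal_zero]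
      · rfl
  have hsum : ∑ k : s, ν.real {(k : EuclideanSpace ℝ (Fin d))} = 1 := by
    have h := happ univ MeasurableSet.univ
    rw [measure_univ] at h
    simp only [indicator_univ, Pi.one_apply, mul_one] at h
    rw [← ENNReal.ofReal_sum_of_nonneg fun p _ => measureReal_nonneg] at h
    rw [← Finset.sum_coe_sort s fun p => ν.real {p}] at h
    exact ENNReal.ofReal_eq_one.1 h.symm
  have : Nonempty s := by
    by_contra h
    rw [not_nonempty_iff] at h
    simp at hsum
  refine ⟨s, inferInstance, this, fun k => k, fun k => ν.real {(k : EuclideanSpace ℝ (Fin d))},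
    hinj, fun k => (Finset.mem_filter.1 k.2).2, hsum,
    fun k => hfin.mem_toFinset.1 (Finset.mem_filter.1 k.2).1, Measure.ext fun A hA => ?_⟩
  rw [← hν, happ A hA, discr_apply _ _ hA]
  exact (Finset.sum_coe_sort s fun p => ENNReal.ofReal (ν.real {p}) * A.indicator 1 p).symm

/-- `T` is the cell map of a finitely supported law with atoms of norm at most `L`. -/
def IsCellMap (K : Set (EuclideanSpace ℝ (Fin d))) (L : ℝ)
    (μ : Measure (EuclideanSpace ℝ (Fin d)))
    (T : EuclideanSpace ℝ (Fin d) → EuclideanSpace ℝ (Fin d)) : Prop :=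
  ∃ (κ : Type) (_ : Fintype κ) (_ : Nonempty κ) (y : κ → EuclideanSpace ℝ (Fin d))
    (m a : κ → ℝ), Function.Injective y ∧ (∀ k, 0 < m k) ∧ (∀ k, ‖y k‖ ≤ L) ∧
      SD (unif K) y m a ∧ μ = discr y m ∧ T = cellMap y a

theorem exists_cellMap {K : Set (EuclideanSpace ℝ (Fin d))} (hK : IsCompact K)
    (hne : (interior K).Nonempty) {L : ℝ} {μ : Measure (EuclideanSpace ℝ (Fin d))}
    [IsProbabilityMeasure μ] {r : EuclideanSpace ℝ (Fin d) → EuclideanSpace ℝ (Fin d)}
    (hr : Measurable r) (hfin : (Set.range r).Finite) (hrL : ∀ y, ‖r y‖ ≤ L) :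
    ∃ T, IsCellMap K L (μ.map r) T := by
  have := isProbabilityMeasure_unif hK hne
  obtain ⟨κ, _, _, y, m, hy, hm, hm1, hyr, he⟩ := exists_atoms (μ := μ) hr hfin
  obtain ⟨R, hKR⟩ := hK.isBounded.subset_closedBall 0
  obtain ⟨a, ha⟩ := exists_SD (unif_absolutelyContinuous K)
    ⟨R, (ae_mem_unif hK).mono fun x hx => mem_closedBall_zero_iff.1 (hKR hx)⟩ hy hm hm1
  refine ⟨cellMap y a, κ, inferInstance, inferInstance, y, m, a, hy, hm, fun k => ?_, ha, he, rfl⟩
  obtain ⟨x, hx⟩ := hyr k
  exact hx ▸ hrL x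

theorem IsCellMap.measurable {K : Set (EuclideanSpace ℝ (Fin d))} {L : ℝ}
    {μ : Measure (EuclideanSpace ℝ (Fin d))}
    {T : EuclideanSpace ℝ (Fin d) → EuclideanSpace ℝ (Fin d)} (h : IsCellMap K L μ T) :
    Measurable T := by
  obtain ⟨κ, _, _, y, m, a, -, -, -, -, -, rfl⟩ := h
  exact measurable_cellMap y a

theorem IsCellMap.norm_le {K : Set (EuclideanSpace ℝ (Fin d))} {L : ℝ}
    {μ : Measure (EuclideanSpace ℝ (Fin d))}
    {T : EuclideanSpace ℝ (Fin d) → EuclideanSpace ℝ (Fin d)} (h : IsCellMap K L μ T) :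
    ∀ᵐ x ∂(unif K), ‖T x‖ ≤ L := by
  obtain ⟨κ, _, _, y, m, a, hy, -, hyL, -, -, rfl⟩ := h
  filter_upwards [ae_exists_cell (unif_absolutelyContinuous K) hy a] with x hx
  obtain ⟨k, hk⟩ := hx
  exact cellMap_of_mem hk ▸ hyL k

/-- A coupling of two finitely supported laws is a matrix. -/
theorem integral_coupling {κ ι : Type} [Fintype κ] [Fintype ι]
    {y : κ → EuclideanSpace ℝ (Fin d)} {z : ι → EuclideanSpace ℝ (Fin d)}
    (hy : Function.Injective y) (hz : Function.Injective z) {m : κ → ℝ} {m' : ι → ℝ}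
    {π : Measure (EuclideanSpace ℝ (Fin d) × EuclideanSpace ℝ (Fin d))} [IsFiniteMeasure π]
    (h1 : π.map Prod.fst = discr y m) (h2 : π.map Prod.snd = discr z m')
    (f : EuclideanSpace ℝ (Fin d) × EuclideanSpace ℝ (Fin d) → ℝ) :
    ∫ p, f p ∂π = ∑ k, ∑ l, π.real {(y k, z l)} * f (y k, z l) := by
  classical
  have hr : ∀ {κ : Type} [Fintype κ] (y : κ → EuclideanSpace ℝ (Fin d)) (m : κ → ℝ),
      ∀ᵐ z ∂(discr y m), ∃ k, y k = z := fun {κ} _ y m => by
    have hA : MeasurableSet (Set.range y)ᶜ := (Set.finite_range y).measurableSet.compl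
    rw [ae_iff, show {z | ¬∃ k, y k = z} = (Set.range y)ᶜ from rfl, discr_apply y m hA]
    simp
  have hfst : ∀ᵐ p ∂π, ∃ k, y k = p.1 :=
    ae_of_ae_map measurable_fst.aemeasurable (h1 ▸ hr y m)
  have hsnd : ∀ᵐ p ∂π, ∃ l, z l = p.2 :=
    ae_of_ae_map measurable_snd.aemeasurable (h2 ▸ hr z m')
  have e : f =ᵐ[π] fun p => ∑ k, ∑ l, ({(y k, z l)} : Set _).indicator (fun _ => f (y k, z l)) p := by
    filter_upwards [hfst, hsnd] with p hp1 hp2
    obtain ⟨k, hk⟩ := hp1
    obtain ⟨l, hl⟩ := hp2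
    have hp : p = (y k, z l) := Prod.ext hk.symm hl.symm
    subst hp
    rw [Finset.sum_eq_single k, Finset.sum_eq_single l]
    · simp
    · intro b _ hb
      simp [hz.eq_iff, hb.symm]
    · simp
    · intro b _ hb
      simp [hy.eq_iff, hb.symm]
    · simp
  rw [integral_congr_ae e, integral_finsetSum _ fun k _ => integrable_finsetSum _ fun l _ =>
    (integrable_const _).indicator (measurableSet_singleton _)]
  refine Finset.sum_congr rfl fun k _ => ?_
  rw [integral_finsetSum _ fun l _ => (integrable_const _).indicator (measurableSet_singleton _)]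
  exact Finset.sum_congr rfl fun l _ => by
    rw [integral_indicator_const _ (measurableSet_singleton _), smul_eq_mul]

theorem coupling_marginals {κ ι : Type} [Fintype κ] [Fintype ι]
    {y : κ → EuclideanSpace ℝ (Fin d)} {z : ι → EuclideanSpace ℝ (Fin d)}
    (hy : Function.Injective y) (hz : Function.Injective z) {m : κ → ℝ} {m' : ι → ℝ}
    (hm : ∀ k, 0 ≤ m k) (hm' : ∀ l, 0 ≤ m' l)
    {π : Measure (EuclideanSpace ℝ (Fin d) × EuclideanSpace ℝ (Fin d))} [IsFiniteMeasure π]
    (h1 : π.map Prod.fst = discr y m) (h2 : π.map Prod.snd = discr z m') :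
    (∀ k, ∑ l, π.real {(y k, z l)} = m k) ∧ ∀ l, ∑ k, π.real {(y k, z l)} = m' l := by
  classical
  constructor
  · intro k
    let g : EuclideanSpace ℝ (Fin d) → ℝ := fun p => if p = y k then 1 else 0
    have hg : Measurable g :=
      Measurable.ite (measurableSet_singleton _) measurable_const measurable_const
    have h := integral_coupling hy hz h1 h2 (fun p => g p.1)
    rw [← integral_map measurable_fst.aemeasurable hg.aestronglyMeasurable, h1,
      integral_discr y hm] at h
    simpa [g, hy.eq_iff] using h.symm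
  · intro l
    let g : EuclideanSpace ℝ (Fin d) → ℝ := fun p => if p = z l then 1 else 0
    have hg : Measurable g :=
      Measurable.ite (measurableSet_singleton _) measurable_const measurable_const
    have h := integral_coupling hy hz h1 h2 (fun p => g p.2)
    rw [← integral_map measurable_snd.aemeasurable hg.aestronglyMeasurable, h2,
      integral_discr z hm'] at h
    simpa [g, hz.eq_iff] using h.symm

/-- The one-third estimate for cell maps, in terms of a coupling. -/
theorem cellMap_stability {n : ℕ} {K : Set (EuclideanSpace ℝ (Fin (n + 1)))} (hK : IsCompact K)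
    (hc : Convex ℝ K) (hne : (interior K).Nonempty) {L : ℝ} (hL : 0 < L) :
    ∃ C : ℝ, 0 < C ∧ ∀ μ ν T S, IsCellMap K L μ T → IsCellMap K L ν S →
      ∀ π : Measure (EuclideanSpace ℝ (Fin (n + 1)) × EuclideanSpace ℝ (Fin (n + 1))),
        IsFiniteMeasure π → π.map Prod.fst = μ → π.map Prod.snd = ν →
        ∫ x, ‖T x - S x‖ ^ 2 ∂(unif K) ≤ C * (∫ p, ‖p.1 - p.2‖ ^ 2 ∂π) ^ (1 / 3 : ℝ) := by
  obtain ⟨C, hC, h⟩ := finite_stability hK hc hne L hL
  refine ⟨C + 1, by linarith, ?_⟩
  rintro μ ν T S ⟨κ, _, _, y, m, a, hy, hm, hyL, ha, rfl, rfl⟩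
    ⟨ι, _, _, z, m', b, hz, hm', hzL, hb, rfl, rfl⟩ π hπ h1 h2
  obtain ⟨hw1, hw2⟩ :=
    coupling_marginals hy hz (fun k => (hm k).le) (fun l => (hm' l).le) h1 h2
  have h' := h y z hy hz hyL hzL m m' hm hm' a b ha hb (fun k l => π.real {(y k, z l)})
    (fun k l => measureReal_nonneg) hw1 hw2
  rw [← integral_coupling hy hz h1 h2 (fun p => ‖p.1 - p.2‖ ^ 2)] at h'
  exact h'.trans (mul_le_mul_of_nonneg_right (by linarith)
    (Real.rpow_nonneg (integral_nonneg fun p => sq_nonneg _) _))

end Vale.Agent.P074
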