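import Vale.Agent.P074.Approx
import Vale.Agent.P074.Lower

namespace Vale.Agent.P074

open MeasureTheory Filter Topology Set Finset
open scoped ENNReal

variable {n : ℕ}

/-- Optimal maps to measures on a ball exist and are approximated by cell maps. -/
theorem optimal_data {K : Set (EuclideanSpace ℝ (Fin (n + 1)))} (hK : IsCompact K)
    (hc : Convex ℝ K) (hne : (interior K).Nonempty) {L : ℝ} (hL : 0 < L)
    {r : ℕ → EuclideanSpace ℝ (Fin (n + 1)) → EuclideanSpace ℝ (Fin (n + 1))}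
    (hr : ∀ j, Measurable (r j)) (hfin : ∀ j, (Set.range (r j)).Finite)
    (hrL : ∀ j y, ‖r j y‖ ≤ L) (hrε : ∀ j y, ‖y‖ ≤ L → ‖r j y - y‖ ≤ acc j)
    {μ : Measure (EuclideanSpace ℝ (Fin (n + 1)))} [IsProbabilityMeasure μ]
    (hμ : ∀ᵐ z ∂μ, ‖z‖ ≤ L) :
    ∃ T : ℕ → EuclideanSpace ℝ (Fin (n + 1)) → EuclideanSpace ℝ (Fin (n + 1)),
      (∀ j, IsCellMap K L (μ.map (r j)) (T j)) ∧ (∃ T₀, IsOptimalMap K μ T₀) ∧
      ∀ S, IsOptimalMap K μ S →
        ∀ᵐ x ∂(unif K), Tendsto (fun j => T j x) atTop (𝓝 (S x)) := by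
  obtain ⟨C, hC, hC'⟩ := cellMap_stability hK hc hne hL
  choose T hT using fun j => exists_cellMap hK hne (μ := μ) (hr j) (hfin j) (hrL j)
  obtain ⟨T₀, hT₀, hpair, hlim⟩ := exists_limit_optimal hK hne hC.le hC' hμ hr hrε hT
  refine ⟨T, hT, ⟨T₀, hT₀⟩, fun S hS => ?_⟩
  filter_upwards [optimal_unique hK hc hne hμ hr hrL hrε hT hT₀ hpair hlim hS, hlim] with x h1 h2
  rw [h1]
  exact h2

theorem exists_optimalMap {d : ℕ} (hd : 1 ≤ d) {K : Set (EuclideanSpace ℝ (Fin d))}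
    (hK : IsCompact K) (hc : Convex ℝ K) (hne : (interior K).Nonempty)
    {Y : Set (EuclideanSpace ℝ (Fin d))} (hY : IsCompact Y)
    {μ : Measure (EuclideanSpace ℝ (Fin d))} [IsProbabilityMeasure μ] (hμY : μ Yᶜ = 0) :
    ∃ T, IsOptimalMap K μ T := by
  obtain ⟨n, rfl⟩ : ∃ n, d = n + 1 := ⟨d - 1, by omega⟩
  obtain ⟨L, hL, hYL⟩ : ∃ L, 0 < L ∧ ∀ z ∈ Y, ‖z‖ ≤ L := by
    obtain ⟨L, hL⟩ := hY.isBounded.subset_closedBall 0
    exact ⟨max L 1, lt_max_of_lt_right one_pos,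
      fun z hz => (mem_closedBall_zero_iff.1 (hL hz)).trans (le_max_left _ _)⟩
  choose r hr hfin hrL hrε using fun j => exists_rounding (d := n + 1) L hL.le (acc_pos j)
  obtain ⟨-, -, h, -⟩ := optimal_data hK hc hne hL hr hfin hrL hrε (μ := μ)
    ((mem_ae_iff.2 hμY : Y ∈ ae μ) |> fun h => Filter.mem_of_superset h hYL)
  exact h

theorem W2_coupling_exists {d : ℕ} (μ ν : Measure (EuclideanSpace ℝ (Fin d)))
    [IsProbabilityMeasure μ] [IsProbabilityMeasure ν] :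
    (μ.prod ν).map Prod.fst = μ ∧ (μ.prod ν).map Prod.snd = ν := by
  simp [Measure.map_fst_prod, Measure.map_snd_prod]

/-- The exponent one third is admissible. -/
theorem admissible_third {d : ℕ} (hd : 1 ≤ d) : Admissible d (1 / 3) := by
  obtain ⟨n, rfl⟩ : ∃ n, d = n + 1 := ⟨d - 1, by omega⟩
  intro K hK hc hne Y hY _
  obtain ⟨L, hL, hYL⟩ : ∃ L, 0 < L ∧ ∀ z ∈ Y, ‖z‖ ≤ L := by
    obtain ⟨L, hL⟩ := hY.isBounded.subset_closedBall 0
    exact ⟨max L 1, lt_max_of_lt_right one_pos,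
      fun z hz => (mem_closedBall_zero_iff.1 (hL hz)).trans (le_max_left _ _)⟩
  obtain ⟨C, hC, hC'⟩ := cellMap_stability hK hc hne hL
  choose r hr hfin hrL hrε using fun j => exists_rounding (d := n + 1) L hL.le (acc_pos j)
  refine ⟨Real.sqrt (C * 2 ^ (1 / 3 : ℝ)), fun μ ν _ _ hμY hνY T S hT hS => ?_⟩
  have := isProbabilityMeasure_unif hK hne
  have hμ : ∀ᵐ z ∂μ, ‖z‖ ≤ L := Filter.mem_of_superset (mem_ae_iff.2 hμY) hYL
  have hν : ∀ᵐ z ∂ν, ‖z‖ ≤ L := Filter.mem_of_superset (mem_ae_iff.2 hνY) hYL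
  obtain ⟨Tμ, hTμ, -, hlμ⟩ := optimal_data hK hc hne hL hr hfin hrL hrε hμ
  obtain ⟨Tν, hTν, -, hlν⟩ := optimal_data hK hc hne hL hr hfin hrL hrε hν
  obtain ⟨X, hX⟩ : ∃ X, X = ∫ x, ‖T x - S x‖ ^ 2 ∂(unif K) := ⟨_, rfl⟩
  have hX0 : 0 ≤ X := hX ▸ integral_nonneg fun x => sq_nonneg _
  have hconv : Tendsto (fun j => ∫ x, ‖Tμ j x - Tν j x‖ ^ 2 ∂(unif K)) atTop (𝓝 X) := by
    rw [hX]
    refine tendsto_integral_of_dominated_convergence (fun _ => (L + L) ^ 2)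
      (fun j => (((hTμ j).measurable.sub (hTν j).measurable).norm.pow_const 2).aestronglyMeasurable)
      (integrable_const _) (fun j => ?_) ?_
    · filter_upwards [(hTμ j).norm_le, (hTν j).norm_le] with x h1 h2
      rw [norm_pow, norm_norm]
      exact pow_le_pow_left₀ (norm_nonneg _) ((norm_sub_le _ _).trans (add_le_add h1 h2)) 2
    · filter_upwards [hlμ T hT, hlν S hS] with x h1 h2
      exact ((h1.sub h2).norm).pow 2
  have hbound : ∀ π : Measure (EuclideanSpace ℝ (Fin (n + 1)) × EuclideanSpace ℝ (Fin (n + 1))),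
      π.map Prod.fst = μ → π.map Prod.snd = ν →
      ∫⁻ p, ENNReal.ofReal (‖p.1 - p.2‖ ^ 2) ∂π
        = ENNReal.ofReal (∫ p, ‖p.1 - p.2‖ ^ 2 ∂π) ∧ (X / C) ^ 3 / 2 ≤ ∫ p, ‖p.1 - p.2‖ ^ 2 ∂π := by
    intro π h1 h2
    have : IsProbabilityMeasure (π.map Prod.fst) := h1 ▸ inferInstance
    have hπ : IsProbabilityMeasure π := Measure.isProbabilityMeasure_of_map Prod.fst
    have hint : Integrable (fun p => ‖p.1 - p.2‖ ^ 2) π := by
      refine Integrable.of_bound ((measurable_fst.sub measurable_snd).norm.pow_const 2).aestronglyMeasurable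
        ((L + L) ^ 2) ?_
      filter_upwards [ae_of_ae_map measurable_fst.aemeasurable (h1 ▸ hμ),
        ae_of_ae_map measurable_snd.aemeasurable (h2 ▸ hν)] with p hp1 hp2
      rw [norm_pow, norm_norm]
      exact pow_le_pow_left₀ (norm_nonneg _) ((norm_sub_le _ _).trans (add_le_add hp1 hp2)) 2
    refine ⟨(ofReal_integral_eq_lintegral_ofReal hint (ae_of_all _ fun p => sq_nonneg _)).symm, ?_⟩
    obtain ⟨c, hcdef⟩ : ∃ c, c = ∫ p, ‖p.1 - p.2‖ ^ 2 ∂π := ⟨_, rfl⟩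
    have hc0 : 0 ≤ c := hcdef ▸ integral_nonneg fun p => sq_nonneg _
    rw [← hcdef]
    have hlim : Tendsto (fun j => C * (2 * c + 2 * (acc j + acc j) ^ 2) ^ (1 / 3 : ℝ)) atTop
        (𝓝 (C * (2 * c + 2 * (0 + 0) ^ 2) ^ (1 / 3 : ℝ))) :=
      (((((tendsto_acc.add tendsto_acc).pow 2).const_mul 2).const_add (2 * c)).rpow_const
        (Or.inr (by norm_num))).const_mul C
    have hle : X ≤ C * (2 * c) ^ (1 / 3 : ℝ) := by
      have h := le_of_tendsto_of_tendsto' hconv hlim fun j => by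
        rw [hcdef]
        exact cost_rounded_le hC.le hC' (hr j) (hr j) (hTμ j) (hTν j)
          (hμ.mono fun z hz => hrε j z hz) (hν.mono fun z hz => hrε j z hz) (acc_pos j).le
          (acc_pos j).le h1 h2 hint
      simpa using h
    have h3 : (X / C) ^ 3 ≤ 2 * c := by
      have h4 : X / C ≤ (2 * c) ^ (1 / 3 : ℝ) := by
        rw [div_le_iff₀ hC, mul_comm]
        exact hle
      refine (pow_le_pow_left₀ (div_nonneg hX0 hC.le) h4 3).trans_eq ?_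
      rw [show (1 / 3 : ℝ) = ((3 : ℕ) : ℝ)⁻¹ by norm_num,
        Real.rpow_inv_natCast_pow (by linarith) (by norm_num)]
    linarith
  obtain ⟨v, hv⟩ : ∃ v, v = ⨅ (π : Measure (EuclideanSpace ℝ (Fin (n + 1)) ×
    EuclideanSpace ℝ (Fin (n + 1)))) (_ : π.map Prod.fst = μ) (_ : π.map Prod.snd = ν),
      ∫⁻ p, ENNReal.ofReal (‖p.1 - p.2‖ ^ 2) ∂π := ⟨_, rfl⟩
  have hvt : v ≠ ⊤ := by
    obtain ⟨p1, p2⟩ := W2_coupling_exists μ ν
    refine ne_top_of_le_ne_top ?_ (hv.le.trans (iInf_le_of_le _ (iInf_le_of_le p1 (iInf_le_of_le p2 le_rfl))))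
    rw [(hbound _ p1 p2).1]
    exact ENNReal.ofReal_ne_top
  have hlow : ENNReal.ofReal ((X / C) ^ 3 / 2) ≤ v := by
    rw [hv]
    refine le_iInf fun π => le_iInf fun h1 => le_iInf fun h2 => ?_
    rw [(hbound π h1 h2).1]
    exact ENNReal.ofReal_le_ofReal (hbound π h1 h2).2
  have hvr : (X / C) ^ 3 / 2 ≤ v.toReal := (ENNReal.ofReal_le_iff_le_toReal hvt).1 hlow
  have hW : W2 μ ν = Real.sqrt v.toReal := by rw [hv]; rfl
  rw [← hX, hW]
  have hv0 : 0 ≤ v.toReal := ENNReal.toReal_nonneg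
  have hX1 : X ≤ C * 2 ^ (1 / 3 : ℝ) * v.toReal ^ (1 / 3 : ℝ) := by
    rw [mul_assoc, ← Real.mul_rpow (by norm_num) hv0, ← div_le_iff₀' hC,
      show (1 / 3 : ℝ) = ((3 : ℕ) : ℝ)⁻¹ by norm_num]
    refine le_trans (le_of_eq (Real.pow_rpow_inv_natCast (div_nonneg hX0 hC.le) (by norm_num)).symm)
      (Real.rpow_le_rpow (by positivity) ?_ (by norm_num))
    linarith
  refine (Real.sqrt_le_sqrt hX1).trans_eq ?_
  rw [Real.sqrt_mul (by positivity)]
  congr 1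
  rw [Real.sqrt_eq_rpow, Real.sqrt_eq_rpow, ← Real.rpow_mul hv0, ← Real.rpow_mul hv0]
  norm_num

/-- The largest admissible exponent is one third. -/
theorem isGreatest_third {d : ℕ} (hd : 2 ≤ d) :
    IsGreatest {α : ℝ | α ∈ Set.Ioc (0 : ℝ) 1 ∧ Admissible d α} (1 / 3) :=
  ⟨⟨⟨by norm_num, by norm_num⟩, admissible_third (by omega)⟩,
    fun _ hα => not_lt.1 fun h => not_admissible hd h hα.2⟩

end Vale.Agent.P074
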