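import Vale.Agent.P074.CoreSum
import Vale.Agent.P074.Moving

namespace Vale.Agent.P074

open MeasureTheory Filter Topology Set Finset
open scoped ENNReal

variable {d : ℕ}

/-- The measure with a relative density `1 + h`. -/
noncomputable def tilt (K : Set (EuclideanSpace ℝ (Fin d)))
    (h : EuclideanSpace ℝ (Fin d) → ℝ) : Measure (EuclideanSpace ℝ (Fin d)) :=
  (unif K).withDensity fun x => ENNReal.ofReal (1 + h x)

variable {K : Set (EuclideanSpace ℝ (Fin d))} {h : EuclideanSpace ℝ (Fin d) → ℝ}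

theorem tilt_ac : tilt K h ≪ volume :=
  (withDensity_absolutelyContinuous _ _).trans (unif_absolutelyContinuous K)

theorem ae_norm_unif (hK : IsCompact K) {R : ℝ} (hKR : K ⊆ Metric.closedBall 0 R) :
    ∀ᵐ x ∂(unif K), ‖x‖ ≤ R :=
  (ae_mem_unif hK).mono fun _ hx => mem_closedBall_zero_iff.1 (hKR hx)

theorem ae_norm_tilt (hK : IsCompact K) {R : ℝ} (hKR : K ⊆ Metric.closedBall 0 R) :
    ∀ᵐ x ∂(tilt K h), ‖x‖ ≤ R :=
  (withDensity_absolutelyContinuous _ _).ae_le (ae_norm_unif hK hKR)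

theorem integral_tilt (hK : IsCompact K) (hh : Continuous h) (hhb : ∀ x ∈ K, |h x| ≤ 1 / 2)
    (f : EuclideanSpace ℝ (Fin d) → ℝ) :
    ∫ x, f x ∂(tilt K h) = ∫ x, (1 + h x) * f x ∂(unif K) := by
  have hmeas : Measurable fun x => ENNReal.ofReal (1 + h x) :=
    (continuous_const.add hh).measurable.ennreal_ofReal
  rw [tilt, integral_withDensity_eq_integral_toReal_smul hmeas
    (ae_of_all _ fun _ => ENNReal.ofReal_lt_top)]
  refine integral_congr_ae ?_
  filter_upwards [ae_mem_unif hK] with x hx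
  rw [ENNReal.toReal_ofReal (by linarith [(abs_le.1 (hhb x hx)).1]), smul_eq_mul]

theorem isProbabilityMeasure_tilt (hK : IsCompact K) (hne : (interior K).Nonempty)
    (hh : Continuous h) (hhb : ∀ x ∈ K, |h x| ≤ 1 / 2) (h0 : ∫ x, h x ∂(unif K) = 0) :
    IsProbabilityMeasure (tilt K h) := by
  have := isProbabilityMeasure_unif hK hne
  obtain ⟨R, hR⟩ := hK.isBounded.subset_closedBall 0
  have hi : Integrable (fun x => 1 + h x) (unif K) :=
    integrable_bounded_support (ae_norm_unif hK hR) (continuous_const.add hh)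
  refine ⟨?_⟩
  rw [tilt, withDensity_apply _ MeasurableSet.univ, setLIntegral_univ,
    ← ofReal_integral_eq_lintegral_ofReal hi ?_,
    integral_add (integrable_const _) (integrable_bounded_support (ae_norm_unif hK hR) hh), h0]
  · simp
  · filter_upwards [ae_mem_unif hK] with x hx
    show 0 ≤ 1 + h x
    linarith [(abs_le.1 (hhb x hx)).1]

theorem setIntegral_unif {S : Set (EuclideanSpace ℝ (Fin d))} (hS : MeasurableSet S)
    (f : EuclideanSpace ℝ (Fin d) → ℝ) :
    ∫ x in S, f x ∂(unif K) = (volume.real K)⁻¹ * ∫ x in S ∩ K, f x := by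
  rw [unif, Measure.restrict_smul, Measure.restrict_restrict hS, integral_smul_measure,
    ENNReal.toReal_inv, smul_eq_mul, measureReal_def]

theorem setIntegral_tilt (hK : IsCompact K) (hh : Continuous h) (hhb : ∀ x ∈ K, |h x| ≤ 1 / 2)
    {S : Set (EuclideanSpace ℝ (Fin d))} (hS : MeasurableSet S)
    (f : EuclideanSpace ℝ (Fin d) → ℝ) :
    ∫ x in S, f x ∂(tilt K h) = (volume.real K)⁻¹ * ∫ x in S ∩ K, (1 + h x) * f x := by
  rw [← setIntegral_unif hS, ← integral_indicator hS, ← integral_indicator hS,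
    integral_tilt hK hh hhb]
  refine integral_congr_ae (ae_of_all _ fun x => ?_)
  simp only [Set.indicator]
  split_ifs <;> simp

theorem real_unif {S : Set (EuclideanSpace ℝ (Fin d))} (hS : MeasurableSet S) :
    (unif K).real S = (volume.real K)⁻¹ * volume.real (S ∩ K) := by
  have := setIntegral_unif (K := K) hS (fun _ => (1 : ℝ))
  simpa [setIntegral_const] using this

theorem real_tilt (hK : IsCompact K) (hh : Continuous h) (hhb : ∀ x ∈ K, |h x| ≤ 1 / 2)
    {S : Set (EuclideanSpace ℝ (Fin d))} (hS : MeasurableSet S) :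
    (tilt K h).real S = (volume.real K)⁻¹ * ∫ x in S ∩ K, (1 + h x) := by
  have := setIntegral_tilt (K := K) hK hh hhb hS (fun _ => (1 : ℝ))
  simpa [setIntegral_const] using this

/-- The derivative gap between the uniform and the tilted problem. -/
theorem slope_gap {κ : Type} [Fintype κ] [Nonempty κ] (hK : IsCompact K) (hc : Convex ℝ K)
    (hne : (interior K).Nonempty) {R : ℝ} (hR : 0 < R) (hKR : K ⊆ Metric.closedBall 0 R)
    (hh : Continuous h) (hhb : ∀ x ∈ K, |h x| ≤ 1 / 2)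
    (y v : κ → EuclideanSpace ℝ (Fin d)) {t : ℝ}
    (ht : Function.Injective fun p => y p + t • v p) {w : κ → ℝ} (hw : ∀ p, 0 < w p)
    {a a' : κ → ℝ} (ha : SD (unif K) (fun p => y p + t • v p) w a)
    (ha' : SD (tilt K h) (fun p => y p + t • v p) w a') :
    |slope (tilt K h) y v a' t - slope (unif K) y v a t|
      ≤ 200 * R * Real.sqrt (∫ x, h x ^ 2 ∂(unif K)) * Real.sqrt (∑ p, w p * ‖v p‖ ^ 2) := by
  obtain ⟨V, hV⟩ : ∃ V, V = volume.real K := ⟨_, rfl⟩
  have hV0 : 0 < V := by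
    obtain ⟨h1, h2⟩ := volume_pos_lt_top hK hne
    rw [hV, measureReal_def]
    exact ENNReal.toReal_pos h1.ne' h2.ne
  have hC : ∀ p, volume.real (cell (fun p => y p + t • v p) a p ∩ K) = V * w p := fun p => by
    rw [← ha p, real_unif (measurableSet_cell _ _ _), ← hV, mul_inv_cancel_left₀ hV0.ne']
  have hC' : ∀ p, ∫ x in cell (fun p => y p + t • v p) a' p ∩ K, (1 + h x) = V * w p := fun p => by
    rw [← ha' p, real_tilt hK hh hhb (measurableSet_cell _ _ _), ← hV,
      mul_inv_cancel_left₀ hV0.ne']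
  have key := core_volume hK hc hR hKR ht (M := fun p => V * w p)
    (fun p => mul_pos hV0 (hw p)) hh hhb hC hC' v
  have e : slope (tilt K h) y v a' t - slope (unif K) y v a t
      = V⁻¹ * ∑ p, ((∫ x in cell (fun p => y p + t • v p) a' p ∩ K, inner ℝ x (v p) * (1 + h x))
        - ∫ x in cell (fun p => y p + t • v p) a p ∩ K, inner ℝ x (v p)) := by
    rw [slope, slope, ← sum_sub_distrib, mul_sum]
    refine sum_congr rfl fun p _ => ?_
    rw [setIntegral_tilt hK hh hhb (measurableSet_cell _ _ _),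
      setIntegral_unif (measurableSet_cell _ _ _), ← hV, mul_sub]
    simp only [mul_comm (1 + h _)]
  have eq : ∫ x in K, h x ^ 2 = V * ∫ x, h x ^ 2 ∂(unif K) := by
    rw [integral_unif, ← hV, mul_inv_cancel_left₀ hV0.ne']
  have ew : ∑ p, V * w p * ‖v p‖ ^ 2 = V * ∑ p, w p * ‖v p‖ ^ 2 := by
    simp [mul_sum, mul_assoc]
  rw [e, abs_mul, abs_of_pos (inv_pos.2 hV0), inv_mul_le_iff₀ hV0]
  refine key.trans (le_of_eq ?_)
  rw [eq, ew, Real.sqrt_mul hV0.le, Real.sqrt_mul hV0.le]
  linear_combination (200 * R * Real.sqrt (∫ x, h x ^ 2 ∂(unif K))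
    * Real.sqrt (∑ p, w p * ‖v p‖ ^ 2)) * Real.mul_self_sqrt hV0.le

/-- The change of the tilted value gap along a coupling. -/
theorem val_gap {κ ι : Type} [Fintype κ] [Fintype ι] [Nonempty κ] [Nonempty ι]
    (hK : IsCompact K) (hc : Convex ℝ K) (hne : (interior K).Nonempty) {R : ℝ} (hR : 0 < R)
    (hKR : K ⊆ Metric.closedBall 0 R) (hh : Continuous h) (hhb : ∀ x ∈ K, |h x| ≤ 1 / 2)
    (h0 : ∫ x, h x ∂(unif K) = 0) {y : κ → EuclideanSpace ℝ (Fin d)}
    {z : ι → EuclideanSpace ℝ (Fin d)} (hy : Function.Injective y) (hz : Function.Injective z)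
    {m : κ → ℝ} {n : ι → ℝ} (hm : ∀ k, 0 < m k) (hn : ∀ l, 0 < n l) (hm1 : ∑ k, m k = 1)
    (hn1 : ∑ l, n l = 1) {w : κ → ι → ℝ} (hw : ∀ k l, 0 ≤ w k l)
    (hwm : ∀ k, ∑ l, w k l = m k) (hwn : ∀ l, ∑ k, w k l = n l) :
    (val (tilt K h) z n - val (unif K) z n) - (val (tilt K h) y m - val (unif K) y m)
      ≤ 200 * R * Real.sqrt (∫ x, h x ^ 2 ∂(unif K))
        * Real.sqrt (∑ k, ∑ l, w k l * ‖y k - z l‖ ^ 2) := by
  classical
  have := isProbabilityMeasure_unif hK hne
  have := isProbabilityMeasure_tilt hK hne hh hhb h0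
  have hRu := ae_norm_unif hK hKR
  have hRt : ∀ᵐ x ∂(tilt K h), ‖x‖ ≤ R := ae_norm_tilt hK hKR
  have hfst : ∀ c : κ × ι → ℝ, ∀ k, (∀ q : κ × ι, w q.1 q.2 = 0 → c q = 0) →
      ∑ p : {q : κ × ι // 0 < w q.1 q.2} with p.1.1 = k, c p.1 = ∑ l, c (k, l) := by
    intro c k hc0
    rw [sum_filter, ← sum_subtype (univ.filter fun q : κ × ι => 0 < w q.1 q.2) (by simp)
      (fun q => if q.1 = k then c q else 0), sum_filter_of_ne (fun q _ hq => ?_),
      Fintype.sum_prod_type]
    · rw [sum_eq_single k (fun b _ hb => by simp [hb]) (by simp)]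
      simp
    · exact lt_of_le_of_ne (hw _ _) fun e => hq (by simp [hc0 q e.symm])
  have hsnd : ∀ c : κ × ι → ℝ, ∀ l, (∀ q : κ × ι, w q.1 q.2 = 0 → c q = 0) →
      ∑ p : {q : κ × ι // 0 < w q.1 q.2} with p.1.2 = l, c p.1 = ∑ k, c (k, l) := by
    intro c l hc0
    rw [sum_filter, ← sum_subtype (univ.filter fun q : κ × ι => 0 < w q.1 q.2) (by simp)
      (fun q => if q.2 = l then c q else 0), sum_filter_of_ne (fun q _ hq => ?_),
      Fintype.sum_prod_type]
    · exact sum_congr rfl fun k _ => by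
        rw [sum_eq_single l (fun b _ hb => by simp [hb]) (by simp)]
        simp
    · exact lt_of_le_of_ne (hw _ _) fun e => hq (by simp [hc0 q e.symm])
  have h1' := fun k => (hfst (fun q => w q.1 q.2) k (fun q e => e)).trans (hwm k)
  have h2' := fun l => (hsnd (fun q => w q.1 q.2) l (fun q e => e)).trans (hwn l)
  obtain ⟨k0⟩ := ‹Nonempty κ›
  have : Nonempty {q : κ × ι // 0 < w q.1 q.2} := by
    by_contra hc0
    rw [not_nonempty_iff] at hc0
    have := h1' k0
    simp only [univ_eq_empty, filter_empty, sum_empty] at this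
    exact (hm k0).ne this
  let P := {q : κ × ι // 0 < w q.1 q.2}
  let y' : P → EuclideanSpace ℝ (Fin d) := fun p => y p.1.1
  let v : P → EuclideanSpace ℝ (Fin d) := fun p => z p.1.2 - y p.1.1
  let w' : P → ℝ := fun p => w p.1.1 p.1.2
  have hw' : ∀ p, 0 < w' p := fun p => p.2
  have hw1 : ∑ p, w' p = 1 := by
    rw [← sum_fiberwise univ (fun p : P => p.1.1) w', sum_congr rfl (fun k _ => h1' k), hm1]
  let good : Set ℝ := {t | Function.Injective fun p => y' p + t • v p}
  have hgood : goodᶜ.Finite := by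
    have hsub : goodᶜ ⊆ ⋃ p : P, ⋃ q : P, {t | p ≠ q ∧ y' p + t • v p = y' q + t • v q} := by
      intro t ht
      simp only [good, Set.mem_compl_iff, Set.mem_setOf_eq, Function.Injective, not_forall] at ht
      obtain ⟨p, q, he, hpq⟩ := ht
      simp only [Set.mem_iUnion]
      exact ⟨p, q, hpq, he⟩
    refine (Set.finite_iUnion fun p => Set.finite_iUnion fun q => Set.Subsingleton.finite ?_).subset hsub
    rintro s ⟨hpq, hs⟩ t ⟨-, ht⟩
    by_contra hst
    have hv : (s - t) • (v p - v q) = 0 := by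
      linear_combination (norm := module) hs - ht
    have hvv : v p = v q := sub_eq_zero.1 ((smul_eq_zero.1 hv).resolve_left (sub_ne_zero.2 hst))
    rw [hvv] at hs
    have h1 : y' p = y' q := add_right_cancel hs
    have h2 : z p.1.2 = z q.1.2 := by
      have h3 : z p.1.2 - y p.1.1 = z q.1.2 - y q.1.1 := hvv
      have h4 : y p.1.1 = y q.1.1 := h1
      rw [h4] at h3
      exact sub_left_inj.1 h3
    exact hpq (Subtype.ext (Prod.ext (hy h1) (hz h2)))
  have hat : ∀ t, ∃ a : P → ℝ, t ∈ good → SD (tilt K h) (fun p => y' p + t • v p) w' a := fun t => by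
    by_cases ht : t ∈ good
    · obtain ⟨a, ha⟩ := exists_SD tilt_ac ⟨R, hRt⟩ ht hw' hw1
      exact ⟨a, fun _ => ha⟩
    · exact ⟨0, fun h' => absurd h' ht⟩
  have hau : ∀ t, ∃ a : P → ℝ, t ∈ good → SD (unif K) (fun p => y' p + t • v p) w' a := fun t => by
    by_cases ht : t ∈ good
    · obtain ⟨a, ha⟩ := exists_SD (unif_absolutelyContinuous K) ⟨R, hRu⟩ ht hw' hw1
      exact ⟨a, fun _ => ha⟩
    · exact ⟨0, fun h' => absurd h' ht⟩
  choose at' hat' using hat
  choose au hau' using hau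
  have key := gap_of_slopes hgood (continuous_val_move hRt hw' hw1 y' v)
    (continuous_val_move hRu hw' hw1 y' v)
    (fun t ht s => slope_le tilt_ac hRt hw' hw1 y' v ht (hat' t ht) s)
    (fun t ht s => slope_le (unif_absolutelyContinuous K) hRu hw' hw1 y' v ht (hau' t ht) s)
    (fun t ht => abs_slope_le (unif_absolutelyContinuous K) hRu y' v ht (au t))
    (fun t ht _ _ => (le_abs_self _).trans
      (slope_gap hK hc hne hR hKR hh hhb y' v ht hw' (hau' t ht) (hat' t ht)))
  have e0 : (fun p => y' p + (0 : ℝ) • v p) = y ∘ fun p : P => p.1.1 := by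
    funext p; simp [y']
  have e1 : (fun p => y' p + (1 : ℝ) • v p) = z ∘ fun p : P => p.1.2 := by
    funext p; simp [y', v]
  rw [e0, e1, val_merge hRt _ y hw' hm hm1 h1', val_merge hRu _ y hw' hm hm1 h1',
    val_merge hRt _ z hw' hn hn1 h2', val_merge hRu _ z hw' hn hn1 h2'] at key
  refine key.trans (le_of_eq ?_)
  congr 2
  rw [← sum_fiberwise univ (fun p : P => p.1.1)]
  refine sum_congr rfl fun k _ => ?_
  rw [← hfst (fun q => w q.1 q.2 * ‖y q.1 - z q.2‖ ^ 2) k (fun q e => by simp [e])]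
  exact sum_congr rfl fun p _ => by simp [w', v, norm_sub_rev]

end Vale.Agent.P074
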